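import Mathlib

/-!
P110F: definitions for the construction of Littlewood polynomials that are flat in mean.
-/

namespace Vale.Agent.P110F

open MeasureTheory
open scoped ComplexConjugate

/-- `e1 x = exp (2 π i x)`. -/
noncomputable def e1 (x : ℝ) : ℂ := Complex.exp (2 * Real.pi * Complex.I * x)

lemma e1_add (x y : ℝ) : e1 (x + y) = e1 x * e1 y := by
  unfold e1
  rw [← Complex.exp_add]
  congr 1
  push_cast
  ring

lemma e1_zero : e1 0 = 1 := by simp [e1]

lemma e1_neg (x : ℝ) : e1 (-x) = conj (e1 x) := by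
  unfold e1
  rw [← Complex.exp_conj]
  congr 1
  simp [Complex.conj_ofReal, Complex.conj_ofNat]

lemma norm_e1 (x : ℝ) : ‖e1 x‖ = 1 := by
  unfold e1
  rw [show (2 * Real.pi * Complex.I * x : ℂ) = ((2 * Real.pi * x : ℝ) : ℂ) * Complex.I by
    push_cast; ring]
  exact Complex.norm_exp_ofReal_mul_I _

lemma e1_int (z : ℤ) : e1 z = 1 := by
  unfold e1
  rw [show (2 * Real.pi * Complex.I * ((z : ℝ) : ℂ) : ℂ) = z * (2 * Real.pi * Complex.I) by
    push_cast; ring]
  exact Complex.exp_int_mul_two_pi_mul_I z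

lemma continuous_e1 : Continuous e1 := by
  unfold e1
  fun_prop

/-- Orthogonality on the circle. -/
lemma integral_e1_int (z : ℤ) : ∫ x in (0 : ℝ)..1, e1 (z * x) = if z = 0 then 1 else 0 := by
  split_ifs with h
  · subst h
    simp [e1]
  · have hz : (2 * Real.pi * Complex.I * z : ℂ) ≠ 0 := by
      simp [Real.pi_ne_zero, Complex.I_ne_zero, h]
    have : ∀ x : ℝ, e1 (z * x) = Complex.exp ((2 * Real.pi * Complex.I * z : ℂ) * x) := by
      intro x
      unfold e1
      congr 1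
      push_cast
      ring
    simp_rw [this]
    rw [integral_exp_mul_complex hz]
    have h1 : Complex.exp ((2 * Real.pi * Complex.I * z : ℂ) * ((1 : ℝ) : ℂ)) = 1 := by
      have := e1_int z
      unfold e1 at this
      rw [← this]
      congr 1
      push_cast
      ring
    rw [h1]
    simp

/-- The Kronecker curve. -/
def kr (n L : ℕ) (x : ℝ) (i : Fin n) : ℝ := ((4 * L : ℕ) : ℝ) ^ (i : ℕ) * x

/-- The quadratic form of a matrix. -/
def quad {n : ℕ} (H : Matrix (Fin n) (Fin n) ℝ) (y : Fin n → ℝ) : ℝ :=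
  ∑ i, ∑ j, y i * H i j * y j

/-- The quadratic exponential sum over one cell, along the Kronecker curve. -/
noncomputable def SS {n : ℕ} (H : Matrix (Fin n) (Fin n) ℝ) (b : Fin n → ℝ) (L : ℕ) (x : ℝ) : ℂ :=
  ∑ y : Fin n → Fin L, e1 (quad H (fun i => ((y i : ℕ) : ℝ)) / (2 * L) +
    ∑ i, (b i + kr n L x i) * ((y i : ℕ) : ℝ))

/-- The box of differences. -/
noncomputable def dbox (n L : ℕ) : Finset (Fin n → ℤ) :=
  Fintype.piFinset fun _ => Finset.Ioo (-(L : ℤ)) L

/-- The points `y` such that `y` and `y + d` lie in the box. -/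
noncomputable def bx (n L : ℕ) (d : Fin n → ℤ) : Finset (Fin n → ℤ) :=
  Fintype.piFinset fun i => Finset.Ico (max 0 (-d i)) (min (L : ℤ) (L - d i))

/-- The coefficient of the squared modulus of the exponential sum. -/
noncomputable def cc {n : ℕ} (H : Matrix (Fin n) (Fin n) ℝ) (b : Fin n → ℝ) (L : ℕ)
    (d : Fin n → ℤ) : ℂ :=
  ∑ y ∈ bx n L d, e1 ((quad H (fun i => ((y i + d i : ℤ) : ℝ)) -
    quad H (fun i => ((y i : ℤ) : ℝ))) / (2 * L) + ∑ i, b i * (d i : ℝ))

/-- Integral of a pure frequency over the unit interval. -/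
noncomputable def sg (t : ℝ) : ℂ := ∫ u in (0 : ℝ)..1, e1 (t * u)

/-- The limit coefficient. -/
noncomputable def gg {n : ℕ} (H : Matrix (Fin n) (Fin n) ℝ) (b : Fin n → ℝ)
    (d : Fin n → ℤ) : ℂ :=
  e1 (∑ i, b i * (d i : ℝ)) * ∏ i, sg (∑ j, H i j * (d j : ℝ))

/-- An integer matrix scaled by a real number. -/
def scl {n : ℕ} (c : ℝ) (A : Matrix (Fin n) (Fin n) ℤ) : Matrix (Fin n) (Fin n) ℝ :=
  fun i j => c * (A i j : ℝ)

/-- The domination weight. -/
noncomputable def wt {n : ℕ} (H : Matrix (Fin n) (Fin n) ℝ) (d : Fin n → ℤ) : ℝ :=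
  ∏ i, 1 / max 1 (2 * |∑ j, H i j * (d j : ℝ)|)

/-- The closed unit cube. -/
def cube (n : ℕ) : Set (Fin n → ℝ) := Set.pi Set.univ (fun _ => Set.Icc (0 : ℝ) 1)

/-- The half open unit cube. -/
def hcube (n : ℕ) : Set (Fin n → ℝ) := Set.pi Set.univ (fun _ => Set.Ico (0 : ℝ) 1)

/-- The one dimensional Fejer kernel. -/
noncomputable def K1 (R : ℕ) (t : ℝ) : ℝ :=
  ‖∑ r ∈ Finset.range R, e1 ((r : ℝ) * t)‖ ^ 2 / R

/-- The pieces `b + H [0,1]^n` and `b' + H' [0,1]^n` are separated modulo integer vectors. -/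
def Sep {n : ℕ} (H : Matrix (Fin n) (Fin n) ℝ) (b : Fin n → ℝ) (H' : Matrix (Fin n) (Fin n) ℝ)
    (b' : Fin n → ℝ) : Prop :=
  ∃ η > 0, ∀ u ∈ cube n, ∀ u' ∈ cube n, ∃ i, ∀ z : ℤ,
    η ≤ |(b i + ∑ j, H i j * u j) - (b' i + ∑ j, H' i j * u' j) - z|

/-- The last nonzero entry is `1`. -/
def LNO {k : ℕ} (m : Fin k → ℤ) : Prop := ∃ i, m i = 1 ∧ ∀ j, i < j → m j = 0

/-- Real action of a ring with an integer basis, by left multiplication. -/
noncomputable def act {O : Type} [CommRing O] {D : ℕ} (B : Module.Basis (Fin D) ℤ O) (a : O)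
    (v : Fin D → ℝ) (i : Fin D) : ℝ :=
  ∑ j, ((Algebra.leftMulMatrix B a i j : ℤ) : ℝ) * v j

/-- Union of the images of a box around `p` under a finite set of ring elements, modulo integer
vectors. The box is open if `cl` is false and closed if `cl` is true. -/
def EE {O : Type} [CommRing O] {D : ℕ} (B : Module.Basis (Fin D) ℤ O) (Ψ : Finset O)
    (p : Fin D → ℝ) (ρ : ℝ) (cl : Bool) : Set (Fin D → ℝ) :=
  {x | ∃ a ∈ Ψ, ∃ y : Fin D → ℝ, (∀ i, if cl then |y i - p i| ≤ ρ else |y i - p i| < ρ) ∧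
    ∃ w : Fin D → ℤ, ∀ i, x i = act B a y i + w i}

/-- The half open unit cube for nested vectors. -/
def hcube2 (J D : ℕ) : Set (Fin J → Fin D → ℝ) :=
  Set.pi Set.univ fun _ => Set.pi Set.univ fun _ => Set.Ico (0 : ℝ) 1

/-- The block matrix with hyperbolic block `Y` and diagonal `h`. -/
def blk {P N₁ : Type} [DecidableEq N₁] (Y : Matrix P P ℤ) (h : N₁ → ℤ) :
    Matrix ((P ⊕ P) ⊕ N₁) ((P ⊕ P) ⊕ N₁) ℤ :=
  Matrix.fromBlocks (Matrix.fromBlocks 0 Y.transpose Y 0) 0 0 (Matrix.diagonal h)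

/-- The stopped walk with steps `η √2 cos (2 π x_i)`, stopped when it leaves `(-1, 1)`. -/
noncomputable def XX (η : ℝ) : (k : ℕ) → UnitAddTorus (Fin k) → ℝ
  | 0, _ => 0
  | k + 1, x => XX η k (fun i => x i.castSucc) +
      (if |XX η k (fun i => x i.castSucc)| < 1 then
        η * Real.sqrt 2 * (fourier 1 (x (Fin.last k)) : ℂ).re else 0)

end Vale.Agent.P110F
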