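import Mathlib
import Vale.Agent.Lib.P110F.Defs

/-!
P110F: integer polynomials with prescribed common zeros.
-/

namespace Vale.Agent.P110F

open MeasureTheory Filter Topology
open scoped ComplexConjugate ENNReal

private lemma b1a_avoid {ι : Type} (s : Finset ι) (Q : ι → Polynomial ℤ)
    (hQ : ∀ i ∈ s, Q i ≠ 0) : ∃ y : ℤ, ∀ i ∈ s, (Q i).eval y ≠ 0 := by
  have h1 : ∏ i ∈ s, Q i ≠ 0 := Finset.prod_ne_zero_iff.2 hQ
  obtain ⟨y, hy⟩ : ∃ y : ℤ, (∏ i ∈ s, Q i).eval y ≠ 0 := by
    by_contra hcon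
    push Not at hcon
    exact h1 (Polynomial.funext fun r => by rw [hcon r, Polynomial.eval_zero])
  refine ⟨y, fun i hi h => hy ?_⟩
  rw [Polynomial.eval_prod]
  exact Finset.prod_eq_zero hi h

/-- the polynomial with coefficients `w` -/
private noncomputable def b1aP {k : ℕ} (w : Fin k → ℤ) : Polynomial ℤ :=
  ∑ i, Polynomial.C (w i) * Polynomial.X ^ (i : ℕ)

private lemma b1aP_coeff {k : ℕ} (w : Fin k → ℤ) (j : Fin k) : (b1aP w).coeff (j : ℕ) = w j := by
  unfold b1aP
  rw [Polynomial.finsetSum_coeff, Finset.sum_eq_single j]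
  · rw [Polynomial.coeff_C_mul, Polynomial.coeff_X_pow, if_pos rfl, mul_one]
  · intro i _ hij
    rw [Polynomial.coeff_C_mul, Polynomial.coeff_X_pow, if_neg, mul_zero]
    intro h
    exact hij (Fin.ext h.symm)
  · intro h
    exact absurd (Finset.mem_univ _) h

private lemma b1aP_ne {k : ℕ} {w : Fin k → ℤ} (hw : w ≠ 0) : b1aP w ≠ 0 := by
  intro h
  apply hw
  funext j
  rw [← b1aP_coeff w j, h, Polynomial.coeff_zero]
  rfl

private lemma b1aP_eval {k : ℕ} (w : Fin k → ℤ) (y : ℤ) :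
    (b1aP w).eval y = ∑ i, w i * y ^ (i : ℕ) := by
  unfold b1aP
  rw [Polynomial.eval_finsetSum]
  refine Finset.sum_congr rfl fun i _ => ?_
  rw [Polynomial.eval_mul, Polynomial.eval_C, Polynomial.eval_pow, Polynomial.eval_X]

private lemma b1aP_monic {k : ℕ} {m : Fin k → ℤ} (hm : LNO m) : (b1aP m).Monic := by
  obtain ⟨i0, h1, h2⟩ := hm
  refine Polynomial.monic_of_natDegree_le_of_coeff_eq_one (i0 : ℕ) ?_ ?_
  · unfold b1aP
    refine Polynomial.natDegree_sum_le_of_forall_le _ _ fun i _ => ?_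
    rcases lt_or_ge i0 i with h | h
    · rw [h2 i h, Polynomial.C_0, zero_mul, Polynomial.natDegree_zero]
      exact Nat.zero_le _
    · exact (Polynomial.natDegree_C_mul_X_pow_le _ _).trans h
  · rw [b1aP_coeff, h1]

private lemma b1a_C (z : ℤ) : (z : Polynomial ℤ) = Polynomial.C z :=
  (eq_intCast Polynomial.C z).symm

private lemma b1a_vectors {k : ℕ} (Sp : Finset (Fin k → ℤ)) (hS : ∀ m ∈ Sp, LNO m) :
    ∃ (v : Fin k → ℤ) (τ : Sp → Fin k → ℤ), (∀ m' : Sp, ∑ i, m'.1 i * v i ≠ 0) ∧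
      ∀ m m' : Sp, ∑ i, m'.1 i * τ m i = 0 ↔ m' = m := by
  classical
  -- the last nonzero entry
  have hlast : ∀ m : Sp, ∃ i, m.1 i = 1 ∧ ∀ j, i < j → m.1 j = 0 := fun m => hS m.1 m.2
  choose i0 hi0 hi1 using hlast
  have hne0 : ∀ m : Sp, m.1 ≠ 0 := by
    intro m h
    have := hi0 m
    rw [h] at this
    exact zero_ne_one this
  -- distinct vectors are not proportional
  have hnp : ∀ m m' : Sp, m' ≠ m → (fun i => m'.1 i - m'.1 (i0 m) * m.1 i) ≠ 0 := by
    intro m m' hne h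
    have h1 : ∀ i, m'.1 i = m'.1 (i0 m) * m.1 i := by
      intro i
      have := congrFun h i
      simp only [Pi.zero_apply] at this
      linarith
    have hc0 : m'.1 (i0 m) ≠ 0 := by
      intro hc
      apply hne0 m'
      funext i
      rw [h1 i, hc, zero_mul]
      rfl
    have h2 : i0 m' = i0 m := by
      rcases lt_trichotomy (i0 m') (i0 m) with hlt | heq | hgt
      · exact absurd (hi1 m' _ hlt) hc0
      · exact heq
      · have h3 := h1 (i0 m')
        rw [hi1 m _ hgt, mul_zero, hi0 m'] at h3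
        exact absurd h3 one_ne_zero
    have h4 : m'.1 (i0 m) = 1 := by rw [← h2]; exact hi0 m'
    apply hne
    apply Subtype.ext
    funext i
    rw [h1 i, h4, one_mul]
  -- a generic point of the moment curve
  obtain ⟨y, hy⟩ := b1a_avoid (Finset.univ : Finset (Option Sp × Sp))
    (fun a => match a with
      | (none, m') => b1aP m'.1
      | (some m, m') => if m' = m then 1 else b1aP (fun i => m'.1 i - m'.1 (i0 m) * m.1 i))
    (by
      rintro ⟨o, m'⟩ -
      cases o with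
      | none => exact b1aP_ne (hne0 m')
      | some m =>
        change (if m' = m then (1 : Polynomial ℤ) else _) ≠ 0
        by_cases h : m' = m
        · rw [if_pos h]; exact one_ne_zero
        · rw [if_neg h]; exact b1aP_ne (hnp m m' h))
  set v : Fin k → ℤ := fun i => y ^ (i : ℕ) with hv
  have hv0 : ∀ m' : Sp, ∑ i, m'.1 i * v i ≠ 0 := by
    intro m'
    have := hy (none, m') (Finset.mem_univ _)
    change (b1aP m'.1).eval y ≠ 0 at this
    rwa [b1aP_eval] at this
  have hv1 : ∀ m m' : Sp, m' ≠ m →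
      ∑ i, m'.1 i * v i - m'.1 (i0 m) * ∑ i, m.1 i * v i ≠ 0 := by
    intro m m' hne
    have := hy (some m, m') (Finset.mem_univ _)
    change Polynomial.eval y (if m' = m then (1 : Polynomial ℤ) else _) ≠ 0 at this
    rw [if_neg hne, b1aP_eval] at this
    intro h
    apply this
    rw [← h, Finset.mul_sum, ← Finset.sum_sub_distrib]
    refine Finset.sum_congr rfl fun i _ => ?_
    rw [hv]
    ring
  refine ⟨v, fun m i => v i - (∑ j, m.1 j * v j) * (if i = i0 m then 1 else 0), hv0, ?_⟩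
  intro m m'
  have h1 : ∀ i, m'.1 i * (v i - (∑ j, m.1 j * v j) * (if i = i0 m then 1 else 0)) =
      m'.1 i * v i - (if i = i0 m then m'.1 i * ∑ j, m.1 j * v j else 0) := by
    intro i
    by_cases h : i = i0 m
    · simp only [h, if_true]
      ring
    · simp only [h, if_false]
      ring
  rw [Finset.sum_congr rfl fun i _ => h1 i, Finset.sum_sub_distrib,
    Finset.sum_ite_eq' Finset.univ (i0 m), if_pos (Finset.mem_univ _)]
  constructor
  · intro h
    by_contra hne
    exact hv1 m m' hne h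
  · rintro rfl
    rw [hi0, one_mul, sub_self]

/-- nodes, Lagrange products and the full product -/
private lemma b1a_nodes (G : Type) [Fintype G] [DecidableEq G] :
    ∃ (xg : G → ℤ) (Lg : G → Polynomial ℤ) (Q : Polynomial ℤ), Q.Monic ∧
      Q.natDegree = Fintype.card G ∧ (∀ g, Q.eval (xg g) = 0) ∧
      (∀ g, Lg g ∈ Polynomial.degreeLT ℤ (Fintype.card G)) ∧
      (∀ g g2, g2 ≠ g → (Lg g2).eval (xg g) = 0) ∧ ∀ g, (Lg g).eval (xg g) ≠ 0 := by
  classical
  let xg : G → ℤ := fun g => ((Fintype.equivFin G g : ℕ) : ℤ)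
  have hxinj : Function.Injective xg := by
    intro a b hab
    have h1 : ((Fintype.equivFin G a : ℕ) : ℤ) = ((Fintype.equivFin G b : ℕ) : ℤ) := hab
    exact (Fintype.equivFin G).injective (Fin.ext (by exact_mod_cast h1))
  refine ⟨xg, fun g => ∏ g2 ∈ Finset.univ.erase g, (Polynomial.X - Polynomial.C (xg g2)),
    ∏ g2 : G, (Polynomial.X - Polynomial.C (xg g2)), ?_, ?_, ?_, ?_, ?_, ?_⟩
  · exact Polynomial.monic_prod_of_monic _ _ fun g _ => Polynomial.monic_X_sub_C _
  · rw [Polynomial.natDegree_prod_of_monic _ _ fun g _ => Polynomial.monic_X_sub_C _]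
    simp only [Polynomial.natDegree_X_sub_C, Finset.sum_const, Finset.card_univ, smul_eq_mul,
      mul_one]
  · intro g
    rw [Polynomial.eval_prod]
    refine Finset.prod_eq_zero (Finset.mem_univ g) ?_
    rw [Polynomial.eval_sub, Polynomial.eval_X, Polynomial.eval_C, sub_self]
  · intro g
    rw [Polynomial.mem_degreeLT]
    have hmon : (∏ g2 ∈ Finset.univ.erase g, (Polynomial.X - Polynomial.C (xg g2))).Monic :=
      Polynomial.monic_prod_of_monic _ _ fun g _ => Polynomial.monic_X_sub_C _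
    rw [Polynomial.degree_eq_natDegree hmon.ne_zero,
      Polynomial.natDegree_prod_of_monic _ _ fun g _ => Polynomial.monic_X_sub_C _]
    simp only [Polynomial.natDegree_X_sub_C, Finset.sum_const, smul_eq_mul, mul_one]
    have h1 : (Finset.univ.erase g).card < Fintype.card G :=
      Finset.card_erase_lt_of_mem (Finset.mem_univ g)
    exact_mod_cast h1
  · intro g g2 hne
    rw [Polynomial.eval_prod]
    refine Finset.prod_eq_zero (Finset.mem_erase.2 ⟨hne.symm, Finset.mem_univ g⟩) ?_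
    rw [Polynomial.eval_sub, Polynomial.eval_X, Polynomial.eval_C, sub_self]
  · intro g
    rw [Polynomial.eval_prod]
    refine Finset.prod_ne_zero_iff.2 fun g2 hg2 => ?_
    rw [Polynomial.eval_sub, Polynomial.eval_X, Polynomial.eval_C]
    exact sub_ne_zero.2 fun h => (Finset.mem_erase.1 hg2).1 (hxinj h).symm

private lemma b1a_sum {k : ℕ} {G : Type} [Fintype G] (m : Fin k → ℤ) (vl : Fin k → G → ℤ)
    (Lg : G → Polynomial ℤ) (Q : Polynomial ℤ) :
    ∑ i, (m i : Polynomial ℤ) *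
      (∑ g, Polynomial.C (vl i g) * Lg g + Polynomial.X ^ (i : ℕ) * Q) =
    ∑ g, Polynomial.C (∑ i, m i * vl i g) * Lg g + b1aP m * Q := by
  have h1 : ∀ i, (m i : Polynomial ℤ) *
      (∑ g, Polynomial.C (vl i g) * Lg g + Polynomial.X ^ (i : ℕ) * Q) =
      ∑ g, Polynomial.C (m i * vl i g) * Lg g +
        Polynomial.C (m i) * Polynomial.X ^ (i : ℕ) * Q := by
    intro i
    rw [b1a_C, mul_add, Finset.mul_sum, mul_assoc]
    congr 1
    refine Finset.sum_congr rfl fun g _ => ?_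
    rw [Polynomial.C_mul, mul_assoc]
  rw [Finset.sum_congr rfl fun i _ => h1 i, Finset.sum_add_distrib, Finset.sum_comm]
  unfold b1aP
  rw [Finset.sum_mul]
  congr 1
  refine Finset.sum_congr rfl fun g _ => ?_
  rw [map_sum, Finset.sum_mul]

private lemma b1a_monic {k : ℕ} {G : Type} [Fintype G] {m : Fin k → ℤ} (hm : LNO m)
    (vl : Fin k → G → ℤ) {Lg : G → Polynomial ℤ} {Q : Polynomial ℤ} (hQ : Q.Monic)
    (hQd : Q.natDegree = Fintype.card G)
    (hL : ∀ g, Lg g ∈ Polynomial.degreeLT ℤ (Fintype.card G)) :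
    (∑ i, (m i : Polynomial ℤ) *
      (∑ g, Polynomial.C (vl i g) * Lg g + Polynomial.X ^ (i : ℕ) * Q)).Monic := by
  rw [b1a_sum]
  have hmon : (b1aP m * Q).Monic := (b1aP_monic hm).mul hQ
  refine Polynomial.Monic.add_of_right hmon ?_
  have h1 : ∑ g, Polynomial.C (∑ i, m i * vl i g) * Lg g ∈
      Polynomial.degreeLT ℤ (Fintype.card G) := by
    refine Submodule.sum_mem _ fun g _ => ?_
    rw [← Polynomial.smul_eq_C_mul]
    exact Submodule.smul_mem _ _ (hL g)
  rw [Polynomial.mem_degreeLT] at h1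
  refine h1.trans_le ?_
  rw [Polynomial.degree_eq_natDegree hmon.ne_zero, (b1aP_monic hm).natDegree_mul hQ, hQd]
  exact_mod_cast Nat.le_add_left _ _

private lemma b1a_eval {k : ℕ} {G : Type} [Fintype G] (m : Fin k → ℤ)
    (vl : Fin k → G → ℤ) {Lg : G → Polynomial ℤ} {Q : Polynomial ℤ} {x : ℤ} {g : G}
    (hQ : Q.eval x = 0) (hL : ∀ g2, g2 ≠ g → (Lg g2).eval x = 0) :
    (∑ i, (m i : Polynomial ℤ) *
      (∑ g, Polynomial.C (vl i g) * Lg g + Polynomial.X ^ (i : ℕ) * Q)).eval x =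
      (∑ i, m i * vl i g) * (Lg g).eval x := by
  rw [b1a_sum, Polynomial.eval_add, Polynomial.eval_mul, hQ, mul_zero, add_zero,
    Polynomial.eval_finsetSum, Finset.sum_eq_single g]
  · rw [Polynomial.eval_mul, Polynomial.eval_C]
  · intro g2 _ hne
    rw [Polynomial.eval_mul, hL g2 hne, mul_zero]
  · intro h
    exact absurd (Finset.mem_univ _) h

theorem exists_polys (k : ℕ) (Sp : Finset (Fin k → ℤ)) (hS : ∀ m ∈ Sp, LNO m) (κ : Type)
    [Fintype κ] [DecidableEq κ] :
    ∃ t : κ → Fin k → Polynomial ℤ,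
      (∀ m ∈ Sp, ∀ q : κ, (∑ i, (m i : Polynomial ℤ) * t q i).Monic) ∧
      ∀ g : Sp × κ, ∃ x : ℤ, ∀ g' : Sp × κ,
        (∑ i, (g'.1.1 i : Polynomial ℤ) * t g'.2 i).eval x = 0 ↔ g' = g := by
  classical
  obtain ⟨v, τ, hv0, hτ0⟩ := b1a_vectors Sp hS
  obtain ⟨xg, Lg, Q, hQm, hQd, hQe, hLd, hLe, hLn⟩ := b1a_nodes (Sp × κ)
  obtain ⟨vl, hvl⟩ : ∃ vl : κ → Fin k → Sp × κ → ℤ, ∀ q i g,
      vl q i g = if q = g.2 then τ g.1 i else v i := ⟨_, fun _ _ _ => rfl⟩
  obtain ⟨t, ht⟩ : ∃ t : κ → Fin k → Polynomial ℤ, ∀ q i, t q i =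
      ∑ g, Polynomial.C (vl q i g) * Lg g + Polynomial.X ^ (i : ℕ) * Q :=
    ⟨_, fun _ _ => rfl⟩
  refine ⟨t, fun m hm q => ?_, fun g => ⟨xg g, fun g' => ?_⟩⟩
  · simp only [ht]
    exact b1a_monic (hS m hm) (vl q) hQm hQd hLd
  · have heval : (∑ i, (g'.1.1 i : Polynomial ℤ) * t g'.2 i).eval (xg g) =
        (∑ i, g'.1.1 i * vl g'.2 i g) * (Lg g).eval (xg g) := by
      simp only [ht]
      exact b1a_eval g'.1.1 (vl g'.2) (hQe g) (hLe g)
    rw [heval, mul_eq_zero, or_iff_left (hLn g)]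
    by_cases hq : g'.2 = g.2
    · have h1 : ∑ i, g'.1.1 i * vl g'.2 i g = ∑ i, g'.1.1 i * τ g.1 i :=
        Finset.sum_congr rfl fun i _ => by rw [hvl, if_pos hq]
      rw [h1, hτ0]
      constructor
      · intro h
        exact Prod.ext h hq
      · intro h
        rw [h]
    · have h1 : ∑ i, g'.1.1 i * vl g'.2 i g = ∑ i, g'.1.1 i * v i :=
        Finset.sum_congr rfl fun i _ => by rw [hvl, if_neg hq]
      rw [h1]
      constructor
      · intro h
        exact absurd h (hv0 g'.1)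
      · intro h
        exact absurd (by rw [h]) hq

end Vale.Agent.P110F
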