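import Mathlib
import Vale.Agent.Lib.P110F.Defs
import Vale.Agent.Lib.P110F.B1a

namespace Vale.Agent.P110F

open MeasureTheory Filter Topology
open scoped ComplexConjugate ENNReal

open Polynomial in
private lemma count_private {γ : Type} [Fintype γ] [DecidableEq γ] (P : γ → Polynomial ℤ)
    (hP : ∀ g, (P g).Monic) (x : ℤ) (g : γ) (h : ∀ g', (P g').eval x = 0 ↔ g' = g)
    (a : γ → ℕ) :
    (∏ g', P g' ^ a g').roots.count x = a g * (P g).roots.count x := by
  have hne : ∏ g', P g' ^ a g' ≠ 0 :=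
    Finset.prod_ne_zero_iff.mpr fun g' _ => pow_ne_zero _ (hP g').ne_zero
  rw [Polynomial.roots_prod _ _ hne]
  simp only [Polynomial.roots_pow]
  rw [Multiset.count_bind]
  change (Multiset.map (fun b => Multiset.count x (a b • (P b).roots)) Finset.univ.val).sum = _
  change ∑ b, Multiset.count x (a b • (P b).roots) = _
  rw [Finset.sum_eq_single g]
  · rw [Multiset.count_nsmul]
  · intro b _ hb
    rw [Multiset.count_nsmul]
    have : Multiset.count x (P b).roots = 0 := by
      rw [Multiset.count_eq_zero]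
      intro hx
      have := (Polynomial.mem_roots (hP b).ne_zero).mp hx
      exact hb ((h b).mp this)
    rw [this, mul_zero]
  · intro hg
    exact absurd (Finset.mem_univ g) hg

open Polynomial in
private lemma poly_inj {γ : Type} [Fintype γ] [DecidableEq γ] (P : γ → Polynomial ℤ)
    (hP : ∀ g, (P g).Monic) (hx : ∀ g, ∃ x : ℤ, ∀ g', (P g').eval x = 0 ↔ g' = g)
    (a a' : γ → ℕ) (s : ℤ)
    (heq : ∏ g, P g ^ a g = (s : Polynomial ℤ) * ∏ g, P g ^ a' g) : a = a' ∧ s = 1 := by
  have hm : (∏ g, P g ^ a g).Monic := monic_prod_of_monic _ _ fun g _ => (hP g).pow _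
  have hm' : (∏ g, P g ^ a' g).Monic := monic_prod_of_monic _ _ fun g _ => (hP g).pow _
  have hs : s = 1 := by
    have h1 := congrArg Polynomial.leadingCoeff heq
    rw [hm.leadingCoeff, Polynomial.leadingCoeff_mul, hm'.leadingCoeff, mul_one] at h1
    have h2 : (s : Polynomial ℤ) = Polynomial.C s := by simp
    rw [h2, Polynomial.leadingCoeff_C] at h1
    exact h1.symm
  refine ⟨?_, hs⟩
  subst hs
  rw [Int.cast_one, one_mul] at heq
  funext g
  obtain ⟨x, h⟩ := hx g
  have h1 := count_private P hP x g h a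
  have h2 := count_private P hP x g h a'
  rw [heq, h2] at h1
  have hpos : 0 < (P g).roots.count x := by
    rw [Multiset.count_pos]
    exact (Polynomial.mem_roots (hP g).ne_zero).mpr ((h g).mpr rfl)
  exact (Nat.eq_of_mul_eq_mul_right hpos h1).symm

open Polynomial in
theorem exists_ring (k : ℕ) (Sp : Finset (Fin k → ℤ)) (hS : ∀ m ∈ Sp, LNO m) (κ : Type)
    [Fintype κ] [DecidableEq κ] (K : ℕ) :
    ∃ (O : Type) (_ : CommRing O) (D : ℕ) (_ : Module.Basis (Fin D) ℤ O) (t : κ → Fin k → O),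
      (∀ m ∈ Sp, ∀ q : κ, IsUnit (∑ i, (m i : O) * t q i)) ∧
      ∀ (a a' : (Sp × κ) → ℕ) (s : ℤ), (∀ g, a g ≤ K) → (∀ g, a' g ≤ K) → (s = 1 ∨ s = -1) →
        ∏ g : Sp × κ, (∑ i, (g.1.1 i : O) * t g.2 i) ^ a g =
          s * ∏ g : Sp × κ, (∑ i, (g.1.1 i : O) * t g.2 i) ^ a' g → a = a' ∧ s = 1 := by
  classical
  obtain ⟨t, ht, hx⟩ := exists_polys k Sp hS κ
  set P : Sp × κ → Polynomial ℤ := fun g => ∑ i, (g.1.1 i : Polynomial ℤ) * t g.2 i with hPdef
  have hP : ∀ g, (P g).Monic := fun g => ht g.1.1 g.1.2 g.2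
  have hx' : ∀ g, ∃ x : ℤ, ∀ g', (P g').eval x = 0 ↔ g' = g := hx
  set E : ℕ := K * ∑ g, (P g).natDegree + 1 with hE
  have hR : (X ^ E * ∏ g, P g).Monic :=
    (monic_X_pow E).mul (monic_prod_of_monic _ _ fun g _ => hP g)
  have hRd : (X ^ E * ∏ g, P g).natDegree = E + ∑ g, (P g).natDegree := by
    rw [(monic_X_pow E).natDegree_mul (monic_prod_of_monic _ _ fun g _ => hP g),
      natDegree_X_pow, natDegree_prod_of_monic _ _ fun g _ => hP g]
  set f : Polynomial ℤ := X ^ E * ∏ g, P g + 1 with hf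
  have hlt : (1 : Polynomial ℤ).degree < (X ^ E * ∏ g, P g).degree := by
    rw [degree_one, degree_eq_natDegree hR.ne_zero, hRd]
    exact_mod_cast (by omega : 0 < E + ∑ g, (P g).natDegree)
  have hfm : f.Monic := hR.add_of_left hlt
  have hfd : f.natDegree = E + ∑ g, (P g).natDegree := by
    rw [← hRd]
    exact natDegree_eq_of_degree_eq (degree_add_eq_left_of_degree_lt hlt)
  let pb := AdjoinRoot.powerBasis' hfm
  refine ⟨AdjoinRoot f, inferInstance, pb.dim, pb.basis,
    fun q i => AdjoinRoot.mk f (t q i), ?_, ?_⟩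
  · intro m hm q
    have e1 : (∑ i, (m i : AdjoinRoot f) * AdjoinRoot.mk f (t q i)) =
        AdjoinRoot.mk f (P (⟨m, hm⟩, q)) := by
      rw [hPdef]
      simp only [map_sum, map_mul, map_intCast]
    rw [e1]
    have h0 : AdjoinRoot.mk f (X ^ E * ∏ g, P g) = -1 := by
      have h1 : AdjoinRoot.mk f f = 0 := AdjoinRoot.mk_self
      rw [hf, map_add, map_one] at h1
      exact eq_neg_of_add_eq_zero_left h1
    have h2 : P (⟨m, hm⟩, q) ∣ X ^ E * ∏ g, P g :=
      Dvd.dvd.mul_left (Finset.dvd_prod_of_mem _ (Finset.mem_univ _)) _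
    have h3 := map_dvd (AdjoinRoot.mk f) h2
    rw [h0] at h3
    exact isUnit_of_dvd_unit h3 isUnit_one.neg
  · intro a a' s ha ha' hs heq
    have e1 : ∀ g : Sp × κ, (∑ i, (g.1.1 i : AdjoinRoot f) * AdjoinRoot.mk f (t g.2 i)) =
        AdjoinRoot.mk f (P g) := by
      intro g
      rw [hPdef]
      simp only [map_sum, map_mul, map_intCast]
    simp only [e1] at heq
    have h1 : AdjoinRoot.mk f (∏ g, P g ^ a g - (s : Polynomial ℤ) * ∏ g, P g ^ a' g) = 0 := by
      rw [map_sub, map_mul, map_intCast, map_prod, map_prod]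
      simp only [map_pow]
      rw [heq, sub_self]
    rw [AdjoinRoot.mk_eq_zero] at h1
    have hdeg : ∀ b : Sp × κ → ℕ, (∀ g, b g ≤ K) →
        (∏ g, P g ^ b g).natDegree ≤ K * ∑ g, (P g).natDegree := by
      intro b hb
      rw [natDegree_prod_of_monic _ _ fun g _ => (hP g).pow _, Finset.mul_sum]
      refine Finset.sum_le_sum fun g _ => ?_
      rw [(hP g).natDegree_pow]
      exact Nat.mul_le_mul_right _ (hb g)
    have hd : (∏ g, P g ^ a g - (s : Polynomial ℤ) * ∏ g, P g ^ a' g).natDegree < f.natDegree := by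
      rw [hfd]
      have h3 := natDegree_sub_le (∏ g, P g ^ a g) ((s : Polynomial ℤ) * ∏ g, P g ^ a' g)
      have h4 : ((s : Polynomial ℤ) * ∏ g, P g ^ a' g).natDegree ≤
          K * ∑ g, (P g).natDegree := by
        refine (natDegree_mul_le).trans ?_
        rw [natDegree_intCast, zero_add]
        exact hdeg a' ha'
      have h5 := hdeg a ha
      have h6 := max_le h5 h4
      omega
    have h7 := eq_zero_of_dvd_of_natDegree_lt h1 hd
    exact poly_inj P hP hx' a a' s (sub_eq_zero.mp h7)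

end Vale.Agent.P110F
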