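import Mathlib
import Vale.Agent.Lib.P110F.Defs

namespace Vale.Agent.P110F

open MeasureTheory Filter Topology
open scoped ComplexConjugate ENNReal

private lemma B3_avoid (k : ℕ) (W : Finset (Fin k → ℤ)) (hW : ∀ w ∈ W, w ≠ 0) :
    ∃ z : Fin k → ℤ, ∀ w ∈ W, ∑ i, w i * z i ≠ 0 := by
  classical
  by_contra hcon
  push Not at hcon
  set P : (Fin k → ℤ) → Polynomial ℤ := fun w =>
    ∑ i : Fin k, Polynomial.C (w i) * Polynomial.X ^ (i : ℕ) with hP
  have hcoef : ∀ w, ∀ i : Fin k, (P w).coeff i = w i := by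
    intro w i
    rw [hP]
    simp only [Polynomial.finsetSum_coeff, Polynomial.coeff_C_mul, Polynomial.coeff_X_pow]
    rw [Finset.sum_eq_single i]
    · simp
    · intro j _ hj
      rw [if_neg, mul_zero]
      intro h
      exact hj (Fin.ext h.symm)
    · intro h
      exact absurd (Finset.mem_univ i) h
  have hPne : ∀ w ∈ W, P w ≠ 0 := by
    intro w hw h0
    apply hW w hw
    funext i
    rw [← hcoef w i, h0]
    simp
  have hR : (∏ w ∈ W, P w) ≠ 0 := Finset.prod_ne_zero_iff.mpr hPne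
  apply hR
  apply Polynomial.zero_of_eval_zero
  intro t
  obtain ⟨w, hw, h0⟩ := hcon (fun i => t ^ (i : ℕ))
  rw [Polynomial.eval_prod]
  apply Finset.prod_eq_zero hw
  rw [hP]
  simp only [Polynomial.eval_finsetSum, Polynomial.eval_mul, Polynomial.eval_C,
    Polynomial.eval_pow, Polynomial.eval_X]
  exact h0

private lemma B3_sq_pos {k : ℕ} {m : Fin k → ℤ} (hm : LNO m) : 0 < ∑ i, m i * m i := by
  obtain ⟨i, hi, _⟩ := hm
  refine Finset.sum_pos' (fun j _ => mul_self_nonneg _) ⟨i, Finset.mem_univ i, ?_⟩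
  rw [hi]
  norm_num

private lemma B3_nonprop {k : ℕ} {b m : Fin k → ℤ} (hb : LNO b) (hm : LNO m) (hne : m ≠ b) :
    (fun i => (∑ j, b j * b j) * m i - (∑ j, b j * m j) * b i) ≠ 0 := by
  intro h
  have h1 : ∀ i, (∑ j, b j * b j) * m i = (∑ j, b j * m j) * b i := fun i => by
    have := congrFun h i
    simp only [Pi.zero_apply] at this
    linarith
  have hpos := B3_sq_pos hb
  obtain ⟨ib, hib, hib'⟩ := hb
  obtain ⟨im, him, him'⟩ := hm
  have h2 := h1 im
  rw [him, mul_one] at h2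
  have h3 : (∑ j, b j * m j) * b im ≠ 0 := by rw [← h2]; exact hpos.ne'
  have hle1 : im ≤ ib := by
    by_contra hlt
    exact right_ne_zero_of_mul h3 (hib' im (not_le.mp hlt))
  have h4 := h1 ib
  rw [hib, mul_one] at h4
  have h5 : (∑ j, b j * b j) * m ib ≠ 0 := by rw [h4]; exact left_ne_zero_of_mul h3
  have hle2 : ib ≤ im := by
    by_contra hlt
    exact right_ne_zero_of_mul h5 (him' ib (not_le.mp hlt))
  have heq : ib = im := le_antisymm hle2 hle1
  subst heq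
  rw [him, mul_one] at h4
  apply hne
  funext i
  have h6 := h1 i
  rw [← h4] at h6
  exact mul_left_cancel₀ hpos.ne' h6

private lemma B3_perp {k : ℕ} (Sp : Finset (Fin k → ℤ)) (hS : ∀ m ∈ Sp, LNO m) {b : Fin k → ℤ}
    (hb : LNO b) : ∃ y : Fin k → ℤ, ∑ i, b i * y i = 0 ∧ ∀ m ∈ Sp, m ≠ b → ∑ i, m i * y i ≠ 0 := by
  classical
  set B : ℤ := ∑ j, b j * b j with hB
  obtain ⟨z, hz⟩ := B3_avoid k ((Sp.erase b).image
    (fun m => fun i => B * m i - (∑ j, b j * m j) * b i)) (by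
      intro w hw
      rw [Finset.mem_image] at hw
      obtain ⟨m, hm, rfl⟩ := hw
      rw [Finset.mem_erase] at hm
      exact B3_nonprop hb (hS m hm.2) hm.1)
  refine ⟨fun i => B * z i - (∑ j, b j * z j) * b i, ?_, ?_⟩
  · have e1 : ∑ i, b i * (B * z i - (∑ j, b j * z j) * b i) =
        B * (∑ i, b i * z i) - (∑ j, b j * z j) * ∑ i, b i * b i := by
      rw [Finset.mul_sum, Finset.mul_sum, ← Finset.sum_sub_distrib]
      exact Finset.sum_congr rfl fun i _ => by ring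
    rw [e1, ← hB]
    ring
  · intro m hm hne
    have h1 := hz _ (Finset.mem_image.mpr ⟨m, Finset.mem_erase.mpr ⟨hne, hm⟩, rfl⟩)
    have e1 : ∑ i, m i * (B * z i - (∑ j, b j * z j) * b i) =
        B * (∑ i, m i * z i) - (∑ j, b j * z j) * ∑ i, b i * m i := by
      rw [Finset.mul_sum, Finset.mul_sum, ← Finset.sum_sub_distrib]
      exact Finset.sum_congr rfl fun i _ => by ring
    have e2 : ∑ i, (B * m i - (∑ j, b j * m j) * b i) * z i =
        B * (∑ i, m i * z i) - (∑ j, b j * m j) * ∑ i, b i * z i := by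
      rw [Finset.mul_sum, Finset.mul_sum, ← Finset.sum_sub_distrib]
      exact Finset.sum_congr rfl fun i _ => by ring
    rw [e1]
    rw [e2] at h1
    intro h
    apply h1
    linarith

theorem exists_weights (k : ℕ) (Sp : Finset (Fin k → ℤ)) (hS : ∀ m ∈ Sp, LNO m)
    (hne : Sp.Nonempty) (v : (Fin k → ℤ) → ℝ) (hv : ∀ m ∈ Sp, 0 < v m) {ε : ℝ} (hε : 0 < ε) :
    ∃ (n : ℕ) (h : Fin n → Fin k → ℤ), 0 < n ∧ (∀ m ∈ Sp, ∀ b, ∑ i, m i * h b i ≠ 0) ∧
      ∀ m ∈ Sp, v m * ∑ m' ∈ Sp, ∏ b, |((∑ i, m' i * h b i : ℤ) : ℝ)| ≤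
        (1 + ε) * (∏ b, |((∑ i, m i * h b i : ℤ) : ℝ)|) * ∑ m' ∈ Sp, v m' := by
  classical
  set d : (Fin k → ℤ) → (Fin k → ℤ) → ℤ := fun a b => ∑ i, a i * b i with hd
  choose y hy0 hy1 using fun b : {x // x ∈ Sp} => B3_perp Sp hS (hS b.1 b.2)
  -- the constants
  set c : {x // x ∈ Sp} → ℝ := fun m =>
    (d m.1 m.1 : ℝ) * ∏ b ∈ Finset.univ.erase m, |(d m.1 (y b) : ℝ)| with hc
  have hdm : ∀ m : {x // x ∈ Sp}, 0 < (d m.1 m.1 : ℝ) := fun m => by
    exact_mod_cast B3_sq_pos (hS m.1 m.2)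
  have hdy : ∀ m : {x // x ∈ Sp}, ∀ b ∈ Finset.univ.erase m, 0 < |(d m.1 (y b) : ℝ)| := by
    intro m b hb
    rw [Finset.mem_erase] at hb
    rw [abs_pos]
    have h1 : m.1 ≠ b.1 := fun h => hb.1 (Subtype.ext h.symm)
    exact_mod_cast hy1 b m.1 m.2 h1
  have hcpos : ∀ m, 0 < c m := fun m => mul_pos (hdm m) (Finset.prod_pos (hdy m))
  have hvp : ∀ m : {x // x ∈ Sp}, 0 < v m.1 := fun m => hv m.1 m.2
  obtain ⟨S, hSpos, hSc⟩ : ∃ S : ℝ, 0 < S ∧ ∀ m : {x // x ∈ Sp}, c m ≤ ε / 2 * (S * v m.1) := by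
    refine ⟨1 + ∑ m : {x // x ∈ Sp}, 2 * c m / (ε * v m.1), ?_, ?_⟩
    · have : 0 ≤ ∑ m : {x // x ∈ Sp}, 2 * c m / (ε * v m.1) :=
        Finset.sum_nonneg fun m _ => by
          have := hcpos m
          have := hvp m
          positivity
      linarith
    · intro m
      have h1 : 2 * c m / (ε * v m.1) ≤ ∑ m : {x // x ∈ Sp}, 2 * c m / (ε * v m.1) :=
        Finset.single_le_sum (f := fun m : {x // x ∈ Sp} => 2 * c m / (ε * v m.1))
          (fun m _ => by
            have := hcpos m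
            have := hvp m
            positivity) (Finset.mem_univ m)
      have h2 := hvp m
      have h3 : c m = ε / 2 * (2 * c m / (ε * v m.1) * v m.1) := by
        field_simp
      rw [h3]
      have h4 : 2 * c m / (ε * v m.1) ≤ 1 + ∑ m : {x // x ∈ Sp}, 2 * c m / (ε * v m.1) := by
        linarith
      gcongr
  set s : {x // x ∈ Sp} → ℕ := fun m => ⌈S * v m.1 / c m⌉₊ with hs
  have hs1 : ∀ m, 0 < s m := fun m => Nat.ceil_pos.mpr (by
    have := hcpos m
    have := hvp m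
    positivity)
  have hslo : ∀ m, S * v m.1 ≤ s m * c m := fun m => by
    have h1 := Nat.le_ceil (S * v m.1 / c m)
    rwa [div_le_iff₀ (hcpos m)] at h1
  have hshi : ∀ m, s m * c m ≤ (1 + ε / 2) * (S * v m.1) := fun m => by
    have h0 : 0 ≤ S * v m.1 / c m := by
      have := hcpos m
      have := hvp m
      positivity
    have h1 := (Nat.ceil_lt_add_one h0).le
    have h2 := mul_le_mul_of_nonneg_right h1 (hcpos m).le
    rw [add_mul, div_mul_cancel₀ _ (hcpos m).ne', one_mul] at h2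
    have h3 := hSc m
    linarith
  -- the vectors
  set h : ℕ → {x // x ∈ Sp} → Fin k → ℤ := fun T b i => T * y b i + s b * b.1 i with hh
  have hdot : ∀ (T : ℕ) (m b : {x // x ∈ Sp}), ∑ i, m.1 i * h T b i =
      T * d m.1 (y b) + s b * d m.1 b.1 := by
    intro T m b
    simp only [hh, hd]
    rw [Finset.mul_sum, Finset.mul_sum, ← Finset.sum_add_distrib]
    exact Finset.sum_congr rfl fun i _ => by ring
  have hdiag : ∀ (T : ℕ) (m : {x // x ∈ Sp}), ∑ i, m.1 i * h T m i = s m * d m.1 m.1 := by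
    intro T m
    have h1 : d m.1 (y m) = 0 := hy0 m
    rw [hdot, h1, mul_zero, zero_add]
  set G : {x // x ∈ Sp} → ℕ → ℝ := fun m T => (s m * d m.1 m.1 : ℝ) *
    ∏ b ∈ Finset.univ.erase m, |((∑ i, m.1 i * h T b i : ℤ) : ℝ)| / T with hG
  have hfac : ∀ (m b : {x // x ∈ Sp}), Tendsto (fun T : ℕ =>
      |((∑ i, m.1 i * h T b i : ℤ) : ℝ)| / T) atTop (𝓝 |(d m.1 (y b) : ℝ)|) := by
    intro m b
    have h1 : Tendsto (fun T : ℕ => (d m.1 (y b) : ℝ) + (s b * d m.1 b.1 : ℝ) / T) atTop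
        (𝓝 ((d m.1 (y b) : ℝ) + 0)) :=
      tendsto_const_nhds.add (tendsto_const_div_atTop_nhds_zero_nat _)
    rw [add_zero] at h1
    refine (h1.abs).congr' ?_
    filter_upwards [eventually_gt_atTop 0] with T hT
    have hT' : (0 : ℝ) < T := by exact_mod_cast hT
    rw [hdot]
    rw [← abs_of_pos hT', ← abs_div, abs_of_pos hT']
    congr 1
    push_cast
    field_simp
  have hGlim : ∀ m, Tendsto (G m) atTop (𝓝 (s m * c m)) := by
    intro m
    have h1 : Tendsto (G m) atTop (𝓝 ((s m * d m.1 m.1 : ℝ) *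
        ∏ b ∈ Finset.univ.erase m, |(d m.1 (y b) : ℝ)|)) :=
      tendsto_const_nhds.mul (tendsto_finsetProd _ fun b _ => hfac m b)
    have e1 : (s m * d m.1 m.1 : ℝ) * ∏ b ∈ Finset.univ.erase m, |(d m.1 (y b) : ℝ)| =
        s m * c m := by
      rw [hc]
      ring
    rwa [e1] at h1
  have hVpos : 0 < ∑ m : {x // x ∈ Sp}, v m.1 := by
    have : Nonempty {x // x ∈ Sp} := ⟨⟨hne.choose, hne.choose_spec⟩⟩
    exact Finset.sum_pos (fun m _ => hvp m) Finset.univ_nonempty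
  have hev1 : ∀ᶠ T : ℕ in atTop, ∀ m : {x // x ∈ Sp},
      v m.1 * ∑ m' : {x // x ∈ Sp}, G m' T ≤ (1 + ε) * G m T * ∑ m' : {x // x ∈ Sp}, v m'.1 := by
    rw [eventually_all]
    intro m
    have hl : Tendsto (fun T => v m.1 * ∑ m' : {x // x ∈ Sp}, G m' T) atTop
        (𝓝 (v m.1 * ∑ m' : {x // x ∈ Sp}, s m' * c m')) :=
      tendsto_const_nhds.mul (tendsto_finsetSum _ fun m' _ => hGlim m')
    have hr : Tendsto (fun T => (1 + ε) * G m T * ∑ m' : {x // x ∈ Sp}, v m'.1) atTop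
        (𝓝 ((1 + ε) * (s m * c m) * ∑ m' : {x // x ∈ Sp}, v m'.1)) :=
      (tendsto_const_nhds.mul (hGlim m)).mul tendsto_const_nhds
    refine (hl.eventually_lt hr ?_).mono fun T hT => hT.le
    have h1 : ∑ m' : {x // x ∈ Sp}, (s m' * c m' : ℝ) ≤
        (1 + ε / 2) * (S * ∑ m' : {x // x ∈ Sp}, v m'.1) := by
      rw [Finset.mul_sum, Finset.mul_sum]
      exact Finset.sum_le_sum fun m' _ => hshi m'
    have h2 := hvp m
    calc v m.1 * ∑ m' : {x // x ∈ Sp}, (s m' * c m' : ℝ)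
        ≤ v m.1 * ((1 + ε / 2) * (S * ∑ m' : {x // x ∈ Sp}, v m'.1)) :=
          mul_le_mul_of_nonneg_left h1 h2.le
      _ < (1 + ε) * (S * v m.1) * ∑ m' : {x // x ∈ Sp}, v m'.1 := by
          have h3 : 0 < v m.1 * S * ∑ m' : {x // x ∈ Sp}, v m'.1 := by positivity
          nlinarith
      _ ≤ (1 + ε) * (s m * c m) * ∑ m' : {x // x ∈ Sp}, v m'.1 := by
          have h4 := hslo m
          gcongr
  have hev2 : ∀ᶠ T : ℕ in atTop, ∀ m b : {x // x ∈ Sp}, ∑ i, m.1 i * h T b i ≠ 0 := by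
    rw [eventually_all]
    intro m
    rw [eventually_all]
    intro b
    by_cases hmb : b = m
    · subst hmb
      refine Eventually.of_forall fun T => ?_
      rw [hdiag]
      have h1 : 0 < d b.1 b.1 := B3_sq_pos (hS b.1 b.2)
      have h2 : (0 : ℤ) < s b := by exact_mod_cast hs1 b
      exact (mul_pos h2 h1).ne'
    · have h1 := hdy m b (Finset.mem_erase.mpr ⟨hmb, Finset.mem_univ b⟩)
      filter_upwards [(hfac m b).eventually (lt_mem_nhds h1)] with T hT h0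
      rw [h0] at hT
      simp at hT
  obtain ⟨T, hT1, hT2, hT0⟩ := (hev1.and (hev2.and (eventually_gt_atTop 0))).exists
  have hT' : (0 : ℝ) < T := by exact_mod_cast hT0
  have hWG : ∀ m : {x // x ∈ Sp}, ∏ b : {x // x ∈ Sp}, |((∑ i, m.1 i * h T b i : ℤ) : ℝ)| =
      G m T * (T : ℝ) ^ (Fintype.card {x // x ∈ Sp} - 1) := by
    intro m
    rw [← Finset.mul_prod_erase Finset.univ _ (Finset.mem_univ m), hG]
    simp only
    rw [Finset.prod_div_distrib, Finset.prod_const, Finset.card_erase_of_mem (Finset.mem_univ m),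
      Finset.card_univ]
    have h1 : |((∑ i, m.1 i * h T m i : ℤ) : ℝ)| = (s m * d m.1 m.1 : ℝ) := by
      rw [hdiag]
      push_cast
      rw [abs_of_nonneg]
      have := hdm m
      positivity
    rw [h1]
    have h2 : (T : ℝ) ^ (Fintype.card {x // x ∈ Sp} - 1) ≠ 0 := by positivity
    field_simp
  -- transfer to `Fin n`
  set e : Fin (Fintype.card {x // x ∈ Sp}) ≃ {x // x ∈ Sp} := (Fintype.equivFin _).symm with he
  refine ⟨Fintype.card {x // x ∈ Sp}, fun j => h T (e j), ?_, ?_, ?_⟩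
  · have : Nonempty {x // x ∈ Sp} := ⟨⟨hne.choose, hne.choose_spec⟩⟩
    exact Fintype.card_pos
  · intro m hm b
    exact hT2 ⟨m, hm⟩ (e b)
  · intro m hm
    have hprod : ∀ m : {x // x ∈ Sp}, ∏ j, |((∑ i, m.1 i * h T (e j) i : ℤ) : ℝ)| =
        G m T * (T : ℝ) ^ (Fintype.card {x // x ∈ Sp} - 1) := by
      intro m
      rw [← hWG m]
      exact Equiv.prod_comp e fun b => |((∑ i, m.1 i * h T b i : ℤ) : ℝ)|
    have e1 : ∑ m' ∈ Sp, ∏ b, |((∑ i, m' i * h T (e b) i : ℤ) : ℝ)| =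
        (∑ m' : {x // x ∈ Sp}, G m' T) * (T : ℝ) ^ (Fintype.card {x // x ∈ Sp} - 1) := by
      rw [← Finset.sum_coe_sort Sp, Finset.sum_mul]
      exact Finset.sum_congr rfl fun m' _ => hprod m'
    have e2 : ∑ m' ∈ Sp, v m' = ∑ m' : {x // x ∈ Sp}, v m'.1 := (Finset.sum_coe_sort Sp v).symm
    rw [e1, e2, hprod ⟨m, hm⟩]
    have h1 := hT1 ⟨m, hm⟩
    have h2 : 0 < (T : ℝ) ^ (Fintype.card {x // x ∈ Sp} - 1) := by positivity
    have h3 := mul_le_mul_of_nonneg_right h1 h2.le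
    simp only at h3
    linarith

end Vale.Agent.P110F
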