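import Mathlib
import Vale.Agent.Lib.P110F.Defs

/-!
P110F B4: inner cubes of an open set.
-/

namespace Vale.Agent.P110F

open MeasureTheory Filter Topology
open scoped ComplexConjugate ENNReal

/-- the points of `U` in the unit cube with a closed ball of radius `1/Q` inside `U` -/
private def B4A (J D : ℕ) (U : Set (Fin J → Fin D → ℝ)) (Q : ℕ) : Set (Fin J → Fin D → ℝ) :=
  {x | x ∈ U ∩ hcube2 J D ∧ Metric.closedBall x (1 / (Q + 1 : ℝ)) ⊆ U}

private lemma B4_mono (J D : ℕ) (U : Set (Fin J → Fin D → ℝ)) : Monotone (B4A J D U) := by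
  intro Q R hQR x hx
  refine ⟨hx.1, (Metric.closedBall_subset_closedBall ?_).trans hx.2⟩
  have : (Q : ℝ) ≤ R := by exact_mod_cast hQR
  exact one_div_le_one_div_of_le (by positivity) (by linarith)

private lemma B4_union (J D : ℕ) (U : Set (Fin J → Fin D → ℝ)) (hU : IsOpen U) :
    ⋃ Q, B4A J D U Q = U ∩ hcube2 J D := by
  apply Set.Subset.antisymm
  · exact Set.iUnion_subset fun Q x hx => hx.1
  · intro x hx
    obtain ⟨r, hr, hball⟩ := Metric.isOpen_iff.mp hU x hx.1
    obtain ⟨Q, hQ⟩ := exists_nat_one_div_lt hr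
    refine Set.mem_iUnion.mpr ⟨Q, hx, (Metric.closedBall_subset_ball ?_).trans hball⟩
    exact hQ

private def B4C (J D : ℕ) (Q : ℕ) (z : Fin J → Fin D → ℤ) : Set (Fin J → Fin D → ℝ) :=
  Set.pi Set.univ fun j => Set.pi Set.univ fun i => Set.Ico ((z j i : ℝ) / Q) (((z j i : ℝ) + 1) / Q)

private lemma B4_vol (J D : ℕ) (Q : ℕ) (hQ : 0 < Q) (z : Fin J → Fin D → ℤ) :
    volume (B4C J D Q z) = ENNReal.ofReal ((1 / (Q : ℝ)) ^ (J * D)) := by
  have hQ' : (0 : ℝ) < Q := by exact_mod_cast hQ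
  rw [B4C, volume_pi_pi]
  have h1 : ∀ j : Fin J, volume (Set.pi Set.univ fun i : Fin D =>
      Set.Ico ((z j i : ℝ) / Q) (((z j i : ℝ) + 1) / Q)) = ENNReal.ofReal ((1 / (Q : ℝ)) ^ D) := by
    intro j
    rw [volume_pi_pi]
    have h2 : ∀ i : Fin D, volume (Set.Ico ((z j i : ℝ) / Q) (((z j i : ℝ) + 1) / Q))
        = ENNReal.ofReal (1 / (Q : ℝ)) := by
      intro i
      rw [Real.volume_Ico]
      congr 1
      field_simp
      ring
    simp only [h2, Finset.prod_const, Finset.card_univ, Fintype.card_fin]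
    rw [ENNReal.ofReal_pow (by positivity)]
  simp only [h1, Finset.prod_const, Finset.card_univ, Fintype.card_fin]
  rw [← ENNReal.ofReal_pow (by positivity), ← pow_mul, mul_comm D J]

private lemma B4_hcube_ne_top (J D : ℕ) (U : Set (Fin J → Fin D → ℝ)) :
    volume (U ∩ hcube2 J D) ≠ ⊤ := by
  have h : volume (hcube2 J D) = 1 := by
    rw [hcube2, volume_pi_pi]
    have h1 : ∀ j : Fin J, volume (Set.pi Set.univ fun _ : Fin D => Set.Ico (0 : ℝ) 1) = 1 := by
      intro j
      rw [volume_pi_pi]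
      simp
    exact Finset.prod_eq_one fun j _ => h1 j
  exact ne_top_of_le_ne_top (by rw [h]; simp) (measure_mono Set.inter_subset_right)

theorem exists_inner_cubes (J D : ℕ) (U : Set (Fin J → Fin D → ℝ)) (hU : IsOpen U)
    {ε : ℝ} (hε : 0 < ε) :
    ∀ᶠ Q : ℕ in atTop, ∃ G : Finset (Fin J → Fin D → ℤ),
      (∀ z ∈ G, ∀ j i, 0 ≤ z j i ∧ z j i < Q) ∧
      (∀ z ∈ G, ∀ u : Fin J → Fin D → ℝ, (∀ j i, 0 ≤ u j i ∧ u j i ≤ 1) →
        (fun j i => ((z j i : ℝ) + u j i) / Q) ∈ U) ∧
      (volume.real (U ∩ hcube2 J D) - ε) * (Q : ℝ) ^ (J * D) ≤ G.card := by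
  classical
  have hfin := B4_hcube_ne_top J D U
  have hlim : Tendsto (fun Q : ℕ => volume (B4A J D U Q)) atTop (𝓝 (volume (U ∩ hcube2 J D))) := by
    have := tendsto_measure_iUnion_atTop (μ := (volume : Measure (Fin J → Fin D → ℝ)))
      (B4_mono J D U)
    rw [B4_union J D U hU] at this
    exact this
  have hlim' : Tendsto (fun Q : ℕ => (volume (B4A J D U Q)).toReal) atTop
      (𝓝 (volume.real (U ∩ hcube2 J D))) := (ENNReal.tendsto_toReal hfin).comp hlim
  have hev := hlim'.eventually (lt_mem_nhds (sub_lt_self (volume.real (U ∩ hcube2 J D)) hε))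
  have hev' : ∀ᶠ Q : ℕ in atTop, volume.real (U ∩ hcube2 J D) - ε < (volume (B4A J D U (Q - 1))).toReal :=
    (tendsto_sub_atTop_nat 1).eventually hev
  filter_upwards [hev', eventually_ge_atTop 1] with Q hQ hQ1
  have hQ' : (0 : ℝ) < Q := by exact_mod_cast hQ1
  have hrad : (1 : ℝ) / (((Q - 1 : ℕ) : ℝ) + 1) = 1 / Q := by
    congr 1
    rw [Nat.cast_sub hQ1]
    simp
  refine ⟨(Fintype.piFinset fun _ : Fin J => Fintype.piFinset fun _ : Fin D =>
    Finset.Ico (0 : ℤ) Q).filter (fun z => ∀ u : Fin J → Fin D → ℝ,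
      (∀ j i, 0 ≤ u j i ∧ u j i ≤ 1) → (fun j i => ((z j i : ℝ) + u j i) / Q) ∈ U), ?_, ?_, ?_⟩
  · intro z hz j i
    rw [Finset.mem_filter, Fintype.mem_piFinset] at hz
    have := Fintype.mem_piFinset.mp (hz.1 j) i
    rw [Finset.mem_Ico] at this
    exact this
  · intro z hz
    exact (Finset.mem_filter.mp hz).2
  · set G := (Fintype.piFinset fun _ : Fin J => Fintype.piFinset fun _ : Fin D =>
      Finset.Ico (0 : ℤ) Q).filter (fun z => ∀ u : Fin J → Fin D → ℝ,
      (∀ j i, 0 ≤ u j i ∧ u j i ≤ 1) → (fun j i => ((z j i : ℝ) + u j i) / Q) ∈ U) with hG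
    have hsub : B4A J D U (Q - 1) ⊆ ⋃ z ∈ G, B4C J D Q z := by
      intro x hx
      have hxc : ∀ j i, 0 ≤ x j i ∧ x j i < 1 := by
        intro j i
        have := hx.1.2 j (Set.mem_univ j) i (Set.mem_univ i)
        exact this
      set z : Fin J → Fin D → ℤ := fun j i => ⌊(Q : ℝ) * x j i⌋ with hz
      have hzl : ∀ j i, (z j i : ℝ) ≤ Q * x j i := fun j i => Int.floor_le _
      have hzr : ∀ j i, (Q : ℝ) * x j i < z j i + 1 := fun j i => Int.lt_floor_add_one _
      refine Set.mem_biUnion (x := z) ?_ ?_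
      · rw [hG, Finset.mem_coe, Finset.mem_filter]
        refine ⟨?_, ?_⟩
        · refine Fintype.mem_piFinset.mpr fun j => Fintype.mem_piFinset.mpr fun i => ?_
          rw [Finset.mem_Ico]
          refine ⟨Int.floor_nonneg.mpr (mul_nonneg hQ'.le (hxc j i).1), ?_⟩
          rw [hz]
          refine Int.floor_lt.mpr ?_
          push_cast
          nlinarith [(hxc j i).2]
        · intro u hu
          apply hx.2
          rw [hrad, Metric.mem_closedBall, dist_pi_le_iff (by positivity)]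
          intro j
          rw [dist_pi_le_iff (by positivity)]
          intro i
          rw [Real.dist_eq, abs_le]
          have h1 := hzl j i
          have h2 := hzr j i
          have h3 := hu j i
          constructor
          · rw [le_sub_iff_add_le, le_div_iff₀ hQ']
            have : (-(1 / (Q : ℝ)) + x j i) * Q = -1 + Q * x j i := by field_simp
            rw [this]
            linarith
          · rw [sub_le_iff_le_add, div_le_iff₀ hQ']
            have : (1 / (Q : ℝ) + x j i) * Q = 1 + Q * x j i := by field_simp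
            rw [this]
            linarith
      · intro j _ i _
        refine ⟨?_, ?_⟩
        · rw [div_le_iff₀ hQ']
          have := hzl j i
          linarith
        · rw [lt_div_iff₀ hQ']
          have := hzr j i
          linarith
    have hmeas : volume (B4A J D U (Q - 1)) ≤ (G.card : ℝ≥0∞) * ENNReal.ofReal ((1 / (Q : ℝ)) ^ (J * D)) := by
      calc volume (B4A J D U (Q - 1)) ≤ volume (⋃ z ∈ G, B4C J D Q z) := measure_mono hsub
        _ ≤ ∑ z ∈ G, volume (B4C J D Q z) := measure_biUnion_finset_le _ _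
        _ = ∑ _z ∈ G, ENNReal.ofReal ((1 / (Q : ℝ)) ^ (J * D)) :=
            Finset.sum_congr rfl fun z _ => B4_vol J D Q hQ1 z
        _ = (G.card : ℝ≥0∞) * ENNReal.ofReal ((1 / (Q : ℝ)) ^ (J * D)) := by
            rw [Finset.sum_const, nsmul_eq_mul]
    have hreal : (volume (B4A J D U (Q - 1))).toReal ≤ G.card * (1 / (Q : ℝ)) ^ (J * D) := by
      have := ENNReal.toReal_mono (by finiteness) hmeas
      rwa [ENNReal.toReal_mul, ENNReal.toReal_natCast, ENNReal.toReal_ofReal (by positivity)] at this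
    have h3 : volume.real (U ∩ hcube2 J D) - ε ≤ G.card * (1 / (Q : ℝ)) ^ (J * D) :=
      hQ.le.trans hreal
    calc (volume.real (U ∩ hcube2 J D) - ε) * (Q : ℝ) ^ (J * D)
        ≤ (G.card * (1 / (Q : ℝ)) ^ (J * D)) * (Q : ℝ) ^ (J * D) := by gcongr
      _ = G.card := by
          rw [mul_assoc, ← mul_pow]
          have : (1 / (Q : ℝ)) * Q = 1 := by field_simp
          rw [this, one_pow, mul_one]

end Vale.Agent.P110F
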