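import Mathlib
import Vale.Agent.Lib.P110F.Defs

/-!
P110F, module F/E0: the labelling of the good cells by residues.
-/

namespace Vale.Agent.P110F

open MeasureTheory Filter Topology
open scoped ComplexConjugate ENNReal

private lemma natCast_inj_of_lt {r x y : ℕ} (hx : x < r) (hy : y < r)
    (h : (x : ZMod r) = (y : ZMod r)) : x = y := by
  have h1 := (ZMod.natCast_eq_natCast_iff' x y r).1 h
  rwa [Nat.mod_eq_of_lt hx, Nat.mod_eq_of_lt hy] at h1

theorem exists_lam {T : Type} [Fintype T] [DecidableEq T] [Nonempty T] {n₁ M : ℕ}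
    (a : T → Fin n₁ → ℕ) (ha : ∀ m b, 0 < a m b) (haM : ∀ m b, a m b < M) :
    ∃ lam : T × (T → Fin n₁ → Fin M) → ZMod (∑ m, ∏ b, a m b), (∃ g, lam g = 1) ∧
      ∀ g g', lam g = lam g' → (∀ b, (g.2 g.1 b : ℕ) < a g.1 b) →
        (∀ b, (g'.2 g'.1 b : ℕ) < a g'.1 b) → g.1 = g'.1 ∧ g.2 g.1 = g'.2 g'.1 := by
  classical
  set r : ℕ := ∑ m, ∏ b, a m b with hr
  have hcard : Fintype.card (Sigma fun m : T => (b : Fin n₁) → Fin (a m b)) = r := by
    simp [Fintype.card_sigma, Fintype.card_pi, hr]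
  let e : (Sigma fun m : T => (b : Fin n₁) → Fin (a m b)) ≃ Fin r :=
    Fintype.equivFinOfCardEq hcard
  let lam : T × (T → Fin n₁ → Fin M) → ZMod r := fun g =>
    if h : ∀ b, (g.2 g.1 b : ℕ) < a g.1 b then
      (((e ⟨g.1, fun b => ⟨(g.2 g.1 b : ℕ), h b⟩⟩ : Fin r) : ℕ) : ZMod r) else 0
  refine ⟨lam, ?_, ?_⟩
  · -- the value one is attained
    have hM : ∀ m : T, ∀ b : Fin n₁, 0 < M := fun m b => (ha m b).trans (haM m b)
    have hrpos : 0 < r := by
      obtain ⟨m0⟩ := (inferInstance : Nonempty T)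
      have h1 : 0 < ∏ b, a m0 b := Finset.prod_pos fun b _ => ha m0 b
      exact lt_of_lt_of_le h1 (Finset.single_le_sum (f := fun m => ∏ b, a m b)
        (fun _ _ => Nat.zero_le _) (Finset.mem_univ m0))
    rcases Nat.lt_or_ge 1 r with h1r | h1r
    · let s := e.symm ⟨1, h1r⟩
      let g : T × (T → Fin n₁ → Fin M) :=
        (s.1, fun _ b => ⟨(s.2 b : ℕ), (s.2 b).isLt.trans (haM s.1 b)⟩)
      refine ⟨g, ?_⟩
      have hg : ∀ b, (g.2 g.1 b : ℕ) < a g.1 b := fun b => (s.2 b).isLt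
      have h2 : (⟨g.1, fun b => ⟨(g.2 g.1 b : ℕ), hg b⟩⟩ :
          Sigma fun m : T => (b : Fin n₁) → Fin (a m b)) = s := rfl
      have h3 : lam g = (((e ⟨g.1, fun b => ⟨(g.2 g.1 b : ℕ), hg b⟩⟩ : Fin r) : ℕ) : ZMod r) :=
        dif_pos hg
      rw [h3, h2]
      simp [s]
    · have h4 : r = 1 := le_antisymm h1r hrpos
      obtain ⟨m0⟩ := (inferInstance : Nonempty T)
      refine ⟨(m0, fun _ b => ⟨0, hM m0 b⟩), ?_⟩
      have : Subsingleton (ZMod r) := by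
        rw [h4]
        exact inferInstanceAs (Subsingleton (Fin 1))
      exact Subsingleton.elim _ _
  · intro g g' hgg hg hg'
    have h1 : lam g = (((e ⟨g.1, fun b => ⟨(g.2 g.1 b : ℕ), hg b⟩⟩ : Fin r) : ℕ) : ZMod r) :=
      dif_pos hg
    have h2 : lam g' =
        (((e ⟨g'.1, fun b => ⟨(g'.2 g'.1 b : ℕ), hg' b⟩⟩ : Fin r) : ℕ) : ZMod r) :=
      dif_pos hg'
    rw [h1, h2] at hgg
    have h3 := natCast_inj_of_lt (Fin.isLt _) (Fin.isLt _) hgg
    have h4 := e.injective (Fin.ext h3)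
    obtain ⟨m, q⟩ := g
    obtain ⟨m', q'⟩ := g'
    dsimp only at hg hg' h4 ⊢
    have h5 : m = m' := congrArg Sigma.fst h4
    subst h5
    have h6 := eq_of_heq (Sigma.mk.inj h4).2
    refine ⟨rfl, ?_⟩
    funext b
    have h7 := congrFun h6 b
    exact Fin.ext (congrArg (fun z : Fin (a m b) => (z : ℕ)) h7)

end Vale.Agent.P110F
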