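import Mathlib
import Vale.Agent.Lib.P110F.Defs

/-!
P110F E0b: block matrices.
-/

namespace Vale.Agent.P110F

open MeasureTheory Filter Topology
open scoped ComplexConjugate ENNReal

theorem blk_row1 {P N₁ : Type} [Fintype P] [DecidableEq P] [Fintype N₁] [DecidableEq N₁]
    (Y : Matrix P P ℤ) (h : N₁ → ℤ) (t : (P ⊕ P) ⊕ N₁ → ℝ) (p : P) :
    ∑ a', ((blk Y h (Sum.inl (Sum.inl p)) a' : ℤ) : ℝ) * t a' =
      ∑ p', ((Y p' p : ℤ) : ℝ) * t (Sum.inl (Sum.inr p')) := by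
  simp [blk, Fintype.sum_sum_type, Matrix.transpose_apply]

theorem blk_row2 {P N₁ : Type} [Fintype P] [DecidableEq P] [Fintype N₁] [DecidableEq N₁]
    (Y : Matrix P P ℤ) (h : N₁ → ℤ) (t : (P ⊕ P) ⊕ N₁ → ℝ) (p : P) :
    ∑ a', ((blk Y h (Sum.inl (Sum.inr p)) a' : ℤ) : ℝ) * t a' =
      ∑ p', ((Y p p' : ℤ) : ℝ) * t (Sum.inl (Sum.inl p')) := by
  simp [blk, Fintype.sum_sum_type]

theorem blk_row3 {P N₁ : Type} [Fintype P] [DecidableEq P] [Fintype N₁] [DecidableEq N₁]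
    (Y : Matrix P P ℤ) (h : N₁ → ℤ) (t : (P ⊕ P) ⊕ N₁ → ℝ) (b : N₁) :
    ∑ a', ((blk Y h (Sum.inr b) a' : ℤ) : ℝ) * t a' = ((h b : ℤ) : ℝ) * t (Sum.inr b) := by
  simp [blk, Fintype.sum_sum_type, Matrix.diagonal_apply]

theorem bdiag_row {D J : ℕ} (Y : Matrix (Fin D) (Fin D) ℤ) (x : Fin D × Fin J → ℝ)
    (d : Fin D) (j : Fin J) :
    ∑ p, ((Matrix.blockDiagonal (fun _ : Fin J => Y) (d, j) p : ℤ) : ℝ) * x p =
      ∑ d', ((Y d d' : ℤ) : ℝ) * x (d', j) := by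
  rw [Fintype.sum_prod_type]
  refine Finset.sum_congr rfl fun d' _ => ?_
  simp [Matrix.blockDiagonal_apply]

theorem bdiag_col {D J : ℕ} (Y : Matrix (Fin D) (Fin D) ℤ) (x : Fin D × Fin J → ℝ)
    (d : Fin D) (j : Fin J) :
    ∑ p, ((Matrix.blockDiagonal (fun _ : Fin J => Y) p (d, j) : ℤ) : ℝ) * x p =
      ∑ d', ((Y d' d : ℤ) : ℝ) * x (d', j) := by
  rw [Fintype.sum_prod_type]
  refine Finset.sum_congr rfl fun d' _ => ?_
  simp [Matrix.blockDiagonal_apply]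

theorem bdiag_lin {O : Type} [CommRing O] {k D J : ℕ} (B : Module.Basis (Fin D) ℤ O)
    (m : Fin k → ℤ) (t : Fin k → O) :
    ∑ i, m i • Matrix.blockDiagonal (fun _ : Fin J => Algebra.leftMulMatrix B (t i)) =
      Matrix.blockDiagonal (fun _ : Fin J =>
        Algebra.leftMulMatrix B (∑ i, (m i : O) * t i)) := by
  have h1 : Algebra.leftMulMatrix B (∑ i, (m i : O) * t i) =
      ∑ i, m i • Algebra.leftMulMatrix B (t i) := by
    rw [map_sum]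
    refine Finset.sum_congr rfl fun i _ => ?_
    rw [← zsmul_eq_mul, map_zsmul]
  rw [h1]
  ext ⟨a, j⟩ ⟨b, j'⟩
  rw [Matrix.sum_apply, Matrix.blockDiagonal_apply]
  simp only [Matrix.smul_apply, Matrix.blockDiagonal_apply, Matrix.sum_apply]
  split_ifs
  · rfl
  · simp

theorem bdiag_unit {O : Type} [CommRing O] {D J : ℕ} (B : Module.Basis (Fin D) ℤ O)
    (a : O) (ha : IsUnit a) :
    IsUnit (Matrix.blockDiagonal (fun _ : Fin J => Algebra.leftMulMatrix B a)) := by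
  have h1 : IsUnit (Algebra.leftMulMatrix B a) := ha.map (Algebra.leftMulMatrix B)
  have h2 : IsUnit (fun _ : Fin J => Algebra.leftMulMatrix B a) :=
    Pi.isUnit_iff.2 fun _ => h1
  exact h2.map (Matrix.blockDiagonalRingHom (Fin D) (Fin J) ℤ)

theorem floor_cell (a Q ρ : ℕ) (hQ : 0 < Q) (hd : a ∣ Q) (x : ℝ)
    (hx : 0 < x) (hx1 : x < 1) (ha : 0 < a) :
    ((a * ρ / Q : ℕ) : ℝ) ≤ a * ((ρ + x) / Q) ∧ a * ((ρ + x) / Q) < ((a * ρ / Q : ℕ) : ℝ) + 1 := by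
  have hQ0 : (0 : ℝ) < Q := by exact_mod_cast hQ
  have ha0 : (0 : ℝ) < a := by exact_mod_cast ha
  obtain ⟨c, rfl⟩ := hd
  have hc : 0 < c := Nat.pos_of_mul_pos_left hQ |> fun h => by
    rcases Nat.eq_zero_or_pos c with h1 | h1
    · subst h1
      simp at hQ
    · exact h1
  have h1 : a * ρ / (a * c) = ρ / c := Nat.mul_div_mul_left _ _ ha
  rw [h1]
  have h2 := Nat.div_add_mod ρ c
  have h3 := Nat.mod_lt ρ hc
  have hc0 : (0 : ℝ) < c := by exact_mod_cast hc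
  have h4 : (a : ℝ) * ((ρ + x) / ((a * c : ℕ) : ℝ)) = (ρ + x) / c := by
    push_cast
    field_simp
  rw [h4]
  have h5 : ((ρ : ℕ) : ℝ) = c * ((ρ / c : ℕ) : ℝ) + ((ρ % c : ℕ) : ℝ) := by
    exact_mod_cast h2.symm
  have h6 : ((ρ % c : ℕ) : ℝ) + 1 ≤ c := by exact_mod_cast h3
  have h7 : (0 : ℝ) ≤ ((ρ % c : ℕ) : ℝ) := Nat.cast_nonneg _
  constructor
  · rw [le_div_iff₀ hc0]
    nlinarith
  · rw [div_lt_iff₀ hc0]
    nlinarith

end Vale.Agent.P110F
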