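import Mathlib
import Vale.Agent.Lib.P110F.Defs

/-!
P110F: the pieces of the core system are pairwise disjoint modulo integer vectors.
-/

namespace Vale.Agent.P110F

open MeasureTheory Filter Topology
open scoped ComplexConjugate ENNReal

private lemma int_of_mul {D : ℕ} (M N : Matrix (Fin D) (Fin D) ℤ) (hNM : N * M = 1)
    (x : Fin D → ℝ) (hx : ∀ i, ∃ c : ℤ, ∑ j, ((M i j : ℤ) : ℝ) * x j = c) (i : Fin D) :
    ∃ c : ℤ, x i = c := by
  choose c hc using hx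
  refine ⟨∑ j, N i j * c j, ?_⟩
  have h1 : ∀ l, ∑ j, (N i j : ℝ) * (M j l : ℝ) = if i = l then 1 else 0 := by
    intro l
    have h0 := congrFun (congrFun hNM i) l
    rw [Matrix.mul_apply, Matrix.one_apply] at h0
    have h2 := congrArg (fun z : ℤ => (z : ℝ)) h0
    simp only [Int.cast_sum, Int.cast_mul] at h2
    rw [h2]
    split_ifs <;> simp
  have h3 : x i = ∑ l, (∑ j, (N i j : ℝ) * (M j l : ℝ)) * x l := by
    simp_rw [h1]
    simp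
  have h4 : ∑ l, (∑ j, (N i j : ℝ) * (M j l : ℝ)) * x l =
      ∑ j, (N i j : ℝ) * ∑ l, (M j l : ℝ) * x l := by
    simp_rw [Finset.sum_mul, Finset.mul_sum]
    rw [Finset.sum_comm]
    exact Finset.sum_congr rfl fun _ _ => Finset.sum_congr rfl fun _ _ => mul_assoc _ _ _
  rw [h3, h4, Int.cast_sum]
  refine Finset.sum_congr rfl fun j _ => ?_
  rw [hc j, Int.cast_mul]

private lemma eq_of_sub_int {x y : ℝ} (hx : x ∈ Set.Ico (0 : ℝ) 1) (hy : y ∈ Set.Ico (0 : ℝ) 1)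
    {c : ℤ} (h : x - y = c) : x = y := by
  have h1 : (c : ℝ) < 1 := by rw [← h]; linarith [hx.2, hy.1]
  have h2 : (-1 : ℝ) < c := by rw [← h]; linarith [hx.1, hy.2]
  have h3 : c < 1 := by exact_mod_cast h1
  have h4 : -1 < c := by exact_mod_cast h2
  have h5 : c = 0 := by omega
  rw [h5, Int.cast_zero] at h
  linarith

private lemma lt_of_floor {A : ℤ} (hA : A ≠ 0) {x : ℝ} (hx : x < 1) {q : ℕ}
    (h : (q : ℝ) ≤ A.natAbs * x) : q < A.natAbs := by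
  have hpos : (0 : ℝ) < A.natAbs := by exact_mod_cast Int.natAbs_pos.2 hA
  have h1 : (A.natAbs : ℝ) * x < A.natAbs * 1 := mul_lt_mul_of_pos_left hx hpos
  have h2 : (q : ℝ) < (A.natAbs : ℝ) := by linarith
  exact_mod_cast h2

private lemma eq_of_floor {y : ℝ} {q q' : ℕ} (h : (q : ℝ) ≤ y ∧ y < q + 1)
    (h' : (q' : ℝ) ≤ y ∧ y < q' + 1) : q = q' := by
  have h1 : (q : ℝ) < ((q' + 1 : ℕ) : ℝ) := by push_cast; linarith [h.1, h'.2]
  have h2 : (q' : ℝ) < ((q + 1 : ℕ) : ℝ) := by push_cast; linarith [h'.1, h.2]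
  have h3 : q < q' + 1 := by exact_mod_cast h1
  have h4 : q' < q + 1 := by exact_mod_cast h2
  omega

private lemma eq_of_floor_sub {A : ℤ} (hA : A ≠ 0) {x y : ℝ} {q : ℕ}
    (h : (q : ℝ) ≤ A.natAbs * x ∧ (A.natAbs : ℝ) * x < q + 1)
    (h' : (q : ℝ) ≤ A.natAbs * y ∧ (A.natAbs : ℝ) * y < q + 1)
    {c : ℤ} (hc : (A : ℝ) * x - A * y = c) : x = y := by
  have hA' : (A : ℝ) ≠ 0 := by exact_mod_cast hA
  have habs : ((A.natAbs : ℕ) : ℝ) = |(A : ℝ)| := by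
    rw [Nat.cast_natAbs, Int.cast_abs]
  rw [habs] at h h'
  have h1 : |(c : ℝ)| < 1 := by
    rw [← hc, ← mul_sub, abs_mul, ← abs_of_nonneg (abs_nonneg (A : ℝ)), ← abs_mul, abs_lt]
    constructor <;> nlinarith [h.1, h.2, h'.1, h'.2]
  have h2 : |c| < 1 := by exact_mod_cast h1
  have h3 : c = 0 := by
    rw [abs_lt] at h2
    omega
  rw [h3, Int.cast_zero, ← mul_sub] at hc
  have h4 := (mul_eq_zero.1 hc).resolve_left hA'
  linarith

theorem core_disjoint {k n₁ J D M r : ℕ} {O : Type} [CommRing O]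
    (B : Module.Basis (Fin D) ℤ O) (Sp : Finset (Fin k → ℤ)) (h : Fin n₁ → Fin k → ℤ)
    (hne : ∀ m ∈ Sp, ∀ b, ∑ i, m i * h b i ≠ 0)
    (t : (Sp → Fin n₁ → Fin M) → Fin k → O)
    (hu : ∀ m ∈ Sp, ∀ q, IsUnit (∑ i, (m i : O) * t q i))
    (U : Set (Fin J → Fin D → ℝ)) (lam : Sp × (Sp → Fin n₁ → Fin M) → ZMod r)
    (hlam : ∀ g g', lam g = lam g' →
      (∀ b, (g.2 g.1 b : ℕ) < (∑ i, g.1.1 i * h b i).natAbs) →
      (∀ b, (g'.2 g'.1 b : ℕ) < (∑ i, g'.1.1 i * h b i).natAbs) →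
      g.1 = g'.1 ∧ g.2 g.1 = g'.2 g'.1)
    (hU : ∀ (g g' : Sp × (Sp → Fin n₁ → Fin M)) (z z' : Fin J → Fin D → ℝ) (s : ℤ),
      z ∈ U → z' ∈ U → (s = 1 ∨ s = -1) →
      (∃ w : Fin J → Fin D → ℤ, ∀ j i, act B (∑ i, (g.1.1 i : O) * t g.2 i) (z j) i -
        s * act B (∑ i, (g'.1.1 i : O) * t g'.2 i) (z' j) i = w j i) → s = 1 ∧ lam g = lam g')
    (q q' : Sp → Fin n₁ → Fin M) (m m' : Sp) (s : ℤ) (hs : s = 1 ∨ s = -1)
    (z z' w w' : Fin J → Fin D → ℝ) (ρ ρ' : Fin n₁ → ℝ)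
    (hz : z ∈ U ∩ hcube2 J D) (hz' : z' ∈ U ∩ hcube2 J D) (hw : w ∈ hcube2 J D)
    (hw' : w' ∈ hcube2 J D) (hρ : ρ ∈ hcube n₁) (hρ' : ρ' ∈ hcube n₁)
    (hq : ∀ μ : Sp, ∀ b, (q μ b : ℝ) ≤ (∑ i, μ.1 i * h b i).natAbs * ρ b ∧
      (∑ i, μ.1 i * h b i).natAbs * ρ b < q μ b + 1)
    (hq' : ∀ μ : Sp, ∀ b, (q' μ b : ℝ) ≤ (∑ i, μ.1 i * h b i).natAbs * ρ' b ∧
      (∑ i, μ.1 i * h b i).natAbs * ρ' b < q' μ b + 1)
    (h1 : ∀ j i, ∃ c : ℤ, act B (∑ i, (m.1 i : O) * t q i) (z j) i -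
      s * act B (∑ i, (m'.1 i : O) * t q' i) (z' j) i = c)
    (h2 : ∀ b, ∃ c : ℤ, ((∑ i, m.1 i * h b i : ℤ) : ℝ) * ρ b -
      s * (((∑ i, m'.1 i * h b i : ℤ) : ℝ) * ρ' b) = c)
    (h3 : ∀ j i, ∃ c : ℤ,
      (∑ i', ((Algebra.leftMulMatrix B (∑ i, (m.1 i : O) * t q i) i' i : ℤ) : ℝ) * w j i') -
      s * (∑ i', ((Algebra.leftMulMatrix B (∑ i, (m'.1 i : O) * t q' i) i' i : ℤ) : ℝ) *
        w' j i') = c) :
    s = 1 ∧ m = m' ∧ z = z' ∧ w = w' ∧ ρ = ρ' := by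
  obtain ⟨hs1, hl⟩ := hU (m, q) (m', q') z z' s hz.1 hz'.1 hs (by
    choose c hc using h1
    exact ⟨c, hc⟩)
  subst hs1
  obtain ⟨hmm, hqq⟩ := hlam (m, q) (m', q') hl
    (fun b => lt_of_floor (hne m.1 m.2 b) (hρ b (Set.mem_univ b)).2 (hq m b).1)
    (fun b => lt_of_floor (hne m'.1 m'.2 b) (hρ' b (Set.mem_univ b)).2 (hq' m' b).1)
  change m = m' at hmm
  subst hmm
  change q m = q' m at hqq
  have hρρ : ρ = ρ' := by
    funext b
    obtain ⟨c, hc⟩ := h2 b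
    rw [Int.cast_one, one_mul] at hc
    refine eq_of_floor_sub (hne m.1 m.2 b) (q := (q m b : ℕ)) (hq m b) ?_ hc
    rw [hqq]
    exact hq' m b
  subst hρρ
  have hqq' : q = q' := by
    funext μ b
    exact Fin.ext (eq_of_floor (hq μ b) (hq' μ b))
  subst hqq'
  obtain ⟨v, hv⟩ := (hu m.1 m.2 q).exists_right_inv
  set u : O := ∑ i, (m.1 i : O) * t q i with hudef
  have hMN : Algebra.leftMulMatrix B u * Algebra.leftMulMatrix B v = 1 := by
    rw [← map_mul, hv, map_one]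
  have hNM : Algebra.leftMulMatrix B v * Algebra.leftMulMatrix B u = 1 := by
    rw [← map_mul, mul_comm, hv, map_one]
  refine ⟨rfl, rfl, ?_, ?_, rfl⟩
  · funext j i
    obtain ⟨c, hc⟩ := int_of_mul _ _ hNM (fun i => z j i - z' j i) (fun i' => by
      obtain ⟨c, hc⟩ := h1 j i'
      refine ⟨c, ?_⟩
      rw [Int.cast_one, one_mul] at hc
      rw [← hc]
      unfold act
      rw [← Finset.sum_sub_distrib]
      exact Finset.sum_congr rfl fun _ _ => mul_sub _ _ _) i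
    exact eq_of_sub_int (hz.2 j (Set.mem_univ j) i (Set.mem_univ i))
      (hz'.2 j (Set.mem_univ j) i (Set.mem_univ i)) hc
  · funext j i
    have hT : (Algebra.leftMulMatrix B v).transpose * (Algebra.leftMulMatrix B u).transpose = 1 := by
      rw [← Matrix.transpose_mul, hMN, Matrix.transpose_one]
    obtain ⟨c, hc⟩ := int_of_mul _ _ hT (fun i => w j i - w' j i) (fun i' => by
      obtain ⟨c, hc⟩ := h3 j i'
      refine ⟨c, ?_⟩
      rw [Int.cast_one, one_mul] at hc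
      rw [← hc, ← Finset.sum_sub_distrib]
      exact Finset.sum_congr rfl fun _ _ => mul_sub _ _ _) i
    exact eq_of_sub_int (hw j (Set.mem_univ j) i (Set.mem_univ i))
      (hw' j (Set.mem_univ j) i (Set.mem_univ i)) hc

end Vale.Agent.P110F
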