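import Mathlib
import Vale.Agent.Lib.P110F.Defs

/-!
P110F: elementary facts on the block matrices `blk`.
-/

namespace Vale.Agent.P110F

open MeasureTheory Filter Topology
open scoped ComplexConjugate ENNReal

theorem blk_isSymm {P N₁ : Type} [DecidableEq N₁] (Y : Matrix P P ℤ) (h : N₁ → ℤ) :
    (blk Y h).IsSymm := by
  unfold blk Matrix.IsSymm
  rw [Matrix.fromBlocks_transpose, Matrix.fromBlocks_transpose]
  simp

theorem blk_sum {P N₁ : Type} [DecidableEq N₁] {k : ℕ} (m : Fin k → ℤ)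
    (Y : Fin k → Matrix P P ℤ) (h : Fin k → N₁ → ℤ) :
    ∑ i, m i • blk (Y i) (h i) = blk (∑ i, m i • Y i) (fun b => ∑ i, m i * h i b) := by
  ext i j
  rcases i with (i | i) | i <;> rcases j with (j | j) | j <;>
    simp [blk, Matrix.sum_apply, Matrix.diagonal_apply]

private theorem abs_det_swap {P : Type} [Fintype P] [DecidableEq P] :
    |(Matrix.fromBlocks (0 : Matrix P P ℤ) (1 : Matrix P P ℤ) (1 : Matrix P P ℤ) (0 : Matrix P P ℤ)).det| = 1 := by
  have h : (Matrix.fromBlocks (0 : Matrix P P ℤ) (1 : Matrix P P ℤ) (1 : Matrix P P ℤ) (0 : Matrix P P ℤ)) * Matrix.fromBlocks 0 1 1 0 = 1 := by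
    rw [Matrix.fromBlocks_multiply]
    simp
  have h2 := congrArg Matrix.det h
  rw [Matrix.det_mul, Matrix.det_one] at h2
  have h3 : IsUnit (Matrix.fromBlocks (0 : Matrix P P ℤ) (1 : Matrix P P ℤ) (1 : Matrix P P ℤ) (0 : Matrix P P ℤ)).det := IsUnit.of_mul_eq_one _ h2
  exact Int.isUnit_iff_abs_eq.1 h3

private theorem abs_det_off {P : Type} [Fintype P] [DecidableEq P] (Y : Matrix P P ℤ)
    (hY : IsUnit Y) : |(Matrix.fromBlocks (0 : Matrix P P ℤ) Y.transpose Y 0).det| = 1 := by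
  have hd : |Y.det| = 1 := Int.isUnit_iff_abs_eq.1 ((Matrix.isUnit_iff_isUnit_det Y).1 hY)
  have h : (Matrix.fromBlocks (0 : Matrix P P ℤ) Y.transpose Y 0) * Matrix.fromBlocks 0 1 1 0 =
      Matrix.fromBlocks Y.transpose 0 0 Y := by
    rw [Matrix.fromBlocks_multiply]
    simp
  have h2 := congrArg Matrix.det h
  rw [Matrix.det_mul, Matrix.det_fromBlocks_zero₂₁, Matrix.det_transpose] at h2
  have h3 := congrArg abs h2
  rw [abs_mul, abs_det_swap, mul_one, abs_mul, hd, one_mul] at h3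
  exact h3

theorem blk_det {P N₁ : Type} [Fintype P] [DecidableEq P] [Fintype N₁] [DecidableEq N₁]
    (Y : Matrix P P ℤ) (hY : IsUnit Y) (h : N₁ → ℤ) : |(blk Y h).det| = ∏ b, |h b| := by
  unfold blk
  rw [Matrix.det_fromBlocks_zero₂₁, abs_mul, abs_det_off Y hY, one_mul, Matrix.det_diagonal,
    Finset.abs_prod]

end Vale.Agent.P110F
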