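import Mathlib
import Vale.Agent.Lib.P110F.Defs

/-! P110F, L1: the action of a ring with an integer basis; images of a tiny box are disjoint. -/

namespace Vale.Agent.P110F

open MeasureTheory Filter Topology
open scoped ComplexConjugate ENNReal

theorem act_mul {O : Type} [CommRing O] {D : ℕ} (B : Module.Basis (Fin D) ℤ O) (a a' : O)
    (v : Fin D → ℝ) : act B (a * a') v = act B a (act B a' v) := by
  funext i
  unfold act
  rw [map_mul]
  simp only [Matrix.mul_apply]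
  push_cast
  simp_rw [Finset.sum_mul, Finset.mul_sum]
  rw [Finset.sum_comm]
  refine Finset.sum_congr rfl fun j _ => Finset.sum_congr rfl fun k _ => ?_
  ring

theorem act_int {O : Type} [CommRing O] {D : ℕ} (B : Module.Basis (Fin D) ℤ O) (a : O)
    (w : Fin D → ℤ) : ∃ w' : Fin D → ℤ, ∀ i, act B a (fun j => (w j : ℝ)) i = w' i := by
  refine ⟨fun i => ∑ j, Algebra.leftMulMatrix B a i j * w j, fun i => ?_⟩
  unfold act
  push_cast
  rfl

private lemma act_sub' {O : Type} [CommRing O] {D : ℕ} (B : Module.Basis (Fin D) ℤ O) (a : O)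
    (x y : Fin D → ℝ) (i : Fin D) :
    act B a x i - act B a y i = act B a (fun j => x j - y j) i := by
  unfold act
  rw [← Finset.sum_sub_distrib]
  refine Finset.sum_congr rfl fun j _ => ?_
  ring

private lemma act_bound {O : Type} [CommRing O] {D : ℕ} (B : Module.Basis (Fin D) ℤ O) (a : O)
    (v : Fin D → ℝ) (r C : ℝ) (i : Fin D)
    (hC : ∑ j, |((Algebra.leftMulMatrix B a i j : ℤ) : ℝ)| ≤ C) (hr : 0 ≤ r)
    (hv : ∀ j, |v j| ≤ r) : |act B a v i| ≤ C * r := by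
  unfold act
  calc |∑ j, ((Algebra.leftMulMatrix B a i j : ℤ) : ℝ) * v j|
      ≤ ∑ j, |((Algebra.leftMulMatrix B a i j : ℤ) : ℝ) * v j| := Finset.abs_sum_le_sum_abs _ _
    _ ≤ ∑ j, |((Algebra.leftMulMatrix B a i j : ℤ) : ℝ)| * r := by
        refine Finset.sum_le_sum fun j _ => ?_
        rw [abs_mul]
        exact mul_le_mul_of_nonneg_left (hv j) (abs_nonneg _)
    _ = (∑ j, |((Algebra.leftMulMatrix B a i j : ℤ) : ℝ)|) * r := by rw [Finset.sum_mul]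
    _ ≤ C * r := mul_le_mul_of_nonneg_right hC hr

private lemma act_one {O : Type} [CommRing O] {D : ℕ} (B : Module.Basis (Fin D) ℤ O) (a : O)
    (δ : ℝ) (i : Fin D) :
    act B a (fun j => δ * ((B.repr 1 j : ℤ) : ℝ)) i = δ * ((B.repr a i : ℤ) : ℝ) := by
  have h := Algebra.leftMulMatrix_mulVec_repr B a 1
  rw [mul_one] at h
  have h2 := congrFun h i
  rw [Matrix.mulVec, dotProduct] at h2
  rw [← h2]
  unfold act
  push_cast
  rw [Finset.mul_sum]
  refine Finset.sum_congr rfl fun j _ => ?_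
  ring

theorem exists_tiny_box {O : Type} [CommRing O] {D : ℕ} (B : Module.Basis (Fin D) ℤ O)
    (Ψ : Finset O) :
    ∃ (p : Fin D → ℝ) (ρ : ℝ), 0 < ρ ∧ ρ < 1 / 4 ∧ ∀ a ∈ Ψ, ∀ a' ∈ Ψ, ∀ x x' : Fin D → ℝ,
      (∀ i, |x i - p i| ≤ ρ) → (∀ i, |x' i - p i| ≤ ρ) →
      (∃ w : Fin D → ℤ, ∀ i, act B a x i - act B a' x' i = w i) → a = a' := by
  set C : ℝ := ∑ a ∈ Ψ, ∑ i, ∑ j, |((Algebra.leftMulMatrix B a i j : ℤ) : ℝ)| + 1 with hC
  set R : ℝ := ∑ j, |((B.repr 1 j : ℤ) : ℝ)| + 1 with hR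
  have hC1 : 1 ≤ C := by
    have : 0 ≤ ∑ a ∈ Ψ, ∑ i, ∑ j, |((Algebra.leftMulMatrix B a i j : ℤ) : ℝ)| :=
      Finset.sum_nonneg fun a _ => Finset.sum_nonneg fun i _ => Finset.sum_nonneg fun j _ =>
        abs_nonneg _
    linarith
  have hR1 : 1 ≤ R := by
    have : 0 ≤ ∑ j, |((B.repr 1 j : ℤ) : ℝ)| := Finset.sum_nonneg fun j _ => abs_nonneg _
    linarith
  have hCa : ∀ a ∈ Ψ, ∀ i, ∑ j, |((Algebra.leftMulMatrix B a i j : ℤ) : ℝ)| ≤ C := by
    intro a ha i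
    have h1 : ∑ j, |((Algebra.leftMulMatrix B a i j : ℤ) : ℝ)| ≤
        ∑ i, ∑ j, |((Algebra.leftMulMatrix B a i j : ℤ) : ℝ)| :=
      Finset.single_le_sum (f := fun i => ∑ j, |((Algebra.leftMulMatrix B a i j : ℤ) : ℝ)|)
        (fun i _ => Finset.sum_nonneg fun j _ => abs_nonneg _) (Finset.mem_univ i)
    have h2 : ∑ i, ∑ j, |((Algebra.leftMulMatrix B a i j : ℤ) : ℝ)| ≤
        ∑ a ∈ Ψ, ∑ i, ∑ j, |((Algebra.leftMulMatrix B a i j : ℤ) : ℝ)| :=
      Finset.single_le_sum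
        (f := fun a => ∑ i, ∑ j, |((Algebra.leftMulMatrix B a i j : ℤ) : ℝ)|)
        (fun a _ => Finset.sum_nonneg fun i _ => Finset.sum_nonneg fun j _ => abs_nonneg _) ha
    linarith
  have hRj : ∀ j, |((B.repr 1 j : ℤ) : ℝ)| ≤ R - 1 := by
    intro j
    have := Finset.single_le_sum (f := fun j => |((B.repr 1 j : ℤ) : ℝ)|)
      (fun j _ => abs_nonneg _) (Finset.mem_univ j)
    linarith
  set δ : ℝ := 1 / (16 * C * R) with hδ
  have hCR : 0 < 16 * C * R := by positivity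
  have hδ0 : 0 < δ := by rw [hδ]; positivity
  have hδ1 : C * R * δ = 1 / 16 := by
    rw [hδ]
    field_simp
  set ρ : ℝ := δ / (4 * C) with hρ
  have hρ0 : 0 < ρ := by rw [hρ]; positivity
  have hρ1 : C * ρ = δ / 4 := by
    rw [hρ]
    field_simp
  have hρδ : ρ ≤ δ / 4 := by nlinarith
  have hδ16 : δ ≤ 1 / 16 := by
    have : 1 ≤ C * R := by nlinarith
    nlinarith
  refine ⟨fun j => δ * ((B.repr 1 j : ℤ) : ℝ), ρ, hρ0, by linarith, ?_⟩
  intro a ha a' ha' x x' hx hx' hw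
  obtain ⟨w, hw⟩ := hw
  have hbd : ∀ y : Fin D → ℝ, (∀ i, |y i - δ * ((B.repr 1 i : ℤ) : ℝ)| ≤ ρ) →
      ∀ i, |y i| ≤ δ * R := by
    intro y hy i
    have h1 := hy i
    have h2 : |δ * ((B.repr 1 i : ℤ) : ℝ)| ≤ δ * (R - 1) := by
      rw [abs_mul, abs_of_pos hδ0]
      exact mul_le_mul_of_nonneg_left (hRj i) hδ0.le
    calc |y i| = |(y i - δ * ((B.repr 1 i : ℤ) : ℝ)) + δ * ((B.repr 1 i : ℤ) : ℝ)| := by ring_nf
      _ ≤ |y i - δ * ((B.repr 1 i : ℤ) : ℝ)| + |δ * ((B.repr 1 i : ℤ) : ℝ)| := abs_add_le _ _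
      _ ≤ ρ + δ * (R - 1) := add_le_add h1 h2
      _ ≤ δ * R := by linarith
  have hδR : 0 ≤ δ * R := by positivity
  have hsmall : ∀ i, w i = 0 := by
    intro i
    have h1 := act_bound B a x (δ * R) C i (hCa a ha i) hδR (hbd x hx)
    have h2 := act_bound B a' x' (δ * R) C i (hCa a' ha' i) hδR (hbd x' hx')
    have h3 : |((w i : ℤ) : ℝ)| < 1 := by
      rw [← hw i]
      have h4 : C * (δ * R) = 1 / 16 := by rw [← hδ1]; ring
      have h5 := abs_sub (act B a x i) (act B a' x' i)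
      rw [h4] at h1 h2
      linarith
    have h6 : |w i| < 1 := by exact_mod_cast h3
    exact Int.abs_lt_one_iff.1 h6
  by_contra hne
  have hne2 : ∃ i, B.repr a i ≠ B.repr a' i := by
    by_contra hcon
    push Not at hcon
    exact hne (B.repr.injective (Finsupp.ext hcon))
  obtain ⟨i, hi⟩ := hne2
  have h1 := act_bound B a (fun j => x j - δ * ((B.repr 1 j : ℤ) : ℝ)) ρ C i (hCa a ha i)
    hρ0.le hx
  have h2 := act_bound B a' (fun j => x' j - δ * ((B.repr 1 j : ℤ) : ℝ)) ρ C i (hCa a' ha' i)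
    hρ0.le hx'
  rw [← act_sub', act_one] at h1 h2
  rw [hρ1] at h1 h2
  have h3 := hw i
  rw [hsmall i, Int.cast_zero, sub_eq_zero] at h3
  rw [h3] at h1
  have h4 : |δ * ((B.repr a i : ℤ) : ℝ) - δ * ((B.repr a' i : ℤ) : ℝ)| ≤ δ / 2 := by
    rw [abs_le] at h1 h2 ⊢
    constructor <;> linarith [h1.1, h1.2, h2.1, h2.2]
  rw [← mul_sub, abs_mul, abs_of_pos hδ0] at h4
  have h5 : (1 : ℝ) ≤ |((B.repr a i : ℤ) : ℝ) - ((B.repr a' i : ℤ) : ℝ)| := by
    have : 1 ≤ |B.repr a i - B.repr a' i| := Int.one_le_abs (sub_ne_zero.2 hi)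
    exact_mod_cast this
  nlinarith

end Vale.Agent.P110F
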