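import Mathlib
import Vale.Agent.Lib.P110F.Defs
import Vale.Agent.Lib.P110F.L1

namespace Vale.Agent.P110F

open MeasureTheory Filter Topology
open scoped ComplexConjugate ENNReal

private theorem vol_periodize {D : ℕ} (A : Set (Fin D → ℝ)) (hA : MeasurableSet A)
    (hinj : ∀ x ∈ A, ∀ x' ∈ A, (∃ w : Fin D → ℤ, ∀ i, x i - x' i = w i) → x = x') :
    volume ({x | ∃ y ∈ A, ∃ w : Fin D → ℤ, ∀ i, x i = y i + w i} ∩ hcube D) = volume A := by
  classical
  let q : (Fin D → ℤ) → (Fin D → ℝ) := fun w i => (w i : ℝ)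
  have hcm : MeasurableSet (hcube D) := MeasurableSet.univ_pi fun _ => measurableSet_Ico
  have h1 : {x | ∃ y ∈ A, ∃ w : Fin D → ℤ, ∀ i, x i = y i + w i} ∩ hcube D
      = ⋃ w : Fin D → ℤ, ((fun x => x + (-q w)) ⁻¹' A) ∩ hcube D := by
    ext x
    simp only [Set.mem_inter_iff, Set.mem_ofPred_eq, Set.mem_iUnion, Set.mem_preimage]
    constructor
    · rintro ⟨⟨y, hy, w, hw⟩, hx⟩
      refine ⟨w, ?_, hx⟩
      have : x + -q w = y := by
        funext i
        simp only [Pi.add_apply, Pi.neg_apply, q]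
        rw [hw i]; ring
      rwa [this]
    · rintro ⟨w, hw, hx⟩
      refine ⟨⟨x + -q w, hw, w, fun i => ?_⟩, hx⟩
      simp only [Pi.add_apply, Pi.neg_apply, q]
      ring
  have h2 : A = ⋃ w : Fin D → ℤ, A ∩ ((fun x => x + q w) ⁻¹' hcube D) := by
    ext x
    simp only [Set.mem_inter_iff, Set.mem_iUnion, Set.mem_preimage]
    constructor
    · intro hx
      refine ⟨fun i => -⌊x i⌋, hx, ?_⟩
      intro i _
      simp only [Pi.add_apply, q, Int.cast_neg]
      exact ⟨by linarith [Int.floor_le (x i)], by linarith [Int.lt_floor_add_one (x i)]⟩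
    · rintro ⟨w, hx, _⟩
      exact hx
  have hmeas1 : ∀ w : Fin D → ℤ, MeasurableSet (((fun x => x + (-q w)) ⁻¹' A) ∩ hcube D) :=
    fun w => ((measurable_id.add_const (-q w)) hA).inter hcm
  have hmeas2 : ∀ w : Fin D → ℤ, MeasurableSet (A ∩ ((fun x => x + q w) ⁻¹' hcube D)) :=
    fun w => hA.inter ((measurable_id.add_const (q w)) hcm)
  have hd1 : Pairwise (Function.onFun Disjoint
      (fun w : Fin D → ℤ => ((fun x => x + (-q w)) ⁻¹' A) ∩ hcube D)) := by
    intro w w' hww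
    rw [Function.onFun, Set.disjoint_left]
    rintro x ⟨hx, _⟩ ⟨hx', _⟩
    apply hww
    have := hinj _ hx _ hx' ⟨fun i => w' i - w i, fun i => by
      simp only [Pi.add_apply, Pi.neg_apply, q]
      push_cast
      ring⟩
    funext i
    have h3 := congrFun this i
    simp only [Pi.add_apply, Pi.neg_apply, q] at h3
    have : (w i : ℝ) = w' i := by linarith
    exact_mod_cast this
  have hd2 : Pairwise (Function.onFun Disjoint
      (fun w : Fin D → ℤ => A ∩ ((fun x => x + q w) ⁻¹' hcube D))) := by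
    intro w w' hww
    rw [Function.onFun, Set.disjoint_left]
    rintro x ⟨_, hx⟩ ⟨_, hx'⟩
    apply hww
    funext i
    have h3 := hx i (Set.mem_univ i)
    have h4 := hx' i (Set.mem_univ i)
    simp only [Pi.add_apply, q, Set.mem_Ico] at h3 h4
    have h5 : (w i : ℝ) < w' i + 1 := by linarith [h3.2, h4.1]
    have h6 : (w' i : ℝ) < w i + 1 := by linarith [h3.1, h4.2]
    have h5' : w i < w' i + 1 := by exact_mod_cast h5
    have h6' : w' i < w i + 1 := by exact_mod_cast h6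
    omega
  rw [h1, measure_iUnion hd1 hmeas1]
  conv_rhs => rw [h2, measure_iUnion hd2 hmeas2]
  refine tsum_congr fun w => ?_
  rw [← measure_preimage_add_right volume (q w)]
  congr 1
  ext x
  simp

private noncomputable def mm {O : Type} [CommRing O] {D : ℕ} (B : Module.Basis (Fin D) ℤ O)
    (a : O) : Matrix (Fin D) (Fin D) ℝ :=
  (Algebra.leftMulMatrix B a).map (Int.castRingHom ℝ)

private theorem act_eq {O : Type} [CommRing O] {D : ℕ} (B : Module.Basis (Fin D) ℤ O) (a : O)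
    (v : Fin D → ℝ) : act B a v = Matrix.toLin' (mm B a) v := by
  rw [Matrix.toLin'_apply]
  rfl

private theorem act_mul' {O : Type} [CommRing O] {D : ℕ} (B : Module.Basis (Fin D) ℤ O)
    (a a' : O) (v : Fin D → ℝ) : act B (a * a') v = act B a (act B a' v) := by
  rw [act_eq, act_eq, act_eq, Matrix.toLin'_apply, Matrix.toLin'_apply, Matrix.toLin'_apply,
    Matrix.mulVec_mulVec]
  congr 1
  unfold mm
  rw [map_mul, Matrix.map_mul]

private theorem act_one' {O : Type} [CommRing O] {D : ℕ} (B : Module.Basis (Fin D) ℤ O)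
    (v : Fin D → ℝ) : act B 1 v = v := by
  rw [act_eq, Matrix.toLin'_apply]
  unfold mm
  rw [map_one, Matrix.map_one _ (map_zero _) (map_one _), Matrix.one_mulVec]

private theorem det_mm {O : Type} [CommRing O] {D : ℕ} (B : Module.Basis (Fin D) ℤ O) {a : O}
    (ha : IsUnit a) : |LinearMap.det (Matrix.toLin' (mm B a))| = 1 := by
  rw [LinearMap.det_toLin']
  unfold mm
  have h1 : IsUnit (Algebra.leftMulMatrix B a).det :=
    (Matrix.isUnit_iff_isUnit_det _).1 (ha.map (Algebra.leftMulMatrix B))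
  have h2 : ((Algebra.leftMulMatrix B a).map (Int.castRingHom ℝ)).det
      = (((Algebra.leftMulMatrix B a).det : ℤ) : ℝ) := by
    have := RingHom.map_det (Int.castRingHom ℝ) (Algebra.leftMulMatrix B a)
    rw [RingHom.mapMatrix_apply] at this
    rw [← this]
    simp
  rw [h2]
  rcases Int.isUnit_iff.1 h1 with h | h <;> rw [h] <;> simp

private theorem act_int' {O : Type} [CommRing O] {D : ℕ} (B : Module.Basis (Fin D) ℤ O) (a : O)
    (w : Fin D → ℤ) : ∃ w' : Fin D → ℤ, ∀ i, act B a (fun j => (w j : ℝ)) i = w' i := by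
  refine ⟨fun i => ∑ j, Algebra.leftMulMatrix B a i j * w j, fun i => ?_⟩
  unfold act
  push_cast
  rfl

private theorem vol_box {D : ℕ} (p : Fin D → ℝ) {ρ : ℝ} (hρ : 0 < ρ) (cl : Bool) :
    MeasurableSet {y : Fin D → ℝ | ∀ i, if cl then |y i - p i| ≤ ρ else |y i - p i| < ρ} ∧
    volume {y : Fin D → ℝ | ∀ i, if cl then |y i - p i| ≤ ρ else |y i - p i| < ρ}
      = ENNReal.ofReal ((2 * ρ) ^ D) := by
  cases cl
  · have h1 : {y : Fin D → ℝ | ∀ i, if false = true then |y i - p i| ≤ ρ else |y i - p i| < ρ}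
        = Set.pi Set.univ (fun i => Set.Ioo (p i - ρ) (p i + ρ)) := by
      ext y
      simp only [Bool.false_eq_true, if_false, Set.mem_ofPred_eq, Set.mem_pi, Set.mem_univ,
        forall_true_left, Set.mem_Ioo]
      refine forall_congr' fun i => ?_
      rw [abs_lt]
      constructor
      · rintro ⟨h, h'⟩; constructor <;> linarith
      · rintro ⟨h, h'⟩; constructor <;> linarith
    rw [h1]
    refine ⟨MeasurableSet.univ_pi fun _ => measurableSet_Ioo, ?_⟩
    rw [Real.volume_pi_Ioo]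
    have : ∀ i : Fin D, p i + ρ - (p i - ρ) = 2 * ρ := fun i => by ring
    simp only [this, Finset.prod_const, Finset.card_univ, Fintype.card_fin]
    rw [ENNReal.ofReal_pow (by positivity)]
  · have h1 : {y : Fin D → ℝ | ∀ i, if true = true then |y i - p i| ≤ ρ else |y i - p i| < ρ}
        = Set.Icc (fun i => p i - ρ) (fun i => p i + ρ) := by
      ext y
      simp only [if_true, Set.mem_ofPred_eq, Set.mem_Icc, Pi.le_def]
      rw [← forall_and]
      refine forall_congr' fun i => ?_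
      rw [abs_le]
      constructor
      · rintro ⟨h, h'⟩; constructor <;> linarith
      · rintro ⟨h, h'⟩; constructor <;> linarith
    rw [h1]
    refine ⟨measurableSet_Icc, ?_⟩
    rw [Real.volume_Icc_pi]
    have : ∀ i : Fin D, p i + ρ - (p i - ρ) = 2 * ρ := fun i => by ring
    simp only [this, Finset.prod_const, Finset.card_univ, Fintype.card_fin]
    rw [ENNReal.ofReal_pow (by positivity)]

private theorem exists_inv {O : Type} [CommRing O] {a : O} (ha : IsUnit a) :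
    ∃ c : O, c * a = 1 ∧ a * c = 1 ∧ IsUnit c := by
  obtain ⟨u, rfl⟩ := ha
  exact ⟨((u⁻¹ : Oˣ) : O), by simp, by simp, (u⁻¹).isUnit⟩

private theorem img_eq {O : Type} [CommRing O] {D : ℕ} (B : Module.Basis (Fin D) ℤ O) {a c : O}
    (h1 : c * a = 1) (h2 : a * c = 1) (bo : Set (Fin D → ℝ)) :
    act B a '' bo = (act B c) ⁻¹' bo := by
  ext x
  constructor
  · rintro ⟨y, hy, rfl⟩
    rw [Set.mem_preimage]
    rwa [← act_mul', h1, act_one']
  · intro hx
    refine ⟨act B c x, hx, ?_⟩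
    rw [← act_mul', h2, act_one']

private theorem meas_act {O : Type} [CommRing O] {D : ℕ} (B : Module.Basis (Fin D) ℤ O) (c : O) :
    Measurable (act B c) := by
  have : act B c = fun v => Matrix.toLin' (mm B c) v := funext fun v => act_eq B c v
  rw [this]
  exact (LinearMap.continuous_of_finiteDimensional _).measurable

private theorem meas_img {O : Type} [CommRing O] {D : ℕ} (B : Module.Basis (Fin D) ℤ O) {a : O}
    (ha : IsUnit a) {bo : Set (Fin D → ℝ)} (hb : MeasurableSet bo) :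
    MeasurableSet (act B a '' bo) := by
  obtain ⟨c, h1, h2, h3⟩ := exists_inv ha
  rw [img_eq B h1 h2]
  exact meas_act B c hb

private theorem vol_img {O : Type} [CommRing O] {D : ℕ} (B : Module.Basis (Fin D) ℤ O) {a : O}
    (ha : IsUnit a) (bo : Set (Fin D → ℝ)) : volume (act B a '' bo) = volume bo := by
  have : act B a = fun v => Matrix.toLin' (mm B a) v := funext fun v => act_eq B a v
  rw [this, Measure.addHaar_image_linearMap, det_mm B ha]
  simp

private theorem inj_one {O : Type} [CommRing O] {D : ℕ} (B : Module.Basis (Fin D) ℤ O) {a : O}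
    (ha : IsUnit a) (p : Fin D → ℝ) {ρ : ℝ} (hsmall : ρ < 1 / 4) {y y' : Fin D → ℝ}
    (hy : ∀ i, |y i - p i| ≤ ρ) (hy' : ∀ i, |y' i - p i| ≤ ρ) (w : Fin D → ℤ)
    (hw : ∀ i, act B a y i - act B a y' i = w i) : y = y' := by
  obtain ⟨c, h1, h2, h3⟩ := exists_inv ha
  have hy1 : act B c (act B a y) = y := by rw [← act_mul', h1, act_one']
  have hy2 : act B c (act B a y') = y' := by rw [← act_mul', h1, act_one']
  obtain ⟨w', hw'⟩ := act_int' B c w
  have h4 : y - y' = act B c (fun j => (w j : ℝ)) := by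
    have h5 : (fun j => (w j : ℝ)) = act B a y - act B a y' := by
      funext j
      rw [Pi.sub_apply, hw j]
    rw [h5, act_eq B c, map_sub, ← act_eq, ← act_eq, hy1, hy2]
  funext i
  have h6 : y i - y' i = w' i := by
    rw [← hw' i, ← h4]
    rfl
  have h7 := abs_le.1 (hy i)
  have h8 := abs_le.1 (hy' i)
  have h9 : (w' i : ℝ) < 1 := by linarith [h7.2, h8.1]
  have h10 : (-1 : ℝ) < w' i := by linarith [h7.1, h8.2]
  have h9' : w' i < 1 := by exact_mod_cast h9
  have h10' : -1 < w' i := by exact_mod_cast h10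
  have h11 : w' i = 0 := by omega
  rw [h11, Int.cast_zero] at h6
  linarith

private theorem inj_A {O : Type} [CommRing O] {D : ℕ} (B : Module.Basis (Fin D) ℤ O)
    (Ψ : Finset O) (hu : ∀ a ∈ Ψ, IsUnit a) (p : Fin D → ℝ) {ρ : ℝ}
    (hd : ∀ a ∈ Ψ, ∀ a' ∈ Ψ, ∀ x x' : Fin D → ℝ,
      (∀ i, |x i - p i| ≤ ρ) → (∀ i, |x' i - p i| ≤ ρ) →
      (∃ w : Fin D → ℤ, ∀ i, act B a x i - act B a' x' i = w i) → a = a')
    (hsmall : ρ < 1 / 4) {bo : Set (Fin D → ℝ)} (hb : ∀ y ∈ bo, ∀ i, |y i - p i| ≤ ρ)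
    {x : Fin D → ℝ} (hx : x ∈ ⋃ a ∈ Ψ, act B a '' bo)
    {x' : Fin D → ℝ} (hx' : x' ∈ ⋃ a ∈ Ψ, act B a '' bo)
    (w : Fin D → ℤ) (hw : ∀ i, x i - x' i = w i) : x = x' := by
  rw [Set.mem_iUnion₂] at hx hx'
  obtain ⟨a, ha, y, hy, rfl⟩ := hx
  obtain ⟨a', ha', y', hy', rfl⟩ := hx'
  have haa : a = a' := hd a ha a' ha' y y' (hb y hy) (hb y' hy') ⟨w, hw⟩
  subst haa
  rw [inj_one B (hu a ha) p hsmall (hb y hy) (hb y' hy') w hw]

private theorem vol_A {O : Type} [CommRing O] {D : ℕ} (B : Module.Basis (Fin D) ℤ O)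
    (Ψ : Finset O) (hu : ∀ a ∈ Ψ, IsUnit a) (p : Fin D → ℝ) {ρ : ℝ} (hρ : 0 < ρ)
    (hd : ∀ a ∈ Ψ, ∀ a' ∈ Ψ, ∀ x x' : Fin D → ℝ,
      (∀ i, |x i - p i| ≤ ρ) → (∀ i, |x' i - p i| ≤ ρ) →
      (∃ w : Fin D → ℤ, ∀ i, act B a x i - act B a' x' i = w i) → a = a')
    {bo : Set (Fin D → ℝ)} (hb : ∀ y ∈ bo, ∀ i, |y i - p i| ≤ ρ) (hbm : MeasurableSet bo)
    (hbv : volume bo = ENNReal.ofReal ((2 * ρ) ^ D)) :
    volume (⋃ a ∈ Ψ, act B a '' bo) = ENNReal.ofReal (Ψ.card * (2 * ρ) ^ D) := by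
  have hdis : Set.PairwiseDisjoint (↑Ψ : Set O) (fun a => act B a '' bo) := by
    intro a ha a' ha' haa
    rw [Function.onFun, Set.disjoint_left]
    rintro x ⟨y, hy, rfl⟩ ⟨y', hy', hyy⟩
    refine haa (hd a ha a' ha' y y' (hb y hy) (hb y' hy') ⟨0, fun i => ?_⟩)
    rw [hyy, sub_self, Pi.zero_apply, Int.cast_zero]
  rw [measure_biUnion_finset hdis (fun a ha => meas_img B (hu a ha) hbm),
    Finset.sum_congr rfl (fun a ha => (vol_img B (hu a ha) bo).trans hbv)]
  rw [Finset.sum_const, nsmul_eq_mul, ENNReal.ofReal_mul (Nat.cast_nonneg _),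
    ENNReal.ofReal_natCast]

theorem volume_EE {O : Type} [CommRing O] {D : ℕ} (B : Module.Basis (Fin D) ℤ O)
    (Ψ : Finset O) (hu : ∀ a ∈ Ψ, IsUnit a) (p : Fin D → ℝ) {ρ : ℝ} (hρ : 0 < ρ)
    (hd : ∀ a ∈ Ψ, ∀ a' ∈ Ψ, ∀ x x' : Fin D → ℝ,
      (∀ i, |x i - p i| ≤ ρ) → (∀ i, |x' i - p i| ≤ ρ) →
      (∃ w : Fin D → ℤ, ∀ i, act B a x i - act B a' x' i = w i) → a = a')
    (hsmall : ρ < 1 / 4) (cl : Bool) :
    volume.real (EE B Ψ p ρ cl ∩ hcube D) = Ψ.card * (2 * ρ) ^ D := by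
  obtain ⟨hbm, hbv⟩ := vol_box p hρ cl
  have hble : ∀ y ∈ {y : Fin D → ℝ | ∀ i, if cl then |y i - p i| ≤ ρ else |y i - p i| < ρ},
      ∀ i, |y i - p i| ≤ ρ := by
    intro y hy i
    have := hy i
    split_ifs at this with h
    · exact this
    · exact this.le
  generalize hbo : {y : Fin D → ℝ | ∀ i, if cl then |y i - p i| ≤ ρ else |y i - p i| < ρ} = bo
    at hbm hbv hble
  have hEE : EE B Ψ p ρ cl = {x | ∃ y ∈ ⋃ a ∈ Ψ, act B a '' bo,
      ∃ w : Fin D → ℤ, ∀ i, x i = y i + w i} := by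
    rw [← hbo]
    ext x
    constructor
    · rintro ⟨a, ha, y, hy, w, hw⟩
      exact ⟨act B a y, Set.mem_iUnion₂.2 ⟨a, ha, y, hy, rfl⟩, w, hw⟩
    · rintro ⟨z, hz, w, hw⟩
      obtain ⟨a, ha, y, hy, rfl⟩ := Set.mem_iUnion₂.1 hz
      exact ⟨a, ha, y, hy, w, hw⟩
  have hA : MeasurableSet (⋃ a ∈ Ψ, act B a '' bo) :=
    Finset.measurableSet_biUnion _ (fun a ha => meas_img B (hu a ha) hbm)
  have hnn : 0 ≤ (Ψ.card : ℝ) * (2 * ρ) ^ D :=
    mul_nonneg (Nat.cast_nonneg _) (pow_nonneg (by linarith) _)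
  rw [Measure.real, hEE, vol_periodize _ hA
    (fun x hx x' hx' ⟨w, hw⟩ => inj_A B Ψ hu p hd hsmall hble hx hx' w hw),
    vol_A B Ψ hu p hρ hd hble hbm hbv, ENNReal.toReal_ofReal hnn]

end Vale.Agent.P110F
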