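import Mathlib
import Vale.Agent.Lib.P110F.Defs

/-! P110F, L2b: the sets `EE` are open or closed. -/

namespace Vale.Agent.P110F

open MeasureTheory Filter Topology
open scoped ComplexConjugate ENNReal Pointwise

private theorem L2b_act_eq {O : Type} [CommRing O] {D : ℕ} (B : Module.Basis (Fin D) ℤ O) (a : O)
    (v : Fin D → ℝ) :
    act B a v = ((Algebra.leftMulMatrix B a).map (Int.castRingHom ℝ)).mulVec v := by
  funext i
  unfold act Matrix.mulVec dotProduct
  rfl

private theorem L2b_act_mul {O : Type} [CommRing O] {D : ℕ} (B : Module.Basis (Fin D) ℤ O)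
    (a a' : O) (v : Fin D → ℝ) : act B (a * a') v = act B a (act B a' v) := by
  rw [L2b_act_eq, L2b_act_eq, L2b_act_eq, map_mul, Matrix.map_mul, Matrix.mulVec_mulVec]

private theorem L2b_act_one {O : Type} [CommRing O] {D : ℕ} (B : Module.Basis (Fin D) ℤ O)
    (v : Fin D → ℝ) : act B 1 v = v := by
  rw [L2b_act_eq, map_one, Matrix.map_one _ (map_zero _) (map_one _), Matrix.one_mulVec]

private theorem L2b_cont {O : Type} [CommRing O] {D : ℕ} (B : Module.Basis (Fin D) ℤ O) (a : O) :
    Continuous (act B a) := by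
  refine continuous_pi fun i => ?_
  unfold act
  fun_prop

theorem isOpen_EE {O : Type} [CommRing O] {D : ℕ} (B : Module.Basis (Fin D) ℤ O)
    (Ψ : Finset O) (hu : ∀ a ∈ Ψ, IsUnit a) (p : Fin D → ℝ) (ρ : ℝ) :
    IsOpen (EE B Ψ p ρ false) := by
  have h : EE B Ψ p ρ false = ⋃ a ∈ {a : O | a ∈ Ψ}, ⋃ w : Fin D → ℤ,
      {x | ∃ y : Fin D → ℝ, (∀ i, |y i - p i| < ρ) ∧ ∀ i, x i = act B a y i + w i} := by
    ext x
    simp only [EE, Bool.false_eq_true, if_false, Set.mem_iUnion, Set.mem_setOf_eq, exists_prop]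
    constructor
    · rintro ⟨a, ha, y, hy, w, hw⟩
      exact ⟨a, ha, w, y, hy, hw⟩
    · rintro ⟨a, ha, w, y, hy, hw⟩
      exact ⟨a, ha, y, hy, w, hw⟩
  rw [h]
  refine isOpen_biUnion fun a ha => isOpen_iUnion fun w => ?_
  obtain ⟨b, hb⟩ := (hu a ha).exists_left_inv
  have h2 : {x : Fin D → ℝ | ∃ y : Fin D → ℝ, (∀ i, |y i - p i| < ρ) ∧
      ∀ i, x i = act B a y i + w i} =
      ⋂ i : Fin D, {x | |act B b (fun j => x j - w j) i - p i| < ρ} := by
    ext x
    simp only [Set.mem_setOf_eq, Set.mem_iInter]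
    constructor
    · rintro ⟨y, hy, hx⟩ i
      have h3 : (fun j => x j - w j) = act B a y := by
        funext j
        rw [hx j]
        ring
      rw [h3, ← L2b_act_mul, hb, L2b_act_one]
      exact hy i
    · intro hx
      refine ⟨act B b (fun j => x j - w j), hx, fun i => ?_⟩
      rw [← L2b_act_mul, mul_comm a b, hb, L2b_act_one]
      ring
  rw [h2]
  refine isOpen_iInter_of_finite fun i => isOpen_lt ?_ continuous_const
  refine ((continuous_apply i).comp ((L2b_cont B b).comp ?_)).sub continuous_const |>.abs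
  fun_prop

theorem isClosed_EE {O : Type} [CommRing O] {D : ℕ} (B : Module.Basis (Fin D) ℤ O)
    (Ψ : Finset O) (p : Fin D → ℝ) (ρ : ℝ) :
    IsClosed (EE B Ψ p ρ true) := by
  have h : EE B Ψ p ρ true = ⋃ a ∈ (Ψ : Set O),
      (act B a '' Set.pi Set.univ (fun i => Metric.closedBall (p i) ρ) +
        Set.pi Set.univ (fun _ : Fin D => Set.range (Int.cast : ℤ → ℝ))) := by
    ext x
    simp only [EE, if_true, Set.mem_iUnion, Set.mem_setOf_eq, exists_prop, Finset.mem_coe]
    constructor
    · rintro ⟨a, ha, y, hy, w, hw⟩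
      refine ⟨a, ha, Set.mem_add.2 ⟨act B a y, ⟨y, ?_, rfl⟩, fun i => (w i : ℝ), ?_, ?_⟩⟩
      · intro i _
        rw [Metric.mem_closedBall, Real.dist_eq]
        exact hy i
      · intro i _
        exact ⟨w i, rfl⟩
      · funext i
        rw [hw i]
        rfl
    · rintro ⟨a, ha, hx⟩
      obtain ⟨z, ⟨y, hy, rfl⟩, v, hv, rfl⟩ := Set.mem_add.1 hx
      choose w hw using fun i => hv i (Set.mem_univ i)
      refine ⟨a, ha, y, fun i => ?_, w, fun i => ?_⟩
      · have := hy i (Set.mem_univ i)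
        rw [Metric.mem_closedBall, Real.dist_eq] at this
        exact this
      · rw [hw i]
        rfl
  rw [h]
  refine Ψ.finite_toSet.isClosed_biUnion fun a _ => ?_
  refine IsClosed.add_left_of_isCompact ?_ ?_
  · exact isClosed_set_pi fun i _ => Int.isClosedEmbedding_coe_real.isClosed_range
  · exact (isCompact_univ_pi fun i => isCompact_closedBall (p i) ρ).image (L2b_cont B a)

end Vale.Agent.P110F
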