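import Mathlib
import Vale.Agent.Lib.P110F.Defs

/-!
P110F, L3: the first hit of a sequence of independent uniform points.
-/

namespace Vale.Agent.P110F

open MeasureTheory Filter Topology
open scoped ComplexConjugate ENNReal

private lemma L3_vol (D : ℕ) : volume (hcube D) = 1 := by
  unfold hcube
  rw [volume_pi_pi]
  simp

private lemma L3_meas (D : ℕ) : MeasurableSet (hcube D) :=
  MeasurableSet.univ_pi fun _ => measurableSet_Ico

private lemma L3_prod {J : ℕ} (j : Fin J) (a b : ℝ) :
    ∏ i : Fin J, (if i = j then a else if i < j then b else 1) = a * b ^ (j : ℕ) := by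
  have h1 : ∀ i : Fin J, (if i = j then a else if i < j then b else 1) =
      (if i = j then a else 1) * (if i < j then b else 1) := by
    intro i
    by_cases h : i = j
    · subst h
      simp
    · simp [h]
  rw [Finset.prod_congr rfl fun i _ => h1 i, Finset.prod_mul_distrib, Finset.prod_ite_eq',
    if_pos (Finset.mem_univ j), Finset.prod_ite, Finset.prod_const, Finset.prod_const_one, mul_one]
  congr 2
  have h2 : (Finset.univ.filter fun i : Fin J => i < j) = Finset.Iio j := by
    ext i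
    simp
  rw [h2, Fin.card_Iio]

theorem volume_first_hit {D : ℕ} (E₁ E₂ : Set (Fin D → ℝ)) (h₁ : MeasurableSet E₁)
    (h₂ : MeasurableSet E₂) (h0 : 0 < volume.real (E₂ ∩ hcube D)) (h12 : E₁ ⊆ E₂)
    {ε : ℝ} (hε : 0 < ε) :
    ∃ J : ℕ, volume.real (E₁ ∩ hcube D) / volume.real (E₂ ∩ hcube D) - ε ≤
      volume.real ({z : Fin J → Fin D → ℝ | ∃ j, z j ∈ E₁ ∧ ∀ j' < j, z j' ∉ E₂} ∩
        hcube2 J D) := by
  have hQ : volume (hcube D) = 1 := L3_vol D
  have hQm : MeasurableSet (hcube D) := L3_meas D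
  have hQr : volume.real (hcube D) = 1 := by
    rw [measureReal_def, hQ, ENNReal.toReal_one]
  have hQf : volume (hcube D) ≠ ⊤ := by
    rw [hQ]
    exact ENNReal.one_ne_top
  obtain ⟨e1, he1⟩ : ∃ e : ℝ, e = volume.real (E₁ ∩ hcube D) := ⟨_, rfl⟩
  obtain ⟨e2, he2⟩ : ∃ e : ℝ, e = volume.real (E₂ ∩ hcube D) := ⟨_, rfl⟩
  rw [← he2] at h0
  rw [← he1, ← he2]
  have h10 : 0 ≤ e1 := by
    rw [he1]
    exact measureReal_nonneg
  have h12' : e1 ≤ e2 := by
    rw [he1, he2]
    exact measureReal_mono (Set.inter_subset_inter_left _ h12)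
      (ne_top_of_le_ne_top hQf (measure_mono Set.inter_subset_right))
  have h21 : e2 ≤ 1 := by
    rw [he2, ← hQr]
    exact measureReal_mono Set.inter_subset_right hQf
  have hdiff : volume.real (hcube D \ E₂) = 1 - e2 := by
    have h := measureReal_sdiff_add_inter (μ := volume) (s := hcube D) (t := E₂) h₂ hQf
    rw [Set.inter_comm, ← he2, hQr] at h
    linarith
  -- choice of J
  have hlim : Tendsto (fun J : ℕ => (1 - e2) ^ J) atTop (𝓝 0) :=
    tendsto_pow_atTop_nhds_zero_of_lt_one (by linarith) (by linarith)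
  obtain ⟨J, hJ⟩ := (hlim.eventually (gt_mem_nhds hε)).exists
  refine ⟨J, ?_⟩
  obtain ⟨A, hA⟩ : ∃ A : Fin J → Set (Fin J → Fin D → ℝ), A = fun j => Set.pi Set.univ fun i =>
      if i = j then E₁ ∩ hcube D else if i < j then hcube D \ E₂ else hcube D := ⟨_, rfl⟩
  have hAm : ∀ j, MeasurableSet (A j) := by
    intro j
    rw [hA]
    refine MeasurableSet.univ_pi fun i => ?_
    split_ifs
    · exact h₁.inter hQm
    · exact hQm.diff h₂
    · exact hQm
  have hAv : ∀ j : Fin J, volume.real (A j) = e1 * (1 - e2) ^ (j : ℕ) := by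
    intro j
    rw [hA, measureReal_def, volume_pi_pi, ENNReal.toReal_prod, ← L3_prod j e1 (1 - e2)]
    refine Finset.prod_congr rfl fun i _ => ?_
    split_ifs
    · exact he1.symm
    · exact hdiff
    · exact hQr
  have hAd : Pairwise (Function.onFun Disjoint A) := by
    have key : ∀ j j' : Fin J, j < j' → Disjoint (A j) (A j') := by
      intro j j' hjj
      rw [Set.disjoint_left]
      intro z hz hz'
      rw [hA] at hz hz'
      have h3 := hz j (Set.mem_univ _)
      have h4 := hz' j (Set.mem_univ _)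
      simp only [if_true] at h3
      beta_reduce at h4
      rw [if_neg hjj.ne, if_pos hjj] at h4
      exact h4.2 (h12 h3.1)
    intro j j' hne
    rcases lt_or_gt_of_ne hne with h | h
    · exact key j j' h
    · exact (key j' j h).symm
  have hsub : (⋃ j, A j) ⊆ {z : Fin J → Fin D → ℝ | ∃ j, z j ∈ E₁ ∧ ∀ j' < j, z j' ∉ E₂} ∩
      hcube2 J D := by
    intro z hz
    rw [Set.mem_iUnion] at hz
    obtain ⟨j, hj⟩ := hz
    rw [hA] at hj
    refine ⟨⟨j, ?_, fun j' hj' => ?_⟩, ?_⟩
    · have h3 := hj j (Set.mem_univ _)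
      simp only [if_true] at h3
      exact h3.1
    · have h3 := hj j' (Set.mem_univ _)
      beta_reduce at h3
      rw [if_neg hj'.ne, if_pos hj'] at h3
      exact h3.2
    · intro i _
      have h3 := hj i (Set.mem_univ _)
      beta_reduce at h3
      have h5 : z i ∈ hcube D := by
        split_ifs at h3
        · exact h3.2
        · exact h3.1
        · exact h3
      exact h5
  have hfin : volume ({z : Fin J → Fin D → ℝ | ∃ j, z j ∈ E₁ ∧ ∀ j' < j, z j' ∉ E₂} ∩
      hcube2 J D) ≠ ⊤ := by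
    refine ne_top_of_le_ne_top ?_ (measure_mono Set.inter_subset_right)
    have h6 : hcube2 J D = Set.pi Set.univ fun _ : Fin J => hcube D := rfl
    rw [h6, volume_pi_pi]
    simp [hQ]
  refine le_trans ?_ (measureReal_mono hsub hfin)
  have hsum : volume.real (⋃ j, A j) = ∑ j : Fin J, e1 * (1 - e2) ^ (j : ℕ) := by
    rw [measureReal_def, measure_iUnion hAd hAm, tsum_fintype, ENNReal.toReal_sum]
    · exact Finset.sum_congr rfl fun j _ => hAv j
    · intro j _
      exact ne_top_of_le_ne_top hfin (measure_mono ((Set.subset_iUnion A j).trans hsub))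
  rw [hsum, Fin.sum_univ_eq_sum_range (fun j => e1 * (1 - e2) ^ j) J, ← Finset.mul_sum]
  have hgeom := geom_sum_mul (1 - e2) J
  have h7 : ∑ i ∈ Finset.range J, (1 - e2) ^ i = (1 - (1 - e2) ^ J) / e2 := by
    rw [eq_div_iff h0.ne']
    linarith
  rw [h7]
  have h8 : e1 * ((1 - (1 - e2) ^ J) / e2) = e1 / e2 - e1 / e2 * (1 - e2) ^ J := by
    ring
  rw [h8]
  have h9 : e1 / e2 ≤ 1 := (div_le_one h0).2 h12'
  have h10' : 0 ≤ (1 - e2) ^ J := pow_nonneg (by linarith) _
  have h11 : e1 / e2 * (1 - e2) ^ J ≤ 1 * (1 - e2) ^ J := mul_le_mul_of_nonneg_right h9 h10'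
  linarith

end Vale.Agent.P110F
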