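import Mathlib
import Vale.Agent.Lib.P110F.Defs
import Vale.Agent.Lib.P110F.L1
import Vale.Agent.Lib.P110F.L2
import Vale.Agent.Lib.P110F.L2b
import Vale.Agent.Lib.P110F.L3

/-! P110F: the label construction (open periodic set with labels). -/

namespace Vale.Agent.P110F

open MeasureTheory Filter Topology
open scoped ComplexConjugate ENNReal

private lemma L4_act_add {O : Type} [CommRing O] {D : ℕ} (B : Module.Basis (Fin D) ℤ O) (a : O)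
    (v w : Fin D → ℝ) : act B a (v + w) = act B a v + act B a w := by
  funext i
  simp only [act, Pi.add_apply, mul_add, Finset.sum_add_distrib]

private lemma L4_act_smul {O : Type} [CommRing O] {D : ℕ} (B : Module.Basis (Fin D) ℤ O) (a : O)
    (c : ℝ) (v : Fin D → ℝ) : act B a (c • v) = c • act B a v := by
  funext i
  simp only [act, Pi.smul_apply, smul_eq_mul, Finset.mul_sum]
  exact Finset.sum_congr rfl fun j _ => by ring

private lemma L4_act_one {O : Type} [CommRing O] {D : ℕ} (B : Module.Basis (Fin D) ℤ O)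
    (v : Fin D → ℝ) : act B (1 : O) v = v := by
  funext i
  simp [act, Matrix.one_apply]

private lemma L4_act_sgn {O : Type} [CommRing O] {D : ℕ} (B : Module.Basis (Fin D) ℤ O) (a : O)
    (s : ℤ) (hs : s = 1 ∨ s = -1) (v : Fin D → ℝ) :
    act B ((s : O) * a) v = (s : ℝ) • act B a v := by
  rcases hs with rfl | rfl
  · simp
  · funext i
    simp [act]

/-- congruence modulo integer vectors -/
private def L4_Cg {D : ℕ} (x y : Fin D → ℝ) : Prop := ∃ w : Fin D → ℤ, ∀ i, x i - y i = w i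

private lemma L4_Cg_symm {D : ℕ} {x y : Fin D → ℝ} (h : L4_Cg x y) : L4_Cg y x := by
  obtain ⟨w, hw⟩ := h
  refine ⟨fun i => -w i, fun i => ?_⟩
  have := hw i
  push_cast
  linarith

private lemma L4_Cg_trans {D : ℕ} {x y z : Fin D → ℝ} (h : L4_Cg x y) (h' : L4_Cg y z) :
    L4_Cg x z := by
  obtain ⟨w, hw⟩ := h
  obtain ⟨w', hw'⟩ := h'
  refine ⟨fun i => w i + w' i, fun i => ?_⟩
  have := hw i
  have := hw' i
  push_cast
  linarith

private lemma L4_Cg_act {O : Type} [CommRing O] {D : ℕ} (B : Module.Basis (Fin D) ℤ O) (a : O)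
    {x y : Fin D → ℝ} (h : L4_Cg x y) : L4_Cg (act B a x) (act B a y) := by
  obtain ⟨w, hw⟩ := h
  obtain ⟨w', hw'⟩ := act_int B a w
  refine ⟨w', fun i => ?_⟩
  have h1 : x = y + fun j => (w j : ℝ) := by
    funext j
    have := hw j
    simp only [Pi.add_apply]
    linarith
  rw [h1, L4_act_add, Pi.add_apply, hw' i]
  ring

private lemma L4_Cg_smul {D : ℕ} (s : ℤ) {x y : Fin D → ℝ} (h : L4_Cg x y) :
    L4_Cg ((s : ℝ) • x) ((s : ℝ) • y) := by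
  obtain ⟨w, hw⟩ := h
  refine ⟨fun i => s * w i, fun i => ?_⟩
  have := hw i
  simp only [Pi.smul_apply, smul_eq_mul]
  push_cast
  rw [← this]
  ring

private lemma L4_Cg_of_eq {D : ℕ} {x y : Fin D → ℝ} (h : x = y) : L4_Cg x y :=
  ⟨fun _ => 0, fun i => by simp [h]⟩

private lemma L4_pigeon {γ : Type} [Fintype γ] [DecidableEq γ] (r : ℕ) (hr : 0 < r)
    (lam : γ → ZMod r) (K : ℕ) :
    ∃ c : ZMod r, K ^ Fintype.card γ ≤ r *
      (Finset.univ.filter fun a : γ → Fin K => ∑ g, lam g * ((a g : ℕ) : ZMod r) = c).card := by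
  have : NeZero r := ⟨hr.ne'⟩
  by_contra hcon
  push Not at hcon
  have h1 : (Finset.univ : Finset (γ → Fin K)).card = ∑ c : ZMod r,
      (Finset.univ.filter fun a : γ → Fin K => ∑ g, lam g * ((a g : ℕ) : ZMod r) = c).card :=
    Finset.card_eq_sum_card_fiberwise fun a _ => Finset.mem_coe.2 (Finset.mem_univ _)
  have h2 : (Finset.univ : Finset (γ → Fin K)).card = K ^ Fintype.card γ := by
    rw [Finset.card_univ, Fintype.card_fun, Fintype.card_fin]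
  have h3 : ∑ c : ZMod r, r *
      (Finset.univ.filter fun a : γ → Fin K => ∑ g, lam g * ((a g : ℕ) : ZMod r) = c).card <
      ∑ _c : ZMod r, K ^ Fintype.card γ :=
    Finset.sum_lt_sum_of_nonempty Finset.univ_nonempty fun c _ => hcon c
  rw [← Finset.mul_sum, ← h1, h2, Finset.sum_const, Finset.card_univ, ZMod.card,
    smul_eq_mul] at h3
  exact lt_irrefl _ h3

private lemma L4_prod_one {O : Type} [CommRing O] {γ : Type} [Fintype γ] [DecidableEq γ]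
    (ξ : γ → O) (α : γ → ℕ) (g : γ) :
    ∏ h, ξ h ^ (α h + if h = g then 1 else 0) = ξ g * ∏ h, ξ h ^ α h := by
  simp only [pow_add, Finset.prod_mul_distrib, pow_ite, pow_one, pow_zero]
  rw [Finset.prod_ite_eq' Finset.univ g, if_pos (Finset.mem_univ _), mul_comm]

private lemma L4_prod_compl {O : Type} [CommRing O] {γ : Type} [Fintype γ] [DecidableEq γ]
    (ξ : γ → O) (g : γ) :
    ξ g * ∏ h, ξ h ^ (if h = g then 0 else 1) = ∏ h, ξ h := by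
  rw [← L4_prod_one ξ (fun h => if h = g then 0 else 1) g]
  refine Finset.prod_congr rfl fun h _ => ?_
  split_ifs <;> simp

private lemma L4_key {O : Type} [CommRing O] {γ : Type} [Fintype γ] [DecidableEq γ]
    (ξ : γ → O) (K : ℕ) (ω : O) (hω : ω * ∏ g, ξ g = 1) (α : γ → ℕ) (hα : ∀ h, α h < K)
    (g g' : γ) (s : ℤ) :
    ∃ b : γ → ℕ, (∀ h, b h < K + 2) ∧
      ξ g' * ((s : O) * (ω * ∏ h, ξ h ^ b h)) = (s : O) * (ξ g * ∏ h, ξ h ^ α h) := by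
  refine ⟨fun h => (α h + if h = g then 1 else 0) + if h = g' then 0 else 1, ?_, ?_⟩
  · intro h
    have := hα h
    simp only
    split_ifs <;> omega
  · have h1 : ∏ h, ξ h ^ ((α h + if h = g then 1 else 0) + if h = g' then 0 else 1) =
        (∏ h, ξ h ^ (α h + if h = g then 1 else 0)) * ∏ h, ξ h ^ (if h = g' then 0 else 1) := by
      rw [← Finset.prod_mul_distrib]
      exact Finset.prod_congr rfl fun h _ => by rw [← pow_add]
    rw [h1, L4_prod_one]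
    calc ξ g' * ((s : O) * (ω * (ξ g * (∏ h, ξ h ^ α h) *
          ∏ h, ξ h ^ (if h = g' then 0 else 1)))) =
        (s : O) * (ξ g * ∏ h, ξ h ^ α h) *
          (ω * (ξ g' * ∏ h, ξ h ^ (if h = g' then 0 else 1))) := by ring
      _ = (s : O) * (ξ g * ∏ h, ξ h ^ α h) := by rw [L4_prod_compl, hω, mul_one]

private lemma L4_injOn {O : Type} [CommRing O] {γ : Type} [Fintype γ] [DecidableEq γ]
    (ξ : γ → O) (r : ℕ) (lam : γ → ZMod r) (K : ℕ) (c : ZMod r)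
    (hinj : ∀ (a a' : γ → ℕ) (s : ℤ), (∀ g, a g ≤ K + 2) → (∀ g, a' g ≤ K + 2) →
      (s = 1 ∨ s = -1) → ∏ g, ξ g ^ a g = s * ∏ g, ξ g ^ a' g → a = a' ∧ s = 1) :
    Set.InjOn (fun a : γ → Fin K => ∏ g, ξ g ^ (a g : ℕ))
      ((Finset.univ.filter fun a : γ → Fin K =>
        ∑ g, lam g * ((a g : ℕ) : ZMod r) = c : Finset (γ → Fin K)) : Set (γ → Fin K)) := by
  intro a _ a' _ h
  have h0 : ∏ g, ξ g ^ (a g : ℕ) = ∏ g, ξ g ^ (a' g : ℕ) := h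
  have hlt : ∀ (b : γ → Fin K) (g : γ), (b g : ℕ) ≤ K + 2 := fun b g => by
    have := (b g).isLt
    omega
  have h1 := hinj (fun g => (a g : ℕ)) (fun g => (a' g : ℕ)) 1 (hlt a) (hlt a')
    (Or.inl rfl) (by rw [Int.cast_one, one_mul]; exact h0)
  funext g
  exact Fin.ext (congrFun h1.1 g)

private lemma L4_sets {O : Type} [CommRing O] {γ : Type} [Fintype γ] [DecidableEq γ]
    (ξ : γ → O) (hu : ∀ g, IsUnit (ξ g)) (r : ℕ) (hr : 0 < r) (lam : γ → ZMod r) (K : ℕ)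
    (hinj : ∀ (a a' : γ → ℕ) (s : ℤ), (∀ g, a g ≤ K + 2) → (∀ g, a' g ≤ K + 2) →
      (s = 1 ∨ s = -1) → ∏ g, ξ g ^ a g = s * ∏ g, ξ g ^ a' g → a = a' ∧ s = 1) :
    ∃ (ω : O) (c : ZMod r) (Ψ₁ Ψ₂ : Finset O), ω * ∏ g, ξ g = 1 ∧
      (∀ a ∈ Ψ₁, ∃ α : γ → ℕ, (∀ h, α h < K) ∧ ∑ h, lam h * ((α h : ℕ) : ZMod r) = c ∧
        a = ∏ h, ξ h ^ α h) ∧
      (∀ (s : ℤ) (b : γ → ℕ), (s = 1 ∨ s = -1) → (∀ g, b g < K + 2) →
        (s : O) * (ω * ∏ g, ξ g ^ b g) ∈ Ψ₂) ∧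
      (∀ a ∈ Ψ₂, IsUnit a) ∧ Ψ₁ ⊆ Ψ₂ ∧ K ^ Fintype.card γ ≤ r * Ψ₁.card ∧
      Ψ₂.card ≤ (K + 2) ^ Fintype.card γ * 2 := by
  classical
  have hP : IsUnit (∏ g, ξ g) :=
    Finset.prod_induction ξ IsUnit (fun a b => IsUnit.mul) isUnit_one fun g _ => hu g
  obtain ⟨ω, hω⟩ := hP.exists_left_inv
  have hωu : IsUnit ω := IsUnit.of_mul_eq_one _ hω
  have hpu : ∀ b : γ → ℕ, IsUnit (∏ g, ξ g ^ b g) := fun b =>
    Finset.prod_induction _ IsUnit (fun a b => IsUnit.mul) isUnit_one fun g _ => (hu g).pow _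
  obtain ⟨c, hc⟩ := L4_pigeon r hr lam K
  have hmem2 : ∀ (s : ℤ) (b : γ → ℕ), (s = 1 ∨ s = -1) → (∀ g, b g < K + 2) →
      (s : O) * (ω * ∏ g, ξ g ^ b g) ∈ (Finset.univ : Finset ((γ → Fin (K + 2)) × Bool)).image
        fun b => (((if b.2 then 1 else -1 : ℤ) : ℤ) : O) * (ω * ∏ g, ξ g ^ (b.1 g : ℕ)) := by
    intro s b hs hb
    rw [Finset.mem_image]
    refine ⟨(fun g => ⟨b g, hb g⟩, decide (s = 1)), Finset.mem_univ _, ?_⟩
    rcases hs with rfl | rfl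
    · simp
    · simp
  refine ⟨ω, c, (Finset.univ.filter fun a : γ → Fin K =>
      ∑ g, lam g * ((a g : ℕ) : ZMod r) = c).image fun a => ∏ g, ξ g ^ (a g : ℕ),
    (Finset.univ : Finset ((γ → Fin (K + 2)) × Bool)).image
      fun b => (((if b.2 then 1 else -1 : ℤ) : ℤ) : O) * (ω * ∏ g, ξ g ^ (b.1 g : ℕ)),
    hω, ?_, hmem2, ?_, ?_, ?_, ?_⟩
  · intro a ha
    rw [Finset.mem_image] at ha
    obtain ⟨α, hα, rfl⟩ := ha
    exact ⟨fun h => (α h : ℕ), fun h => (α h).isLt, (Finset.mem_filter.1 hα).2, rfl⟩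
  · intro a ha
    rw [Finset.mem_image] at ha
    obtain ⟨b, _, rfl⟩ := ha
    refine IsUnit.mul ?_ (hωu.mul (hpu _))
    rcases b.2 with _ | _
    · simp
    · simp
  · intro a ha
    rw [Finset.mem_image] at ha
    obtain ⟨b, _, rfl⟩ := ha
    have h1 := hmem2 1 (fun g => (b g : ℕ) + 1) (Or.inl rfl) fun g => by
      have := (b g).isLt
      omega
    have h2 : ((1 : ℤ) : O) * (ω * ∏ g, ξ g ^ ((b g : ℕ) + 1)) = ∏ g, ξ g ^ (b g : ℕ) := by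
      simp only [pow_succ, Finset.prod_mul_distrib]
      calc ((1 : ℤ) : O) * (ω * ((∏ g, ξ g ^ (b g : ℕ)) * ∏ g, ξ g)) =
          (∏ g, ξ g ^ (b g : ℕ)) * (ω * ∏ g, ξ g) := by push_cast; ring
        _ = _ := by rw [hω, mul_one]
    rw [h2] at h1
    exact h1
  · rw [Finset.card_image_of_injOn (L4_injOn ξ r lam K c hinj)]
    exact hc
  · refine Finset.card_image_le.trans ?_
    rw [Finset.card_univ, Fintype.card_prod, Fintype.card_fun, Fintype.card_fin, Fintype.card_bool]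

private lemma L4_hit {O : Type} [CommRing O] {D : ℕ} (B : Module.Basis (Fin D) ℤ O)
    {γ : Type} [Fintype γ] [DecidableEq γ] (ξ : γ → O) (hu : ∀ g, IsUnit (ξ g)) (K : ℕ)
    (ω : O) (hω : ω * ∏ g, ξ g = 1) (Ψ₁ Ψ₂ : Finset O)
    (hΨ₁ : ∀ a ∈ Ψ₁, ∃ α : γ → ℕ, (∀ h, α h < K) ∧ a = ∏ h, ξ h ^ α h)
    (hmem2 : ∀ (s : ℤ) (b : γ → ℕ), (s = 1 ∨ s = -1) → (∀ g, b g < K + 2) →
        (s : O) * (ω * ∏ g, ξ g ^ b g) ∈ Ψ₂) (p : Fin D → ℝ) (ρ : ℝ)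
    (g g' : γ) (x x' : Fin D → ℝ) (s : ℤ) (hs : s = 1 ∨ s = -1)
    (hx : x ∈ EE B Ψ₁ p ρ false) (hxx : L4_Cg (act B (ξ g) x) ((s : ℝ) • act B (ξ g') x')) :
    x' ∈ EE B Ψ₂ p ρ true := by
  obtain ⟨a, ha, y, hy, w, hw⟩ := hx
  obtain ⟨α, hα, rfl⟩ := hΨ₁ a ha
  have hcx : L4_Cg x (act B (∏ h, ξ h ^ α h) y) := ⟨w, fun i => by rw [hw i]; ring⟩
  obtain ⟨η, hη⟩ := (hu g').exists_left_inv
  obtain ⟨b, hbK, he⟩ := L4_key ξ K ω hω α hα g g' s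
  have hs2 : (s : ℝ) * s = 1 := by rcases hs with rfl | rfl <;> norm_num
  have h1 : L4_Cg (act B (ξ g') x') ((s : ℝ) • act B (ξ g) x) := by
    have := L4_Cg_smul s (L4_Cg_symm hxx)
    rw [smul_smul, hs2, one_smul] at this
    exact this
  have h2 : L4_Cg ((s : ℝ) • act B (ξ g) x)
      (act B (ξ g') (act B ((s : O) * (ω * ∏ h, ξ h ^ b h)) y)) := by
    have := L4_Cg_smul s (L4_Cg_act B (ξ g) hcx)
    rw [← act_mul, ← L4_act_sgn B (ξ g * ∏ h, ξ h ^ α h) s hs, ← he, act_mul] at this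
    exact this
  have h3 := L4_Cg_act B η (L4_Cg_trans h1 h2)
  rw [← act_mul, ← act_mul B η (ξ g'), hη, L4_act_one, L4_act_one] at h3
  obtain ⟨w', hw'⟩ := h3
  refine ⟨_, hmem2 s b hs hbK, y, fun i => ?_, w', fun i => ?_⟩
  · have := hy i
    rw [if_pos rfl]
    rw [if_neg Bool.false_ne_true] at this
    exact this.le
  · have := hw' i
    linarith

private lemma L4_same {O : Type} [CommRing O] {D : ℕ} (B : Module.Basis (Fin D) ℤ O)
    {γ : Type} [Fintype γ] [DecidableEq γ] (ξ : γ → O) (K r : ℕ) (lam : γ → ZMod r)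
    (c : ZMod r) (ω : O) (hωu : IsUnit ω) (Ψ₁ Ψ₂ : Finset O)
    (hinj : ∀ (a a' : γ → ℕ) (s : ℤ), (∀ g, a g ≤ K + 2) → (∀ g, a' g ≤ K + 2) →
      (s = 1 ∨ s = -1) → ∏ g, ξ g ^ a g = s * ∏ g, ξ g ^ a' g → a = a' ∧ s = 1)
    (hΨ₁ : ∀ a ∈ Ψ₁, ∃ α : γ → ℕ, (∀ h, α h < K) ∧ ∑ h, lam h * ((α h : ℕ) : ZMod r) = c ∧
        a = ∏ h, ξ h ^ α h)
    (hmem2 : ∀ (s : ℤ) (b : γ → ℕ), (s = 1 ∨ s = -1) → (∀ g, b g < K + 2) →
        (s : O) * (ω * ∏ g, ξ g ^ b g) ∈ Ψ₂) (p : Fin D → ℝ) (ρ : ℝ)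
    (hd : ∀ a ∈ Ψ₂, ∀ a' ∈ Ψ₂, ∀ x x' : Fin D → ℝ,
      (∀ i, |x i - p i| ≤ ρ) → (∀ i, |x' i - p i| ≤ ρ) →
      (∃ w : Fin D → ℤ, ∀ i, act B a x i - act B a' x' i = w i) → a = a')
    (g g' : γ) (x x' : Fin D → ℝ) (s : ℤ) (hs : s = 1 ∨ s = -1)
    (hx : x ∈ EE B Ψ₁ p ρ false) (hx' : x' ∈ EE B Ψ₁ p ρ false)
    (hxx : L4_Cg (act B (ξ g) x) ((s : ℝ) • act B (ξ g') x')) :
    s = 1 ∧ lam g = lam g' := by
  obtain ⟨a, ha, y, hy, w1, hw1⟩ := hx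
  obtain ⟨a', ha', y', hy', w2, hw2⟩ := hx'
  obtain ⟨α, hα, hA, rfl⟩ := hΨ₁ a ha
  obtain ⟨α', hα', hA', rfl⟩ := hΨ₁ a' ha'
  have hc1 : L4_Cg x (act B (∏ h, ξ h ^ α h) y) := ⟨w1, fun i => by rw [hw1 i]; ring⟩
  have hc2 : L4_Cg x' (act B (∏ h, ξ h ^ α' h) y') := ⟨w2, fun i => by rw [hw2 i]; ring⟩
  have e1 := L4_Cg_act B (ξ g) hc1
  have e2 := L4_Cg_smul s (L4_Cg_act B (ξ g') hc2)
  rw [← act_mul] at e1 e2
  rw [← L4_act_sgn B (ξ g' * ∏ h, ξ h ^ α' h) s hs] at e2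
  have e3 := L4_Cg_act B ω (L4_Cg_trans (L4_Cg_symm e1) (L4_Cg_trans hxx e2))
  rw [← act_mul, ← act_mul] at e3
  have m1 := hmem2 1 (fun h => α h + if h = g then 1 else 0) (Or.inl rfl) fun h => by
    have := hα h
    split_ifs <;> omega
  have m2 := hmem2 s (fun h => α' h + if h = g' then 1 else 0) hs fun h => by
    have := hα' h
    split_ifs <;> omega
  rw [L4_prod_one] at m1 m2
  rw [show ((1 : ℤ) : O) * (ω * (ξ g * ∏ h, ξ h ^ α h)) =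
    ω * (ξ g * ∏ h, ξ h ^ α h) by push_cast; ring] at m1
  rw [show (s : O) * (ω * (ξ g' * ∏ h, ξ h ^ α' h)) =
    ω * ((s : O) * (ξ g' * ∏ h, ξ h ^ α' h)) by ring] at m2
  have hy1 : ∀ i, |y i - p i| ≤ ρ := fun i => by
    have := hy i
    rw [if_neg Bool.false_ne_true] at this
    exact this.le
  have hy2 : ∀ i, |y' i - p i| ≤ ρ := fun i => by
    have := hy' i
    rw [if_neg Bool.false_ne_true] at this
    exact this.le
  have e4 := hd _ m1 _ m2 y y' hy1 hy2 e3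
  have e5 : ξ g * ∏ h, ξ h ^ α h = (s : O) * (ξ g' * ∏ h, ξ h ^ α' h) :=
    hωu.mul_left_cancel e4
  have e6 := hinj (fun h => α h + if h = g then 1 else 0)
    (fun h => α' h + if h = g' then 1 else 0) s
    (fun h => by
      have := hα h
      split_ifs <;> omega)
    (fun h => by
      have := hα' h
      split_ifs <;> omega) hs (by rw [L4_prod_one, L4_prod_one]; exact e5)
  refine ⟨e6.2, ?_⟩
  have hsum : ∀ (β : γ → ℕ) (g₀ : γ),
      ∑ h, lam h * ((β h + if h = g₀ then 1 else 0 : ℕ) : ZMod r) =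
      ∑ h, lam h * ((β h : ℕ) : ZMod r) + lam g₀ := by
    intro β g₀
    push_cast
    simp only [mul_add, Finset.sum_add_distrib]
    congr 1
    simp
  have e7 : ∑ h, lam h * ((α h + if h = g then 1 else 0 : ℕ) : ZMod r) =
      ∑ h, lam h * ((α' h + if h = g' then 1 else 0 : ℕ) : ZMod r) :=
    Finset.sum_congr rfl fun h _ => by
      have := congrFun e6.1 h
      beta_reduce at this
      rw [this]
  rw [hsum, hsum, hA, hA'] at e7
  exact add_left_cancel e7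

private lemma L4_open {J D : ℕ} (E₁ E₂ : Set (Fin D → ℝ)) (h₁ : IsOpen E₁) (h₂ : IsClosed E₂) :
    IsOpen {z : Fin J → Fin D → ℝ | ∃ j, z j ∈ E₁ ∧ ∀ j' < j, z j' ∉ E₂} := by
  have h1 : {z : Fin J → Fin D → ℝ | ∃ j, z j ∈ E₁ ∧ ∀ j' < j, z j' ∉ E₂} = ⋃ j : Fin J,
      ((fun z : Fin J → Fin D → ℝ => z j) ⁻¹' E₁ ∩
        ⋂ j' : Fin J, ⋂ _ : j' < j, (fun z : Fin J → Fin D → ℝ => z j') ⁻¹' E₂ᶜ) := by
    ext z
    simp
  rw [h1]
  refine isOpen_iUnion fun j => (h₁.preimage (continuous_apply j)).inter ?_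
  refine isOpen_iInter_of_finite fun j' => isOpen_iInter_of_finite fun _ => ?_
  exact h₂.isOpen_compl.preimage (continuous_apply j')

private lemma L4_per {O : Type} [CommRing O] {D : ℕ} (B : Module.Basis (Fin D) ℤ O)
    (Ψ : Finset O) (p : Fin D → ℝ) (ρ : ℝ) (cl : Bool) (x : Fin D → ℝ) (w : Fin D → ℤ)
    (hx : x ∈ EE B Ψ p ρ cl) : (fun i => x i + w i) ∈ EE B Ψ p ρ cl := by
  obtain ⟨a, ha, y, hy, w', hw'⟩ := hx
  refine ⟨a, ha, y, hy, fun i => w' i + w i, fun i => ?_⟩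
  have := hw' i
  push_cast
  linarith

theorem exists_label_set {O : Type} [CommRing O] {D : ℕ} (B : Module.Basis (Fin D) ℤ O)
    (γ : Type) [Fintype γ] [DecidableEq γ] (ξ : γ → O) (hu : ∀ g, IsUnit (ξ g))
    (r : ℕ) (hr : 0 < r) (lam : γ → ZMod r) (hlam : ∃ g, lam g = 1) (K : ℕ) (hK : 0 < K)
    (hrK : r ∣ K)
    (hinj : ∀ (a a' : γ → ℕ) (s : ℤ), (∀ g, a g ≤ K + 2) → (∀ g, a' g ≤ K + 2) →
      (s = 1 ∨ s = -1) → ∏ g, ξ g ^ a g = s * ∏ g, ξ g ^ a' g → a = a' ∧ s = 1)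
    {ε : ℝ} (hε : 0 < ε) :
    ∃ (J : ℕ) (U : Set (Fin J → Fin D → ℝ)), IsOpen U ∧
      (∀ z ∈ U, ∀ w : Fin J → Fin D → ℤ, (fun j i => z j i + w j i) ∈ U) ∧
      (((K : ℝ) / (K + 2)) ^ Fintype.card γ - ε) / (2 * r) ≤ volume.real (U ∩ hcube2 J D) ∧
      ∀ (g g' : γ) (z z' : Fin J → Fin D → ℝ) (s : ℤ), z ∈ U → z' ∈ U → (s = 1 ∨ s = -1) →
        (∃ w : Fin J → Fin D → ℤ, ∀ j i, act B (ξ g) (z j) i - s * act B (ξ g') (z' j) i = w j i) →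
        s = 1 ∧ lam g = lam g' := by
  obtain ⟨ω, c, Ψ₁, Ψ₂, hω, hΨ₁, hmem2, hunit2, hsub, hcard1, hcard2⟩ :=
    L4_sets ξ hu r hr lam K hinj
  have hωu : IsUnit ω := IsUnit.of_mul_eq_one _ hω
  have hpos2 : 0 < Ψ₂.card := by
    refine Finset.card_pos.2 ⟨_, hmem2 1 (fun _ => 0) (Or.inl rfl) fun g => by omega⟩
  obtain ⟨p, ρ, hρ, hρ4, hd⟩ := exists_tiny_box B Ψ₂
  have hv1 := volume_EE B Ψ₁ (fun a ha => hunit2 a (hsub ha)) p hρ
    (fun a ha a' ha' => hd a (hsub ha) a' (hsub ha')) hρ4 false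
  have hv2 := volume_EE B Ψ₂ hunit2 p hρ hd hρ4 true
  have ho1 : IsOpen (EE B Ψ₁ p ρ false) := isOpen_EE B Ψ₁ (fun a ha => hunit2 a (hsub ha)) p ρ
  have hc2 : IsClosed (EE B Ψ₂ p ρ true) := isClosed_EE B Ψ₂ p ρ
  have h12 : EE B Ψ₁ p ρ false ⊆ EE B Ψ₂ p ρ true := by
    rintro x ⟨a, ha, y, hy, w, hw⟩
    refine ⟨a, hsub ha, y, fun i => ?_, w, hw⟩
    have := hy i
    rw [if_pos rfl]
    rw [if_neg Bool.false_ne_true] at this
    exact this.le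
  have hvpos : 0 < (2 * ρ) ^ D := by positivity
  have hr' : (0 : ℝ) < r := Nat.cast_pos.2 hr
  obtain ⟨J, hJ⟩ := volume_first_hit (EE B Ψ₁ p ρ false) (EE B Ψ₂ p ρ true) ho1.measurableSet
    hc2.measurableSet (by
      rw [hv2]
      exact mul_pos (Nat.cast_pos.2 hpos2) hvpos) h12 (ε := ε / (2 * r)) (by positivity)
  refine ⟨J, {z : Fin J → Fin D → ℝ | ∃ j, z j ∈ EE B Ψ₁ p ρ false ∧
    ∀ j' < j, z j' ∉ EE B Ψ₂ p ρ true}, L4_open _ _ ho1 hc2, ?_, ?_, ?_⟩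
  · rintro z ⟨j, hj, hj'⟩ w
    refine ⟨j, L4_per B Ψ₁ p ρ false (z j) (w j) hj, fun j' hlt hcon => hj' j' hlt ?_⟩
    have h1 := L4_per B Ψ₂ p ρ true _ (fun i => -w j' i) hcon
    have h2 : (fun i => z j' i + (w j' i : ℝ) + ((-w j' i : ℤ) : ℝ)) = z j' := by
      funext i
      push_cast
      ring
    rw [← h2]
    exact h1
  · refine le_trans ?_ hJ
    rw [hv1, hv2, mul_div_mul_right _ _ hvpos.ne', sub_div]
    refine sub_le_sub_right ?_ _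
    have h1 : (Ψ₂.card : ℝ) ≤ ((K : ℝ) + 2) ^ Fintype.card γ * 2 := by
      exact_mod_cast hcard2
    have h2 : (K : ℝ) ^ Fintype.card γ ≤ r * (Ψ₁.card : ℝ) := by
      exact_mod_cast hcard1
    have h3 : (0 : ℝ) < Ψ₂.card := Nat.cast_pos.2 hpos2
    have h4 : (0 : ℝ) < ((K : ℝ) + 2) ^ Fintype.card γ := by positivity
    rw [div_pow, div_div, div_le_div_iff₀ (by positivity) h3]
    calc (K : ℝ) ^ Fintype.card γ * Ψ₂.card ≤
        (r * (Ψ₁.card : ℝ)) * (((K : ℝ) + 2) ^ Fintype.card γ * 2) :=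
          mul_le_mul h2 h1 h3.le (by positivity)
      _ = _ := by ring
  · rintro g g' z z' s ⟨j, hj, hj'⟩ ⟨j₂, hj₂, hj₂'⟩ hs ⟨w, hw⟩
    have hs2 : (s : ℝ) * s = 1 := by rcases hs with rfl | rfl <;> norm_num
    have hcg : ∀ j, L4_Cg (act B (ξ g) (z j)) ((s : ℝ) • act B (ξ g') (z' j)) := fun j =>
      ⟨w j, fun i => hw j i⟩
    have hcg' : ∀ j, L4_Cg (act B (ξ g') (z' j)) ((s : ℝ) • act B (ξ g) (z j)) := fun j => by
      have := L4_Cg_smul s (L4_Cg_symm (hcg j))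
      rw [smul_smul, hs2, one_smul] at this
      exact this
    have hΨ₁' : ∀ a ∈ Ψ₁, ∃ α : γ → ℕ, (∀ h, α h < K) ∧ a = ∏ h, ξ h ^ α h := fun a ha => by
      obtain ⟨α, h1, _, h3⟩ := hΨ₁ a ha
      exact ⟨α, h1, h3⟩
    rcases lt_trichotomy j j₂ with hlt | heq | hgt
    · exact absurd (L4_hit B ξ hu K ω hω Ψ₁ Ψ₂ hΨ₁' hmem2 p ρ g g' (z j) (z' j) s hs hj (hcg j))
        (hj₂' j hlt)
    · subst heq
      exact L4_same B ξ K r lam c ω hωu Ψ₁ Ψ₂ hinj hΨ₁ hmem2 p ρ hd g g' (z j) (z' j) s hs hj hj₂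
        (hcg j)
    · exact absurd (L4_hit B ξ hu K ω hω Ψ₁ Ψ₂ hΨ₁' hmem2 p ρ g' g (z' j₂) (z j₂) s hs hj₂
        (hcg' j₂)) (hj' j₂ hgt)

end Vale.Agent.P110F
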