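import Mathlib
import Vale.Agent.Lib.P110F.Defs

/-! P110F: separation by compactness. -/

namespace Vale.Agent.P110F

open MeasureTheory Filter Topology

open scoped ComplexConjugate ENNReal

private lemma cube_compact (n : ℕ) : IsCompact (cube n) :=
  isCompact_univ_pi fun _ => isCompact_Icc

private lemma cube_nonempty (n : ℕ) : (cube n).Nonempty :=
  ⟨fun _ => 0, fun _ _ => ⟨le_rfl, zero_le_one⟩⟩

theorem sep_of_forall {n : ℕ} (H H' : Matrix (Fin n) (Fin n) ℝ) (b b' : Fin n → ℝ)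
    (h : ∀ u ∈ cube n, ∀ u' ∈ cube n, ¬ ∃ z : Fin n → ℤ,
      ∀ i, (b i + ∑ j, H i j * u j) - (b' i + ∑ j, H' i j * u' j) = z i) :
    Sep H b H' b' := by
  set v : (Fin n → ℝ) × (Fin n → ℝ) → Fin n → ℝ := fun w i =>
    (b i + ∑ j, H i j * w.1 j) - (b' i + ∑ j, H' i j * w.2 j) with hv
  have hvc : ∀ i, Continuous fun w => v w i := by
    intro i
    simp only [hv]
    fun_prop
  set Φ : (Fin n → ℝ) × (Fin n → ℝ) → ℝ := fun w => ∑ i, ‖((v w i : ℝ) : UnitAddCircle)‖ with hΦ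
  have hΦc : Continuous Φ := by
    refine continuous_finsetSum _ fun i _ => ?_
    exact continuous_norm.comp ((AddCircle.continuous_mk' (1 : ℝ)).comp (hvc i))
  have hK : IsCompact (cube n ×ˢ cube n) := (cube_compact n).prod (cube_compact n)
  have hne : (cube n ×ˢ cube n).Nonempty := (cube_nonempty n).prod (cube_nonempty n)
  obtain ⟨w0, hw0, hmin⟩ := hK.exists_isMinOn hne hΦc.continuousOn
  have hpos : 0 < Φ w0 := by
    by_contra hcon
    have h0 : Φ w0 = 0 := le_antisymm (not_lt.1 hcon) (Finset.sum_nonneg fun i _ => norm_nonneg _)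
    have h1 := (Finset.sum_eq_zero_iff_of_nonneg (fun i _ => norm_nonneg _)).1 h0
    refine h w0.1 hw0.1 w0.2 hw0.2 ⟨fun i => round (v w0 i), fun i => ?_⟩
    have h2 := h1 i (Finset.mem_univ i)
    rw [UnitAddCircle.norm_eq, abs_eq_zero, sub_eq_zero] at h2
    exact h2
  have hn : 0 < n := by
    rcases Nat.eq_zero_or_pos n with h0 | h0
    · subst h0
      simp [hΦ] at hpos
    · exact h0
  have hnR : (0 : ℝ) < n := by exact_mod_cast hn
  refine ⟨Φ w0 / n, by positivity, fun u hu u' hu' => ?_⟩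
  have h3 : Φ w0 ≤ Φ (u, u') := hmin (Set.mk_mem_prod hu hu')
  obtain ⟨i, hi⟩ : ∃ i, Φ w0 / n ≤ ‖((v (u, u') i : ℝ) : UnitAddCircle)‖ := by
    by_contra hcon
    push Not at hcon
    have h4 : Φ (u, u') < ∑ _i : Fin n, Φ w0 / n :=
      Finset.sum_lt_sum_of_nonempty ⟨⟨0, hn⟩, Finset.mem_univ _⟩ fun i _ => hcon i
    rw [Finset.sum_const, Finset.card_univ, Fintype.card_fin, nsmul_eq_mul] at h4
    have h5 : (n : ℝ) * (Φ w0 / n) = Φ w0 := by field_simp
    linarith
  refine ⟨i, fun z => ?_⟩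
  rw [UnitAddCircle.norm_eq] at hi
  exact hi.trans (round_le (v (u, u') i) z)

end Vale.Agent.P110F
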