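import Mathlib
import Vale.Agent.Lib.P110F.Defs
import Vale.Agent.Lib.P110F.B1
import Vale.Agent.Lib.P110F.L4
import Vale.Agent.Lib.P110F.B3
import Vale.Agent.Lib.P110F.B4
import Vale.Agent.Lib.P110F.E1
import Vale.Agent.Lib.P110F.S1
import Vale.Agent.Lib.P110F.K0
import Vale.Agent.Lib.P110F.E0
import Vale.Agent.Lib.P110F.E0b

/-!
P110F: the system of cells.
-/

namespace Vale.Agent.P110F

open MeasureTheory Filter Topology
open scoped ComplexConjugate ENNReal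

/-- Coordinates of the cells. -/
abbrev NN (D J n₁ : ℕ) : Type := ((Fin D × Fin J) ⊕ (Fin D × Fin J)) ⊕ Fin n₁

/-- Position of a cell. -/
def tau {D J n₁ Q : ℕ} (z : Fin J → Fin D → ℤ) (w : Fin J → Fin D → Fin Q)
    (ρ : Fin n₁ → Fin Q) : NN D J n₁ → ℝ
  | Sum.inl (Sum.inl p) => (z p.2 p.1 : ℝ)
  | Sum.inl (Sum.inr p) => ((w p.2 p.1 : ℕ) : ℝ)
  | Sum.inr b => ((ρ b : ℕ) : ℝ)

/-- The matrix of one phase. -/
noncomputable def Hq {O : Type} [CommRing O] {k D J n₁ n : ℕ} (B : Module.Basis (Fin D) ℤ O)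
    (h : Fin n₁ → Fin k → ℤ) (eq : NN D J n₁ ≃ Fin n) (t : Fin k → O) (i : Fin k) :
    Matrix (Fin n) (Fin n) ℤ :=
  (blk (Matrix.blockDiagonal (fun _ : Fin J => Algebra.leftMulMatrix B (t i)))
    (fun b => h b i)).submatrix eq.symm eq.symm

theorem sum_Hq {O : Type} [CommRing O] {k D J n₁ n : ℕ} (B : Module.Basis (Fin D) ℤ O)
    (h : Fin n₁ → Fin k → ℤ) (eq : NN D J n₁ ≃ Fin n) (t : Fin k → O) (m : Fin k → ℤ) :
    ∑ i, m i • Hq B h eq t i =
      (blk (Matrix.blockDiagonal (fun _ : Fin J =>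
        Algebra.leftMulMatrix B (∑ i, (m i : O) * t i)))
        (fun b => ∑ i, m i * h b i)).submatrix eq.symm eq.symm := by
  rw [← bdiag_lin, ← blk_sum]
  ext a a'
  simp only [Matrix.sum_apply, Matrix.smul_apply, Matrix.submatrix_apply, Hq]

theorem Hq_isSymm {O : Type} [CommRing O] {k D J n₁ n : ℕ} (B : Module.Basis (Fin D) ℤ O)
    (h : Fin n₁ → Fin k → ℤ) (eq : NN D J n₁ ≃ Fin n) (t : Fin k → O) (i : Fin k) :
    (Hq B h eq t i).IsSymm := by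
  unfold Hq
  exact (blk_isSymm _ _).submatrix _

theorem det_sum_Hq {O : Type} [CommRing O] {k D J n₁ n : ℕ} (B : Module.Basis (Fin D) ℤ O)
    (h : Fin n₁ → Fin k → ℤ) (eq : NN D J n₁ ≃ Fin n) (t : Fin k → O) (m : Fin k → ℤ)
    (hu : IsUnit (∑ i, (m i : O) * t i)) :
    |(∑ i, m i • Hq B h eq t i).det| = ∏ b, |∑ i, m i * h b i| := by
  rw [sum_Hq, Matrix.det_submatrix_equiv_self, blk_det _ (bdiag_unit B _ hu)]

theorem piece_eq {k n : ℕ} (G : Fin k → Matrix (Fin n) (Fin n) ℤ) (m : Fin k → ℤ) (c : ℝ)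
    (tt u : Fin n → ℝ) (a : Fin n) :
    (∑ i, (m i : ℝ) * ∑ a', ((G i a a' : ℤ) : ℝ) * tt a') +
      ∑ a', scl c (∑ i, m i • G i) a a' * u a' =
    ∑ a', (((∑ i, m i • G i) a a' : ℤ) : ℝ) * (tt a' + c * u a') := by
  have h1 : ∀ a', (((∑ i, m i • G i) a a' : ℤ) : ℝ) = ∑ i, (m i : ℝ) * ((G i a a' : ℤ) : ℝ) := by
    intro a'
    rw [Matrix.sum_apply]
    push_cast
    refine Finset.sum_congr rfl fun i _ => ?_
    simp
  simp_rw [mul_add, Finset.sum_add_distrib]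
  congr 1
  · simp_rw [h1, Finset.mul_sum, Finset.sum_mul]
    rw [Finset.sum_comm]
    refine Finset.sum_congr rfl fun a' _ => Finset.sum_congr rfl fun i _ => ?_
    ring
  · refine Finset.sum_congr rfl fun a' _ => ?_
    simp only [scl]
    ring

/-- The label of a cell. -/
def qf {T : Type} {n₁ M Q : ℕ} (a : T → Fin n₁ → ℕ) (haM : ∀ m b, a m b < M)
    (ρ : Fin n₁ → Fin Q) : T → Fin n₁ → Fin M := fun μ b =>
  ⟨a μ b * (ρ b : ℕ) / Q, lt_of_le_of_lt (by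
    have h1 : a μ b * (ρ b : ℕ) ≤ a μ b * Q := Nat.mul_le_mul_left _ (ρ b).2.le
    exact (Nat.div_le_div_right h1).trans
      (Nat.div_le_of_le_mul (by rw [Nat.mul_comm]))) (haM μ b)⟩

theorem cube_row {D J n₁ n : ℕ} (eq : NN D J n₁ ≃ Fin n) {δ : ℝ} (hδ : 0 < δ)
    (hδ1 : δ < 1) (u : Fin n → ℝ) (hu : u ∈ cube n) (p : NN D J n₁) :
    0 < δ / 2 + (1 - δ) * u (eq p) ∧ δ / 2 + (1 - δ) * u (eq p) < 1 := by
  have h1 := hu (eq p) (Set.mem_univ _)
  rw [Set.mem_Icc] at h1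
  constructor
  · nlinarith [mul_nonneg (sub_nonneg.2 hδ1.le) h1.1]
  · nlinarith [mul_le_mul_of_nonneg_left h1.2 (sub_nonneg.2 hδ1.le)]

/-- Separation of the pieces. -/
theorem cells_sep0 {k n₁ J D M r Q n : ℕ} {O : Type} [CommRing O]
    (B : Module.Basis (Fin D) ℤ O) (Sp : Finset (Fin k → ℤ)) (h : Fin n₁ → Fin k → ℤ)
    (hne : ∀ m ∈ Sp, ∀ b, ∑ i, m i * h b i ≠ 0)
    (t : (Sp → Fin n₁ → Fin M) → Fin k → O)
    (hu : ∀ m ∈ Sp, ∀ q, IsUnit (∑ i, (m i : O) * t q i))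
    (U : Set (Fin J → Fin D → ℝ)) (lam : Sp × (Sp → Fin n₁ → Fin M) → ZMod r)
    (hlam : ∀ g g', lam g = lam g' →
      (∀ b, (g.2 g.1 b : ℕ) < (∑ i, g.1.1 i * h b i).natAbs) →
      (∀ b, (g'.2 g'.1 b : ℕ) < (∑ i, g'.1.1 i * h b i).natAbs) →
      g.1 = g'.1 ∧ g.2 g.1 = g'.2 g'.1)
    (hU : ∀ (g g' : Sp × (Sp → Fin n₁ → Fin M)) (z z' : Fin J → Fin D → ℝ) (s : ℤ),
      z ∈ U → z' ∈ U → (s = 1 ∨ s = -1) →
      (∃ w : Fin J → Fin D → ℤ, ∀ j i, act B (∑ i, (g.1.1 i : O) * t g.2 i) (z j) i -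
        s * act B (∑ i, (g'.1.1 i : O) * t g'.2 i) (z' j) i = w j i) → s = 1 ∧ lam g = lam g')
    (hQ : 0 < Q) (eq : NN D J n₁ ≃ Fin n) {δ : ℝ} (hδ : 0 < δ) (hδ1 : δ < 1)
    (haM : ∀ (m : Sp) b, (∑ i, m.1 i * h b i).natAbs < M)
    (hdv : ∀ (m : Sp) b, (∑ i, m.1 i * h b i).natAbs ∣ Q)
    (z z' : Fin J → Fin D → ℤ) (w w' : Fin J → Fin D → Fin Q) (ρ ρ' : Fin n₁ → Fin Q)
    (hz : ∀ j i, 0 ≤ z j i ∧ z j i < Q) (hz' : ∀ j i, 0 ≤ z' j i ∧ z' j i < Q)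
    (hzU : ∀ u : Fin J → Fin D → ℝ, (∀ j i, 0 ≤ u j i ∧ u j i ≤ 1) →
        (fun j i => ((z j i : ℝ) + u j i) / Q) ∈ U)
    (hzU' : ∀ u : Fin J → Fin D → ℝ, (∀ j i, 0 ≤ u j i ∧ u j i ≤ 1) →
        (fun j i => ((z' j i : ℝ) + u j i) / Q) ∈ U)
    (m m' : Sp) (s : ℤ) (hs : s = 1 ∨ s = -1)
    (hnot : ¬ ((z = z' ∧ w = w' ∧ ρ = ρ') ∧ m = m' ∧ s = 1)) :
    Sep (scl ((1 - δ) / Q) (∑ i, m.1 i • Hq B h eq
          (t (qf (fun (m : Sp) b => (∑ i, m.1 i * h b i).natAbs) haM ρ)) i))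
        (fun a => ∑ i, (m.1 i : ℝ) * ∑ a', ((Hq B h eq
          (t (qf (fun (m : Sp) b => (∑ i, m.1 i * h b i).natAbs) haM ρ)) i a a' : ℤ) : ℝ) *
            ((tau z w ρ (eq.symm a') + δ / 2) / Q))
        (scl ((1 - δ) / Q) (∑ i, (s * m'.1 i) • Hq B h eq
          (t (qf (fun (m : Sp) b => (∑ i, m.1 i * h b i).natAbs) haM ρ')) i))
        (fun a => ∑ i, ((s * m'.1 i : ℤ) : ℝ) * ∑ a', ((Hq B h eq
          (t (qf (fun (m : Sp) b => (∑ i, m.1 i * h b i).natAbs) haM ρ')) i a a' : ℤ) : ℝ) *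
            ((tau z' w' ρ' (eq.symm a') + δ / 2) / Q)) := by
  apply sep_of_forall
  rintro u huc u' huc' ⟨Z, hZ⟩
  apply hnot
  have hQ0 : (0 : ℝ) < Q := by exact_mod_cast hQ
  set q := qf (fun (m : Sp) b => (∑ i, m.1 i * h b i).natAbs) haM ρ with hqdef
  set q' := qf (fun (m : Sp) b => (∑ i, m.1 i * h b i).natAbs) haM ρ' with hqdef'
  let x : NN D J n₁ → ℝ := fun p => (tau z w ρ p + (δ / 2 + (1 - δ) * u (eq p))) / Q
  let x' : NN D J n₁ → ℝ := fun p => (tau z' w' ρ' p + (δ / 2 + (1 - δ) * u' (eq p))) / Q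
  have hx01 := fun p => cube_row eq hδ hδ1 u huc p
  have hx01' := fun p => cube_row eq hδ hδ1 u' huc' p
  -- the difference in coordinates
  have key : ∀ p : NN D J n₁, ∃ c : ℤ,
      ∑ p', ((blk (Matrix.blockDiagonal (fun _ : Fin J =>
          Algebra.leftMulMatrix B (∑ i, (m.1 i : O) * t q i)))
          (fun b => ∑ i, m.1 i * h b i) p p' : ℤ) : ℝ) * x p' -
      ∑ p', ((blk (Matrix.blockDiagonal (fun _ : Fin J =>
          Algebra.leftMulMatrix B (∑ i, ((s * m'.1 i : ℤ) : O) * t q' i)))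
          (fun b => ∑ i, (s * m'.1 i) * h b i) p p' : ℤ) : ℝ) * x' p' = c := by
    intro p
    refine ⟨Z (eq p), ?_⟩
    rw [← hZ (eq p), piece_eq, piece_eq, sum_Hq, sum_Hq]
    congr 1
    · rw [← Equiv.sum_comp eq]
      refine Finset.sum_congr rfl fun p' _ => ?_
      simp only [Matrix.submatrix_apply, Equiv.symm_apply_apply, x]
      ring
    · rw [← Equiv.sum_comp eq]
      refine Finset.sum_congr rfl fun p' _ => ?_
      simp only [Matrix.submatrix_apply, Equiv.symm_apply_apply, x']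
      ring
  have hlin : Algebra.leftMulMatrix B (∑ i, ((s * m'.1 i : ℤ) : O) * t q' i) =
      s • Algebra.leftMulMatrix B (∑ i, (m'.1 i : O) * t q' i) := by
    rw [← map_zsmul]
    congr 1
    rw [Finset.smul_sum]
    refine Finset.sum_congr rfl fun i _ => ?_
    push_cast
    rw [zsmul_eq_mul]
    ring
  have hsum : ∀ b, ∑ i, (s * m'.1 i) * h b i = s * ∑ i, m'.1 i * h b i := by
    intro b
    rw [Finset.mul_sum]
    exact Finset.sum_congr rfl fun i _ => by ring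
  have hres := core_disjoint B Sp h hne t hu U lam hlam hU q q' m m' s hs
    (fun j i => x (Sum.inl (Sum.inl (i, j)))) (fun j i => x' (Sum.inl (Sum.inl (i, j))))
    (fun j i => x (Sum.inl (Sum.inr (i, j)))) (fun j i => x' (Sum.inl (Sum.inr (i, j))))
    (fun b => x (Sum.inr b)) (fun b => x' (Sum.inr b)) ?_ ?_ ?_ ?_ ?_ ?_ ?_ ?_ ?_ ?_ ?_
  · obtain ⟨h1, h2, h3, h4, h5⟩ := hres
    refine ⟨⟨?_, ?_, ?_⟩, h2, h1⟩
    · funext j i
      have := congrFun (congrFun h3 j) i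
      simp only [x, x', tau] at this
      have hd := (div_left_inj' hQ0.ne').1 this
      have ha := hx01 (Sum.inl (Sum.inl (i, j)))
      have hb := hx01' (Sum.inl (Sum.inl (i, j)))
      have h6 : (z j i : ℝ) < z' j i + 1 := by linarith
      have h7 : (z' j i : ℝ) < z j i + 1 := by linarith
      have h6' : z j i < z' j i + 1 := by exact_mod_cast h6
      have h7' : z' j i < z j i + 1 := by exact_mod_cast h7
      omega
    · funext j i
      have := congrFun (congrFun h4 j) i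
      simp only [x, x', tau] at this
      have hd := (div_left_inj' hQ0.ne').1 this
      have ha := hx01 (Sum.inl (Sum.inr (i, j)))
      have hb := hx01' (Sum.inl (Sum.inr (i, j)))
      have h6 : ((w j i : ℕ) : ℝ) < ((w' j i : ℕ) : ℝ) + 1 := by linarith
      have h7 : ((w' j i : ℕ) : ℝ) < ((w j i : ℕ) : ℝ) + 1 := by linarith
      have h6' : (w j i : ℕ) < (w' j i : ℕ) + 1 := by exact_mod_cast h6
      have h7' : (w' j i : ℕ) < (w j i : ℕ) + 1 := by exact_mod_cast h7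
      apply Fin.ext
      omega
    · funext b
      have := congrFun h5 b
      simp only [x, x', tau] at this
      have hd := (div_left_inj' hQ0.ne').1 this
      have ha := hx01 (Sum.inr b)
      have hb := hx01' (Sum.inr b)
      have h6 : ((ρ b : ℕ) : ℝ) < ((ρ' b : ℕ) : ℝ) + 1 := by linarith
      have h7 : ((ρ' b : ℕ) : ℝ) < ((ρ b : ℕ) : ℝ) + 1 := by linarith
      have h6' : (ρ b : ℕ) < (ρ' b : ℕ) + 1 := by exact_mod_cast h6
      have h7' : (ρ' b : ℕ) < (ρ b : ℕ) + 1 := by exact_mod_cast h7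
      apply Fin.ext
      omega
  · refine ⟨hzU _ fun j i => ⟨(hx01 _).1.le, (hx01 _).2.le⟩, ?_⟩
    intro j _ i _
    have ha := hx01 (Sum.inl (Sum.inl (i, j)))
    have h1 : (0 : ℝ) ≤ z j i := by exact_mod_cast (hz j i).1
    have h2 : (z j i : ℝ) + 1 ≤ Q := by exact_mod_cast (hz j i).2
    refine ⟨div_nonneg ?_ hQ0.le, ?_⟩
    · show 0 ≤ (z j i : ℝ) + _
      linarith
    · rw [div_lt_one hQ0]
      show (z j i : ℝ) + _ < Q
      linarith
  · refine ⟨hzU' _ fun j i => ⟨(hx01' _).1.le, (hx01' _).2.le⟩, ?_⟩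
    intro j _ i _
    have ha := hx01' (Sum.inl (Sum.inl (i, j)))
    have h1 : (0 : ℝ) ≤ z' j i := by exact_mod_cast (hz' j i).1
    have h2 : (z' j i : ℝ) + 1 ≤ Q := by exact_mod_cast (hz' j i).2
    refine ⟨div_nonneg ?_ hQ0.le, ?_⟩
    · show 0 ≤ (z' j i : ℝ) + _
      linarith
    · rw [div_lt_one hQ0]
      show (z' j i : ℝ) + _ < Q
      linarith
  · intro j _ i _
    have ha := hx01 (Sum.inl (Sum.inr (i, j)))
    have h1 : (0 : ℝ) ≤ ((w j i : ℕ) : ℝ) := Nat.cast_nonneg _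
    have h2 : ((w j i : ℕ) : ℝ) + 1 ≤ Q := by exact_mod_cast (w j i).2
    refine ⟨div_nonneg ?_ hQ0.le, ?_⟩
    · show 0 ≤ ((w j i : ℕ) : ℝ) + _
      linarith
    · rw [div_lt_one hQ0]
      show ((w j i : ℕ) : ℝ) + _ < Q
      linarith
  · intro j _ i _
    have ha := hx01' (Sum.inl (Sum.inr (i, j)))
    have h1 : (0 : ℝ) ≤ ((w' j i : ℕ) : ℝ) := Nat.cast_nonneg _
    have h2 : ((w' j i : ℕ) : ℝ) + 1 ≤ Q := by exact_mod_cast (w' j i).2
    refine ⟨div_nonneg ?_ hQ0.le, ?_⟩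
    · show 0 ≤ ((w' j i : ℕ) : ℝ) + _
      linarith
    · rw [div_lt_one hQ0]
      show ((w' j i : ℕ) : ℝ) + _ < Q
      linarith
  · intro b _
    have ha := hx01 (Sum.inr b)
    have h1 : (0 : ℝ) ≤ ((ρ b : ℕ) : ℝ) := Nat.cast_nonneg _
    have h2 : ((ρ b : ℕ) : ℝ) + 1 ≤ Q := by exact_mod_cast (ρ b).2
    refine ⟨div_nonneg ?_ hQ0.le, ?_⟩
    · show 0 ≤ ((ρ b : ℕ) : ℝ) + _
      linarith
    · rw [div_lt_one hQ0]
      show ((ρ b : ℕ) : ℝ) + _ < Q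
      linarith
  · intro b _
    have ha := hx01' (Sum.inr b)
    have h1 : (0 : ℝ) ≤ ((ρ' b : ℕ) : ℝ) := Nat.cast_nonneg _
    have h2 : ((ρ' b : ℕ) : ℝ) + 1 ≤ Q := by exact_mod_cast (ρ' b).2
    refine ⟨div_nonneg ?_ hQ0.le, ?_⟩
    · show 0 ≤ ((ρ' b : ℕ) : ℝ) + _
      linarith
    · rw [div_lt_one hQ0]
      show ((ρ' b : ℕ) : ℝ) + _ < Q
      linarith
  · intro μ b
    exact floor_cell _ Q (ρ b) hQ (hdv μ b) _ (hx01 _).1 (hx01 _).2
      (Int.natAbs_pos.2 (hne μ.1 μ.2 b))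
  · intro μ b
    exact floor_cell _ Q (ρ' b) hQ (hdv μ b) _ (hx01' _).1 (hx01' _).2
      (Int.natAbs_pos.2 (hne μ.1 μ.2 b))
  · intro j i
    obtain ⟨c, hc⟩ := key (Sum.inl (Sum.inr (i, j)))
    refine ⟨c, ?_⟩
    rw [← hc, blk_row2, blk_row2, hlin]
    have e1' := bdiag_row (J := J) (Algebra.leftMulMatrix B (∑ i, (m.1 i : O) * t q i))
      (fun p => x (Sum.inl (Sum.inl p))) i j
    have e2' := bdiag_row (J := J) (s • Algebra.leftMulMatrix B (∑ i, (m'.1 i : O) * t q' i))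
      (fun p => x' (Sum.inl (Sum.inl p))) i j
    rw [e1', e2']
    congr 1
    unfold act
    rw [Finset.mul_sum]
    refine Finset.sum_congr rfl fun i' _ => ?_
    rw [Matrix.smul_apply]
    push_cast [smul_eq_mul]
    ring
  · intro b
    obtain ⟨c, hc⟩ := key (Sum.inr b)
    refine ⟨c, ?_⟩
    rw [← hc, blk_row3, blk_row3, hsum]
    push_cast
    ring
  · intro j i
    obtain ⟨c, hc⟩ := key (Sum.inl (Sum.inl (i, j)))
    refine ⟨c, ?_⟩
    rw [← hc, blk_row1, blk_row1, hlin]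
    have e1' := bdiag_col (J := J) (Algebra.leftMulMatrix B (∑ i, (m.1 i : O) * t q i))
      (fun p => x (Sum.inl (Sum.inr p))) i j
    have e2' := bdiag_col (J := J) (s • Algebra.leftMulMatrix B (∑ i, (m'.1 i : O) * t q' i))
      (fun p => x' (Sum.inl (Sum.inr p))) i j
    rw [e1', e2']
    congr 1
    rw [Finset.mul_sum]
    refine Finset.sum_congr rfl fun i' _ => ?_
    rw [Matrix.smul_apply]
    push_cast [smul_eq_mul]
    ring

end Vale.Agent.P110F
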