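import Mathlib
import Vale.Agent.Lib.P110F.Defs
import Vale.Agent.Lib.P110F.B1
import Vale.Agent.Lib.P110F.L4
import Vale.Agent.Lib.P110F.B3
import Vale.Agent.Lib.P110F.B4
import Vale.Agent.Lib.P110F.E1
import Vale.Agent.Lib.P110F.S1
import Vale.Agent.Lib.P110F.K0
import Vale.Agent.Lib.P110F.E0
import Vale.Agent.Lib.P110F.E0b
import Vale.Agent.Lib.P110F.Cells

/-!
P110F: existence of the system of cells.
-/

namespace Vale.Agent.P110F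

open MeasureTheory Filter Topology
open scoped ComplexConjugate ENNReal

/-- A multiple of `r` which makes `(K / (K + 2)) ^ g` close to one. -/
theorem exists_K (r g : ℕ) (hr : 0 < r) {s : ℝ} (hs : 0 < s) :
    ∃ K : ℕ, 0 < K ∧ r ∣ K ∧ 1 - s ≤ ((K : ℝ) / (K + 2)) ^ g := by
  have h1 : Tendsto (fun K' : ℕ => ((((r * (K' + 1) : ℕ) : ℝ) / (((r * (K' + 1) : ℕ) : ℝ) + 2)) ^ g))
      atTop (𝓝 1) := by
    have h2 : Tendsto (fun K' : ℕ => (((r * (K' + 1) : ℕ) : ℝ))) atTop atTop := by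
      apply tendsto_natCast_atTop_atTop.comp
      apply Filter.tendsto_atTop_mono (f := fun K' : ℕ => K')
      · intro n
        nlinarith
      · exact tendsto_id
    have h3 : Tendsto (fun x : ℝ => x / (x + 2)) atTop (𝓝 1) := by
      have h4 : Tendsto (fun x : ℝ => 1 - 2 / (x + 2)) atTop (𝓝 (1 - 0)) := by
        apply Tendsto.const_sub
        apply Tendsto.const_div_atTop
        exact tendsto_atTop_add_const_right _ _ tendsto_id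
      rw [sub_zero] at h4
      refine h4.congr' ?_
      filter_upwards [eventually_gt_atTop 0] with x hx
      field_simp
      ring
    have h5 := (h3.comp h2).pow g
    rw [one_pow] at h5
    exact h5
  obtain ⟨K', hK'⟩ := (h1.eventually (lt_mem_nhds (show 1 - s < 1 by linarith))).exists
  exact ⟨r * (K' + 1), by positivity, Dvd.intro _ rfl, hK'.le⟩

theorem exists_delta (n : ℕ) {s : ℝ} (hs : 0 < s) :
    ∃ δ : ℝ, 0 < δ ∧ δ < 1 ∧ 1 - s ≤ (1 - δ) ^ n := by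
  have h1 : Tendsto (fun δ : ℝ => (1 - δ) ^ n) (𝓝[>] 0) (𝓝 1) := by
    have h2 : Continuous fun δ : ℝ => (1 - δ) ^ n := by fun_prop
    have h3 := h2.tendsto 0
    simp only [sub_zero, one_pow] at h3
    exact h3.mono_left nhdsWithin_le_nhds
  have h4 := h1.eventually (lt_mem_nhds (show 1 - s < 1 by linarith))
  have h5 : ∀ᶠ δ : ℝ in 𝓝[>] 0, δ ∈ Set.Ioo (0 : ℝ) 1 := Ioo_mem_nhdsGT one_pos
  obtain ⟨δ, h6, h7⟩ := (h4.and h5).exists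
  exact ⟨δ, h7.1, h7.2, h6.le⟩

theorem rows_le {n : ℕ} (A : Matrix (Fin n) (Fin n) ℤ) {Rm Q δ : ℝ}
    (h : ∑ x, ∑ y, |((A x y : ℤ) : ℝ)| ≤ Rm) (hQ : 4 * Rm + 1 ≤ Q) (hδ : 0 < δ) (hδ1 : δ < 1)
    (x : Fin n) : ∑ y, |scl ((1 - δ) / Q) A x y| ≤ 1 / 4 := by
  have h0 : 0 ≤ ∑ y, |((A x y : ℤ) : ℝ)| := Finset.sum_nonneg fun _ _ => abs_nonneg _
  have h1 : ∑ y, |((A x y : ℤ) : ℝ)| ≤ Rm :=
    (Finset.single_le_sum (f := fun x => ∑ y, |((A x y : ℤ) : ℝ)|)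
      (fun _ _ => Finset.sum_nonneg fun _ _ => abs_nonneg _) (Finset.mem_univ x)).trans h
  have hQ0 : 0 < Q := by linarith
  have h2 : ∑ y, |scl ((1 - δ) / Q) A x y| = (1 - δ) / Q * ∑ y, |((A x y : ℤ) : ℝ)| := by
    rw [Finset.mul_sum]
    refine Finset.sum_congr rfl fun y _ => ?_
    rw [scl, abs_mul, abs_of_nonneg (div_nonneg (by linarith) hQ0.le)]
  rw [h2, div_mul_eq_mul_div, div_le_iff₀ hQ0]
  nlinarith

theorem cells_numeric {ε s θ δ : ℝ} {n r G Q JD n₁ : ℕ} (hε : 0 < ε)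
    (hθd : θ = (1 + ε / 2) / (1 + ε)) (hsd : s = (1 - θ) / 4) (hδ1 : δ < 1)
    (hδn : 1 - s ≤ (1 - δ) ^ n) (hn : n = 2 * JD + n₁) (hQ : 0 < Q) (hr : 0 < r)
    (hG1 : (1 - 3 * s) / (2 * r) * (Q : ℝ) ^ JD ≤ G) {v q V : ℝ} (hq0 : 0 ≤ q)
    (hV : 2 * V ≤ 1) (hwm : v * r ≤ (1 + ε / 2) * q * V) :
    v ≤ (1 + ε) * ((G * (Q ^ JD * Q ^ n₁) : ℕ) : ℝ) * ((1 - δ) / Q) ^ n * q := by
  have hr0 : (0 : ℝ) < r := by exact_mod_cast hr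
  have hQ0 : (0 : ℝ) < Q := by exact_mod_cast hQ
  have hθ0 : 0 < θ := by rw [hθd]; positivity
  have hθ : θ < 1 := by
    rw [hθd, div_lt_one (by linarith)]
    linarith
  have hs : 0 < s := by linarith
  have hs1 : s ≤ 1 / 4 := by linarith
  have hpow : ((G * (Q ^ JD * Q ^ n₁) : ℕ) : ℝ) * ((1 - δ) / Q) ^ n =
      (1 - δ) ^ n * (G / (Q : ℝ) ^ JD) := by
    rw [hn, div_pow]
    push_cast
    have : (Q : ℝ) ^ (2 * JD + n₁) = (Q : ℝ) ^ JD * ((Q : ℝ) ^ JD * (Q : ℝ) ^ n₁) := by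
      ring
    rw [this]
    have h3 : (Q : ℝ) ^ JD ≠ 0 := by positivity
    have h4 : (Q : ℝ) ^ n₁ ≠ 0 := by positivity
    field_simp
  have hGr : (1 - 3 * s) / (2 * r) ≤ G / (Q : ℝ) ^ JD := by
    rw [le_div_iff₀ (by positivity)]
    exact hG1
  have hlow : (1 - s) * ((1 - 3 * s) / (2 * r)) ≤ (1 - δ) ^ n * (G / (Q : ℝ) ^ JD) := by
    apply mul_le_mul hδn hGr
    · apply div_nonneg _ (by positivity)
      linarith
    · exact pow_nonneg (by linarith) _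
  have hθs : θ ≤ (1 - s) * (1 - 3 * s) := by
    have : 4 * s = 1 - θ := by rw [hsd]; ring
    nlinarith
  have hθe : θ * (1 + ε) = 1 + ε / 2 := by
    rw [hθd]
    field_simp
  have hfin : (1 + ε / 2) * q / (2 * r) ≤ (1 + ε) * ((1 - δ) ^ n * (G / (Q : ℝ) ^ JD)) * q := by
    calc (1 + ε / 2) * q / (2 * r) = (1 + ε) * (θ / (2 * r)) * q := by
          rw [← hθe]
          ring
      _ ≤ (1 + ε) * ((1 - s) * ((1 - 3 * s) / (2 * r))) * q := by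
          apply mul_le_mul_of_nonneg_right _ hq0
          apply mul_le_mul_of_nonneg_left _ (by linarith)
          rw [← mul_div_assoc]
          exact div_le_div_of_nonneg_right hθs (by positivity)
      _ ≤ _ := by
          apply mul_le_mul_of_nonneg_right _ hq0
          exact mul_le_mul_of_nonneg_left hlow (by linarith)
  calc v ≤ (1 + ε / 2) * q / (2 * r) := by
        rw [le_div_iff₀ (by positivity)]
        have h5 : (1 + ε / 2) * q * V ≤ (1 + ε / 2) * q * (1 / 2) := by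
          apply mul_le_mul_of_nonneg_left _ (by positivity)
          linarith
        nlinarith
    _ ≤ (1 + ε) * ((1 - δ) ^ n * (G / (Q : ℝ) ^ JD)) * q := hfin
    _ = _ := by
        rw [← hpow]
        ring

theorem card_iota {J D Q n₁ : ℕ} (G : Finset (Fin J → Fin D → ℤ)) :
    Fintype.card ({z // z ∈ G} × (Fin J → Fin D → Fin Q) × (Fin n₁ → Fin Q)) =
      G.card * (Q ^ (J * D) * Q ^ n₁) := by
  rw [Fintype.card_prod, Fintype.card_prod, Fintype.card_coe]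
  congr 2
  · rw [Fintype.card_fun, Fintype.card_fun, Fintype.card_fin, Fintype.card_fin,
      Fintype.card_fin, ← pow_mul, Nat.mul_comm]
  · rw [Fintype.card_fun, Fintype.card_fin, Fintype.card_fin]

/-- The conclusion of the construction, for a given dimension. -/
def CellConcl {k : ℕ} (Sp : Finset (Fin k → ℤ)) (v : (Fin k → ℤ) → ℝ) (ε : ℝ) (n C : ℕ) :
    Prop :=
  ∃ (c : ℝ) (ι : Type) (_ : Fintype ι) (_ : DecidableEq ι)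
    (H : ι → Fin k → Matrix (Fin n) (Fin n) ℤ) (β : ι → Fin k → Fin n → ℝ),
    0 < c ∧ C ≤ Fintype.card ι ∧
    (∀ j, ∀ i, (H j i).IsSymm) ∧
    (∀ j, ∀ m ∈ Sp, (∑ i, m i • H j i).det ≠ 0) ∧
    (∀ j, ∀ m ∈ Sp, ∀ a, ∑ a', |scl c (∑ i, m i • H j i) a a'| ≤ 1 / 4) ∧
    (∀ j, ∀ m ∈ Sp, v m ≤ (1 + ε) * Fintype.card ι * c ^ n * |((∑ i, m i • H j i).det : ℝ)|) ∧
    ∀ (j j' : ι) (m m' : Fin k → ℤ) (s : ℤ), m ∈ Sp → m' ∈ Sp → (s = 1 ∨ s = -1) →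
      ¬ (j = j' ∧ m = m' ∧ s = 1) →
      Sep (scl c (∑ i, m i • H j i)) (fun a => ∑ i, (m i : ℝ) * β j i a)
        (scl c (∑ i, (s * m' i) • H j' i)) (fun a => ∑ i, ((s * m' i : ℤ) : ℝ) * β j' i a)

/-- The cell system for given data. -/
theorem cells_of_data {k n₁ J D M r Q n : ℕ} {O : Type} [CommRing O]
    (B : Module.Basis (Fin D) ℤ O) (Sp : Finset (Fin k → ℤ)) (h : Fin n₁ → Fin k → ℤ)
    (hn₁ : 0 < n₁)
    (hne : ∀ m ∈ Sp, ∀ b, ∑ i, m i * h b i ≠ 0)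
    (t : (Sp → Fin n₁ → Fin M) → Fin k → O)
    (hu : ∀ m ∈ Sp, ∀ q, IsUnit (∑ i, (m i : O) * t q i))
    (U : Set (Fin J → Fin D → ℝ)) (lam : Sp × (Sp → Fin n₁ → Fin M) → ZMod r)
    (hlam : ∀ g g', lam g = lam g' →
      (∀ b, (g.2 g.1 b : ℕ) < (∑ i, g.1.1 i * h b i).natAbs) →
      (∀ b, (g'.2 g'.1 b : ℕ) < (∑ i, g'.1.1 i * h b i).natAbs) →
      g.1 = g'.1 ∧ g.2 g.1 = g'.2 g'.1)
    (hU : ∀ (g g' : Sp × (Sp → Fin n₁ → Fin M)) (z z' : Fin J → Fin D → ℝ) (s : ℤ),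
      z ∈ U → z' ∈ U → (s = 1 ∨ s = -1) →
      (∃ w : Fin J → Fin D → ℤ, ∀ j i, act B (∑ i, (g.1.1 i : O) * t g.2 i) (z j) i -
        s * act B (∑ i, (g'.1.1 i : O) * t g'.2 i) (z' j) i = w j i) → s = 1 ∧ lam g = lam g')
    (hr : 0 < r) (hQ : 0 < Q) (haM : ∀ (m : Sp) b, (∑ i, m.1 i * h b i).natAbs < M)
    (hdv : ∀ (m : Sp) b, (∑ i, m.1 i * h b i).natAbs ∣ Q)
    (eq : NN D J n₁ ≃ Fin n) (hn : n = 2 * (J * D) + n₁)
    {ε s θ δ : ℝ} (hε : 0 < ε) (hθd : θ = (1 + ε / 2) / (1 + ε)) (hsd : s = (1 - θ) / 4)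
    (hδ : 0 < δ) (hδ1 : δ < 1) (hδn : 1 - s ≤ (1 - δ) ^ n)
    (G : Finset (Fin J → Fin D → ℤ)) (hG0 : ∀ z ∈ G, ∀ j i, 0 ≤ z j i ∧ z j i < Q)
    (hGU : ∀ z ∈ G, ∀ u : Fin J → Fin D → ℝ, (∀ j i, 0 ≤ u j i ∧ u j i ≤ 1) →
        (fun j i => ((z j i : ℝ) + u j i) / Q) ∈ U)
    (hG1 : (1 - 3 * s) / (2 * r) * (Q : ℝ) ^ (J * D) ≤ G.card)
    {Rm : ℝ} (hRm : ∀ q : Sp → Fin n₁ → Fin M, ∀ m ∈ Sp, ∑ x, ∑ y,
      |(((∑ i, m i • Hq B h eq (t q) i) x y : ℤ) : ℝ)| ≤ Rm) (hQR : 4 * Rm + 1 ≤ Q)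
    (C₀ : ℕ) (hC : C₀ ≤ Q) (v : (Fin k → ℤ) → ℝ) (hsum : 2 * ∑ m ∈ Sp, v m ≤ 1)
    (hrr : (r : ℝ) = ∑ m' ∈ Sp, ∏ b, |((∑ i, m' i * h b i : ℤ) : ℝ)|)
    (hw : ∀ m ∈ Sp, v m * ∑ m' ∈ Sp, ∏ b, |((∑ i, m' i * h b i : ℤ) : ℝ)| ≤
        (1 + ε / 2) * (∏ b, |((∑ i, m i * h b i : ℤ) : ℝ)|) * ∑ m' ∈ Sp, v m') :
    CellConcl Sp v ε n C₀ := by
  classical
  have hQ0 : (0 : ℝ) < Q := by exact_mod_cast hQ
  have hr0 : (0 : ℝ) < r := by exact_mod_cast hr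
  have hθ0 : 0 < θ := by rw [hθd]; positivity
  have hGpos : 0 < G.card := by
    have h1 : (0 : ℝ) < (1 - 3 * s) / (2 * r) * (Q : ℝ) ^ (J * D) := by
      apply mul_pos _ (by positivity)
      apply div_pos _ (by positivity)
      linarith
    exact_mod_cast h1.trans_le hG1
  have hdet : ∀ (q : Sp → Fin n₁ → Fin M), ∀ m ∈ Sp,
      |(∑ i, m i • Hq B h eq (t q) i).det| = ∏ b, |∑ i, m i * h b i| :=
    fun q m hm => det_sum_Hq B h eq _ m (hu m hm _)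
  refine ⟨(1 - δ) / Q,
    {z // z ∈ G} × (Fin J → Fin D → Fin Q) × (Fin n₁ → Fin Q), inferInstance, inferInstance,
    fun j i => Hq B h eq (t (qf (fun (m : Sp) b => (∑ i, m.1 i * h b i).natAbs) haM j.2.2)) i,
    fun j i x => ∑ y, ((Hq B h eq
      (t (qf (fun (m : Sp) b => (∑ i, m.1 i * h b i).natAbs) haM j.2.2)) i x y : ℤ) : ℝ) *
      ((tau j.1.1 j.2.1 j.2.2 (eq.symm y) + δ / 2) / Q),
    ?_, ?_, ?_, ?_, ?_, ?_, ?_⟩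
  · exact div_pos (by linarith) hQ0
  · rw [card_iota]
    have h1 : 1 ≤ Q ^ (J * D) := Nat.one_le_pow _ _ hQ
    have h2 : Q ≤ Q ^ n₁ := by
      calc Q = Q ^ 1 := (pow_one Q).symm
        _ ≤ Q ^ n₁ := Nat.pow_le_pow_right hQ hn₁
    calc C₀ ≤ Q := hC
      _ ≤ Q ^ n₁ := h2
      _ = 1 * (1 * Q ^ n₁) := by ring
      _ ≤ G.card * (Q ^ (J * D) * Q ^ n₁) :=
        Nat.mul_le_mul hGpos (Nat.mul_le_mul h1 le_rfl)
  · exact fun j i => Hq_isSymm B h eq _ i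
  · intro j m hm h0
    have h1 := hdet (qf (fun (m : Sp) b => (∑ i, m.1 i * h b i).natAbs) haM j.2.2) m hm
    rw [h0, abs_zero] at h1
    have h2 : (0 : ℤ) < ∏ b, |∑ i, m i * h b i| :=
      Finset.prod_pos fun b _ => abs_pos.2 (hne m hm b)
    omega
  · intro j m hm x
    exact rows_le _ (hRm _ m hm) hQR hδ hδ1 x
  · intro j m hm
    have h1 : |((∑ i, m i • Hq B h eq
        (t (qf (fun (m : Sp) b => (∑ i, m.1 i * h b i).natAbs) haM j.2.2)) i).det : ℝ)| =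
        ∏ b, |((∑ i, m i * h b i : ℤ) : ℝ)| := by
      rw [← Int.cast_abs, hdet _ m hm, Int.cast_prod]
      exact Finset.prod_congr rfl fun b _ => Int.cast_abs
    rw [h1, card_iota]
    refine cells_numeric hε hθd hsd hδ1 hδn hn hQ hr hG1
      (Finset.prod_nonneg fun _ _ => abs_nonneg _) hsum ?_
    rw [hrr]
    exact hw m hm
  · intro j j' m m' s' hm hm' hs' hnot
    refine cells_sep0 B Sp h hne t hu U lam hlam hU hQ eq hδ hδ1 haM hdv j.1.1 j'.1.1 j.2.1 j'.2.1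
      j.2.2 j'.2.2 (hG0 _ j.1.2) (hG0 _ j'.1.2) (hGU _ j.1.2) (hGU _ j'.1.2) ⟨m, hm⟩ ⟨m', hm'⟩ s'
      hs' ?_
    rintro ⟨⟨h1, h2, h3⟩, h4, h5⟩
    apply hnot
    refine ⟨?_, ?_, h5⟩
    · exact Prod.ext (Subtype.ext h1) (Prod.ext h2 h3)
    · exact congrArg Subtype.val h4

theorem exists_common_multiple {α β : Type} [Fintype α] [Fintype β] (f : α → β → ℕ)
    (hf : ∀ m b, 0 < f m b) : ∃ A : ℕ, 0 < A ∧ ∀ m b, f m b ∣ A :=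
  ⟨∏ m, ∏ b, f m b, Finset.prod_pos fun m _ => Finset.prod_pos fun b _ => hf m b, fun m b =>
    (Finset.dvd_prod_of_mem (fun b => f m b) (Finset.mem_univ b)).trans
      (Finset.dvd_prod_of_mem (fun m => ∏ b, f m b) (Finset.mem_univ m))⟩

theorem exists_bd {κ α : Type} [Finite κ] (S : Finset α) (f : κ → α → ℝ) :
    ∃ R : ℝ, ∀ q, ∀ m ∈ S, f q m ≤ R := by
  obtain ⟨R, hR⟩ := (Set.finite_range (fun p : κ × S => f p.1 p.2)).bddAbove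
  exact ⟨R, fun q m hm => hR ⟨(q, ⟨m, hm⟩), rfl⟩⟩

/-- The choice of the grid. -/
theorem exists_grid {J D r n : ℕ} (U : Set (Fin J → Fin D → ℝ)) (hUo : IsOpen U) (hr : 0 < r)
    {s g : ℝ} (hs : 0 < s) (hg : 1 - s ≤ g)
    (hUv : (g - s) / (2 * r) ≤ volume.real (U ∩ hcube2 J D)) (A₀ : ℕ) (hA₀ : 0 < A₀) (Rm : ℝ)
    (C₀ : ℕ → ℕ) :
    ∃ Q : ℕ, 0 < Q ∧ A₀ ∣ Q ∧ C₀ n ≤ Q ∧ 4 * Rm + 1 ≤ Q ∧ ∃ G : Finset (Fin J → Fin D → ℤ),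
      (∀ z ∈ G, ∀ j i, 0 ≤ z j i ∧ z j i < Q) ∧
      (∀ z ∈ G, ∀ u : Fin J → Fin D → ℝ, (∀ j i, 0 ≤ u j i ∧ u j i ≤ 1) →
        (fun j i => ((z j i : ℝ) + u j i) / Q) ∈ U) ∧
      (1 - 3 * s) / (2 * r) * (Q : ℝ) ^ (J * D) ≤ G.card := by
  have hr0 : (0 : ℝ) < r := by exact_mod_cast hr
  have hQ1 := exists_inner_cubes J D U hUo (show 0 < s / (2 * r) by positivity)
  have hQ2 : ∀ᶠ Q : ℕ in atTop, 4 * Rm + 1 ≤ (Q : ℝ) :=
    (tendsto_natCast_atTop_atTop (R := ℝ)).eventually (eventually_ge_atTop (4 * Rm + 1))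
  have hQ3 : ∀ᶠ Q : ℕ in atTop, C₀ n + 1 ≤ Q := eventually_ge_atTop _
  obtain ⟨Q', hQ'⟩ := eventually_atTop.1 ((hQ1.and hQ2).and hQ3)
  obtain ⟨Q, hQd⟩ : ∃ Q : ℕ, Q = A₀ * Q' := ⟨_, rfl⟩
  have hQQ' : Q' ≤ Q := by
    rw [hQd]
    exact Nat.le_mul_of_pos_left _ hA₀
  have hAQ : A₀ ∣ Q := by
    rw [hQd]
    exact dvd_mul_right _ _
  obtain ⟨⟨⟨G, hG0, hGU, hGc⟩, hQR⟩, hQC⟩ := hQ' Q hQQ'
  have hvol : (1 - 2 * s) / (2 * r) ≤ volume.real (U ∩ hcube2 J D) := by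
    refine le_trans ?_ hUv
    apply div_le_div_of_nonneg_right _ (by positivity)
    linarith
  refine ⟨Q, by omega, hAQ, by omega, hQR, G, hG0, hGU, ?_⟩
  refine le_trans ?_ hGc
  apply mul_le_mul_of_nonneg_right _ (by positivity)
  have : (1 - 3 * s) / (2 * r) = (1 - 2 * s) / (2 * r) - s / (2 * r) := by ring
  rw [this]
  linarith

/-- The cell system from the weights and the labels. -/
theorem cells_of_weights {k n₁ M r : ℕ} (Sp : Finset (Fin k → ℤ)) (hS : ∀ m ∈ Sp, LNO m)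
    (h : Fin n₁ → Fin k → ℤ) (hn₁ : 0 < n₁) (hh : ∀ m ∈ Sp, ∀ b, ∑ i, m i * h b i ≠ 0)
    (lam : Sp × (Sp → Fin n₁ → Fin M) → ZMod r) (hlam1 : ∃ g, lam g = 1)
    (hlam : ∀ g g', lam g = lam g' →
      (∀ b, (g.2 g.1 b : ℕ) < (∑ i, g.1.1 i * h b i).natAbs) →
      (∀ b, (g'.2 g'.1 b : ℕ) < (∑ i, g'.1.1 i * h b i).natAbs) →
      g.1 = g'.1 ∧ g.2 g.1 = g'.2 g'.1)
    (hr : 0 < r) (haM : ∀ (m : Sp) b, (∑ i, m.1 i * h b i).natAbs < M)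
    {ε : ℝ} (hε : 0 < ε) (C₀ : ℕ → ℕ) (v : (Fin k → ℤ) → ℝ) (hsum : 2 * ∑ m ∈ Sp, v m ≤ 1)
    (hrr : (r : ℝ) = ∑ m' ∈ Sp, ∏ b, |((∑ i, m' i * h b i : ℤ) : ℝ)|)
    (hw : ∀ m ∈ Sp, v m * ∑ m' ∈ Sp, ∏ b, |((∑ i, m' i * h b i : ℤ) : ℝ)| ≤
        (1 + ε / 2) * (∏ b, |((∑ i, m i * h b i : ℤ) : ℝ)|) * ∑ m' ∈ Sp, v m') :
    ∃ n : ℕ, CellConcl Sp v ε n (C₀ n) := by
  classical
  obtain ⟨θ, hθd⟩ : ∃ θ : ℝ, θ = (1 + ε / 2) / (1 + ε) := ⟨_, rfl⟩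
  obtain ⟨s, hsd⟩ : ∃ s : ℝ, s = (1 - θ) / 4 := ⟨_, rfl⟩
  have hθ : θ < 1 := by
    rw [hθd, div_lt_one (by linarith)]
    linarith
  have hs : 0 < s := by linarith
  obtain ⟨K, hK, hrK, hKs⟩ := exists_K r (Fintype.card (Sp × (Sp → Fin n₁ → Fin M))) hr hs
  obtain ⟨O, instO, D, B, t, hu, hinj⟩ := exists_ring k Sp hS (Sp → Fin n₁ → Fin M) (K + 2)
  obtain ⟨J, U, hUo, hUp, hUv, hUd⟩ := exists_label_set B (Sp × (Sp → Fin n₁ → Fin M))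
    (fun g => ∑ i, (g.1.1 i : O) * t g.2 i) (fun g => hu g.1.1 g.1.2 g.2) r hr lam hlam1 K hK hrK
    hinj hs
  obtain ⟨n, ⟨eq⟩⟩ : ∃ n, Nonempty (NN D J n₁ ≃ Fin n) := ⟨_, ⟨Fintype.equivFin _⟩⟩
  have hn : n = 2 * (J * D) + n₁ := by
    have h1 := Fintype.card_congr eq
    simp only [NN, Fintype.card_sum, Fintype.card_prod, Fintype.card_fin] at h1
    rw [← h1]
    ring
  obtain ⟨δ, hδ, hδ1, hδn⟩ := exists_delta n hs
  have hr0 : (0 : ℝ) < r := by exact_mod_cast hr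
  obtain ⟨A₀, hA₀, hA₀d⟩ := exists_common_multiple
    (fun (m : Sp) (b : Fin n₁) => (∑ i, m.1 i * h b i).natAbs)
    (fun m b => Int.natAbs_pos.2 (hh m.1 m.2 b))
  obtain ⟨Rm, hRm⟩ := exists_bd Sp (fun (q : Sp → Fin n₁ → Fin M) (m : Fin k → ℤ) => ∑ x, ∑ y,
      |(((∑ i, m i • Hq B h eq (t q) i) x y : ℤ) : ℝ)|)
  obtain ⟨Q, hQpos, hAQ, hCQ, hQR, G, hG0, hGU, hG1⟩ := exists_grid (n := n) U hUo hr hs hKs hUv
    A₀ hA₀ Rm C₀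
  have hdv : ∀ (m : Sp) b, (∑ i, m.1 i * h b i).natAbs ∣ Q := fun m b => (hA₀d m b).trans hAQ
  refine ⟨n, ?_⟩
  refine @cells_of_data k n₁ J D M r Q n O instO B Sp h hn₁ hh t hu U lam hlam ?_ hr hQpos haM hdv
    eq hn ε s θ δ hε hθd hsd hδ hδ1 hδn G hG0 hGU hG1 Rm hRm hQR (C₀ n) hCQ v hsum hrr hw
  intro g g' z z' s' hz hz' hs' hw'
  exact hUd g g' z z' s' hz hz' hs' hw'

theorem exists_cells (k : ℕ) (Sp : Finset (Fin k → ℤ)) (hS : ∀ m ∈ Sp, LNO m)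
    (hne : Sp.Nonempty) (v : (Fin k → ℤ) → ℝ) (hv : ∀ m ∈ Sp, 0 < v m)
    (hsum : 2 * ∑ m ∈ Sp, v m ≤ 1) {ε : ℝ} (hε : 0 < ε) (C₀ : ℕ → ℕ) :
    ∃ (n : ℕ) (c : ℝ) (ι : Type) (_ : Fintype ι) (_ : DecidableEq ι)
      (H : ι → Fin k → Matrix (Fin n) (Fin n) ℤ) (β : ι → Fin k → Fin n → ℝ),
      0 < c ∧ C₀ n ≤ Fintype.card ι ∧
      (∀ j, ∀ i, (H j i).IsSymm) ∧
      (∀ j, ∀ m ∈ Sp, (∑ i, m i • H j i).det ≠ 0) ∧
      (∀ j, ∀ m ∈ Sp, ∀ a, ∑ a', |scl c (∑ i, m i • H j i) a a'| ≤ 1 / 4) ∧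
      (∀ j, ∀ m ∈ Sp, v m ≤ (1 + ε) * Fintype.card ι * c ^ n * |((∑ i, m i • H j i).det : ℝ)|) ∧
      ∀ (j j' : ι) (m m' : Fin k → ℤ) (s : ℤ), m ∈ Sp → m' ∈ Sp → (s = 1 ∨ s = -1) →
        ¬ (j = j' ∧ m = m' ∧ s = 1) →
        Sep (scl c (∑ i, m i • H j i)) (fun a => ∑ i, (m i : ℝ) * β j i a)
          (scl c (∑ i, (s * m' i) • H j' i)) (fun a => ∑ i, ((s * m' i : ℤ) : ℝ) * β j' i a) := by
  classical
  obtain ⟨n₁, h, hn₁, hh, hw⟩ := exists_weights k Sp hS hne v hv (half_pos hε)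
  have : Nonempty Sp := hne.to_subtype
  let a : Sp → Fin n₁ → ℕ := fun m b => (∑ i, m.1 i * h b i).natAbs
  have ha : ∀ m b, 0 < a m b := fun m b => Int.natAbs_pos.2 (hh m.1 m.2 b)
  let M : ℕ := 1 + ∑ m, ∑ b, a m b
  have haM : ∀ m b, a m b < M := by
    intro m b
    have h1 : a m b ≤ ∑ b, a m b := Finset.single_le_sum (f := fun b => a m b)
      (fun _ _ => Nat.zero_le _) (Finset.mem_univ b)
    have h2 : ∑ b, a m b ≤ ∑ m, ∑ b, a m b := Finset.single_le_sum (f := fun m => ∑ b, a m b)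
      (fun _ _ => Nat.zero_le _) (Finset.mem_univ m)
    show a m b < 1 + ∑ m, ∑ b, a m b
    omega
  obtain ⟨r, hrdef⟩ : ∃ r : ℕ, r = ∑ m, ∏ b, a m b := ⟨_, rfl⟩
  have hlamE := exists_lam a ha haM
  rw [← hrdef] at hlamE
  obtain ⟨lam, hlam1, hlam⟩ := hlamE
  have hr : 0 < r := by
    rw [hrdef]
    apply Finset.sum_pos
    · intro m _
      exact Finset.prod_pos fun b _ => ha m b
    · exact Finset.univ_nonempty
  have hrr : (r : ℝ) = ∑ m' ∈ Sp, ∏ b, |((∑ i, m' i * h b i : ℤ) : ℝ)| := by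
    rw [hrdef, ← Finset.sum_coe_sort Sp (fun m' => ∏ b, |((∑ i, m' i * h b i : ℤ) : ℝ)|)]
    push_cast
    refine Finset.sum_congr rfl fun m _ => Finset.prod_congr rfl fun b _ => ?_
    show (((∑ i, m.1 i * h b i).natAbs : ℕ) : ℝ) = _
    rw [Nat.cast_natAbs]
    push_cast
    rfl
  obtain ⟨n, h1⟩ := cells_of_weights Sp hS h hn₁ hh lam hlam1 hlam hr haM hε C₀ v hsum hrr hw
  exact ⟨n, h1⟩

end Vale.Agent.P110F
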