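import Mathlib
import Vale.Agent.Lib.P110F.Defs

/-! P110F, A1: expansion of the squared modulus of the quadratic exponential sum. -/

namespace Vale.Agent.P110F

open MeasureTheory Filter Topology
open scoped ComplexConjugate ENNReal

variable {n : ℕ}

private lemma SS_eq_box {L : ℕ} (H : Matrix (Fin n) (Fin n) ℝ) (b : Fin n → ℝ) (x : ℝ) :
    SS H b L x = ∑ v ∈ Fintype.piFinset (fun _ : Fin n => Finset.Ico (0 : ℤ) L),
      e1 (quad H (fun i => ((v i : ℤ) : ℝ)) / (2 * L) +
        ∑ i, (b i + kr n L x i) * ((v i : ℤ) : ℝ)) := by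
  unfold SS
  refine Finset.sum_bij (fun y _ i => (((y i : Fin L) : ℕ) : ℤ)) ?_ ?_ ?_ ?_
  · intro y _
    rw [Fintype.mem_piFinset]
    intro i
    rw [Finset.mem_Ico]
    have := (y i).2
    constructor <;> omega
  · intro a _ a' _ h
    funext i
    have := congrFun h i
    exact Fin.ext (by exact_mod_cast this)
  · intro v hv
    rw [Fintype.mem_piFinset] at hv
    have hv' : ∀ i, 0 ≤ v i ∧ v i < L := fun i => by
      have := hv i
      rwa [Finset.mem_Ico] at this
    refine ⟨fun i => ⟨(v i).toNat, by have := hv' i; omega⟩, Finset.mem_univ _, ?_⟩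
    funext i
    have := (hv' i).1
    simp only
    omega
  · intro y _
    simp only [Int.cast_natCast]

theorem normSq_SS {L : ℕ} (hL : 0 < L) (H : Matrix (Fin n) (Fin n) ℝ) (b : Fin n → ℝ) (x : ℝ) :
    ((‖SS H b L x‖ ^ 2 : ℝ) : ℂ) =
      ∑ d ∈ dbox n L, cc H b L d * e1 (∑ i, (d i : ℝ) * kr n L x i) := by
  have h2 : ((‖SS H b L x‖ ^ 2 : ℝ) : ℂ) = SS H b L x * conj (SS H b L x) := by
    rw [Complex.mul_conj, Complex.normSq_eq_norm_sq]
  rw [h2, SS_eq_box, map_sum, Finset.sum_mul_sum, ← Finset.sum_product']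
  unfold cc
  simp_rw [Finset.sum_mul]
  rw [Finset.sum_sigma']
  refine Finset.sum_bij' (fun p _ => (⟨p.1 - p.2, p.2⟩ : (_ : Fin n → ℤ) × (Fin n → ℤ)))
    (fun q _ => (q.2 + q.1, q.2)) ?_ ?_ ?_ ?_ ?_
  · rintro ⟨v, w⟩ hp
    rw [Finset.mem_product, Fintype.mem_piFinset, Fintype.mem_piFinset] at hp
    have hv : ∀ i, 0 ≤ v i ∧ v i < L := fun i => by
      have := hp.1 i
      rwa [Finset.mem_Ico] at this
    have hw : ∀ i, 0 ≤ w i ∧ w i < L := fun i => by
      have := hp.2 i
      rwa [Finset.mem_Ico] at this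
    rw [Finset.mem_sigma]
    unfold dbox bx
    rw [Fintype.mem_piFinset, Fintype.mem_piFinset]
    constructor
    · intro i
      have h1 := hv i
      have h3 := hw i
      simp only [Finset.mem_Ioo, Pi.sub_apply]
      omega
    · intro i
      have h1 := hv i
      have h3 := hw i
      simp only [Finset.mem_Ico, Pi.sub_apply]
      omega
  · rintro ⟨d, y⟩ hq
    rw [Finset.mem_sigma] at hq
    unfold dbox bx at hq
    rw [Fintype.mem_piFinset, Fintype.mem_piFinset] at hq
    rw [Finset.mem_product, Fintype.mem_piFinset, Fintype.mem_piFinset]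
    constructor
    · intro i
      have h1 := hq.1 i
      have h3 := hq.2 i
      simp only [Finset.mem_Ioo, Finset.mem_Ico, Pi.add_apply] at h1 h3 ⊢
      omega
    · intro i
      have h1 := hq.1 i
      have h3 := hq.2 i
      simp only [Finset.mem_Ioo, Finset.mem_Ico] at h1 h3 ⊢
      omega
  · rintro ⟨v, w⟩ _
    simp
  · rintro ⟨d, y⟩ _
    simp
  · rintro ⟨v, w⟩ _
    simp only
    rw [← e1_neg, ← e1_add, ← e1_add]
    congr 1
    have hA : (fun i => ((w i + (v - w) i : ℤ) : ℝ)) = fun i => ((v i : ℤ) : ℝ) := by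
      funext i
      simp only [Pi.sub_apply]
      push_cast
      ring
    rw [hA]
    have hB : ∑ i, (b i + kr n L x i) * ((v i : ℤ) : ℝ) -
        ∑ i, (b i + kr n L x i) * ((w i : ℤ) : ℝ) =
        ∑ i, b i * (((v - w) i : ℤ) : ℝ) + ∑ i, (((v - w) i : ℤ) : ℝ) * kr n L x i := by
      rw [← Finset.sum_sub_distrib, ← Finset.sum_add_distrib]
      refine Finset.sum_congr rfl fun i _ => ?_
      simp only [Pi.sub_apply]
      push_cast
      ring
    linear_combination hB

end Vale.Agent.P110F
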