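import Mathlib
import Vale.Agent.Lib.P110F.Defs

/-! P110F: orthogonality along the Kronecker curve. -/

namespace Vale.Agent.P110F

open MeasureTheory Filter Topology

open scoped ComplexConjugate ENNReal

variable {n : ℕ}

private lemma digits_zero {K : ℤ} (hK : 0 < K) : ∀ (n : ℕ) (δ : Fin n → ℤ), (∀ i, |δ i| < K) →
    ∑ i, δ i * K ^ (i : ℕ) = 0 → ∀ i, δ i = 0 := by
  intro n
  induction n with
  | zero =>
    intro δ _ _ i
    exact i.elim0
  | succ n ih =>
    intro δ hδ hs
    rw [Fin.sum_univ_succ] at hs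
    have h1 : ∑ i : Fin n, δ i.succ * K ^ ((i.succ : Fin (n + 1)) : ℕ) =
        K * ∑ i : Fin n, δ i.succ * K ^ (i : ℕ) := by
      rw [Finset.mul_sum]
      refine Finset.sum_congr rfl fun i _ => ?_
      rw [Fin.val_succ, pow_succ]
      ring
    rw [h1, Fin.val_zero, pow_zero, mul_one] at hs
    have h0 : δ 0 = 0 := by
      refine Int.eq_zero_of_abs_lt_dvd (m := K) ?_ (hδ 0)
      exact ⟨-∑ i : Fin n, δ i.succ * K ^ (i : ℕ), by linarith⟩
    have h2 : ∑ i : Fin n, δ i.succ * K ^ (i : ℕ) = 0 := by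
      rw [h0, zero_add] at hs
      exact (mul_eq_zero.1 hs).resolve_left hK.ne'
    have h3 := ih (fun i => δ i.succ) (fun i => hδ _) h2
    intro i
    refine Fin.cases h0 (fun j => h3 j) i

theorem kr_orth {L : ℕ} (hL : 0 < L) (d d' : Fin n → ℤ) (hd : d ∈ dbox n L)
    (hd' : d' ∈ dbox n L) :
    ∫ x in (0 : ℝ)..1, e1 (∑ i, (d i : ℝ) * kr n L x i) *
      conj (e1 (∑ i, (d' i : ℝ) * kr n L x i)) = if d = d' then 1 else 0 := by
  set z : ℤ := ∑ i : Fin n, (d i - d' i) * (4 * (L : ℤ)) ^ (i : ℕ) with hz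
  have h1 : ∀ x : ℝ, e1 (∑ i, (d i : ℝ) * kr n L x i) *
      conj (e1 (∑ i, (d' i : ℝ) * kr n L x i)) = e1 ((z : ℝ) * x) := by
    intro x
    rw [← e1_neg, ← e1_add]
    congr 1
    rw [hz, ← sub_eq_add_neg, ← Finset.sum_sub_distrib]
    push_cast
    rw [Finset.sum_mul]
    refine Finset.sum_congr rfl fun i _ => ?_
    unfold kr
    push_cast
    ring
  simp_rw [h1]
  rw [integral_e1_int]
  have h2 : z = 0 ↔ d = d' := by
    constructor
    · intro h0
      have h3 : ∀ i, |d i - d' i| < 4 * (L : ℤ) := by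
        intro i
        have h4 := Fintype.mem_piFinset.1 hd i
        have h5 := Fintype.mem_piFinset.1 hd' i
        rw [Finset.mem_Ioo] at h4 h5
        rw [abs_lt]
        constructor
        · omega
        · omega
      have h4 := digits_zero (K := 4 * (L : ℤ)) (by positivity) n (fun i => d i - d' i) h3 h0
      funext i
      exact sub_eq_zero.1 (h4 i)
    · intro h
      rw [hz, h]
      simp
  by_cases h : d = d'
  · rw [if_pos h, if_pos (h2.2 h)]
  · rw [if_neg h, if_neg (fun h' => h (h2.1 h'))]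

end Vale.Agent.P110F
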