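import Mathlib
import Vale.Agent.Lib.P110F.Defs
import Vale.Agent.Lib.P110F.A1
import Vale.Agent.Lib.P110F.A2

/-!
P110F, module A2b: second moments of the squared modulus of the exponential sum.
-/

namespace Vale.Agent.P110F

open MeasureTheory Filter Topology
open scoped ComplexConjugate ENNReal

variable {n : ℕ}

private lemma cont_kr (L : ℕ) (d : Fin n → ℤ) :
    Continuous fun x : ℝ => e1 (∑ i, (d i : ℝ) * kr n L x i) := by
  refine continuous_e1.comp ?_
  unfold kr
  fun_prop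

theorem integral_normSq_mul {L : ℕ} (hL : 0 < L) (H H' : Matrix (Fin n) (Fin n) ℝ)
    (b b' : Fin n → ℝ) :
    ((∫ x in (0 : ℝ)..1, ‖SS H b L x‖ ^ 2 * ‖SS H' b' L x‖ ^ 2 : ℝ) : ℂ) =
      ∑ d ∈ dbox n L, cc H b L d * conj (cc H' b' L d) := by
  rw [← intervalIntegral.integral_ofReal]
  have h1 : ∀ x : ℝ, ((‖SS H b L x‖ ^ 2 * ‖SS H' b' L x‖ ^ 2 : ℝ) : ℂ) =
      ∑ d ∈ dbox n L, ∑ d' ∈ dbox n L, (cc H b L d * conj (cc H' b' L d')) *
        (e1 (∑ i, (d i : ℝ) * kr n L x i) * conj (e1 (∑ i, (d' i : ℝ) * kr n L x i))) := by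
    intro x
    have h2 : ((‖SS H' b' L x‖ ^ 2 : ℝ) : ℂ) = conj ((‖SS H' b' L x‖ ^ 2 : ℝ) : ℂ) :=
      (Complex.conj_ofReal _).symm
    rw [Complex.ofReal_mul, h2, normSq_SS hL H b x, normSq_SS hL H' b' x, map_sum,
      Finset.sum_mul_sum]
    refine Finset.sum_congr rfl fun d _ => Finset.sum_congr rfl fun d' _ => ?_
    rw [map_mul]
    ring
  rw [intervalIntegral.integral_congr fun x _ => h1 x]
  have hint : ∀ d d' : Fin n → ℤ, IntervalIntegrable (fun x : ℝ =>
      (cc H b L d * conj (cc H' b' L d')) *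
        (e1 (∑ i, (d i : ℝ) * kr n L x i) * conj (e1 (∑ i, (d' i : ℝ) * kr n L x i))))
      volume 0 1 := by
    intro d d'
    refine Continuous.intervalIntegrable ?_ _ _
    exact continuous_const.mul ((cont_kr L d).mul (Complex.continuous_conj.comp (cont_kr L d')))
  have hint2 : ∀ d : Fin n → ℤ, IntervalIntegrable (fun x : ℝ =>
      ∑ d' ∈ dbox n L, (cc H b L d * conj (cc H' b' L d')) *
        (e1 (∑ i, (d i : ℝ) * kr n L x i) * conj (e1 (∑ i, (d' i : ℝ) * kr n L x i))))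
      volume 0 1 := by
    intro d
    refine Continuous.intervalIntegrable ?_ _ _
    exact continuous_finsetSum _ fun d' _ =>
      continuous_const.mul ((cont_kr L d).mul (Complex.continuous_conj.comp (cont_kr L d')))
  rw [intervalIntegral.integral_finsetSum fun d _ => hint2 d]
  refine Finset.sum_congr rfl fun d hd => ?_
  rw [intervalIntegral.integral_finsetSum fun d' _ => hint d d']
  have h3 : ∀ d' ∈ dbox n L, ∫ x in (0 : ℝ)..1, (cc H b L d * conj (cc H' b' L d')) *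
        (e1 (∑ i, (d i : ℝ) * kr n L x i) * conj (e1 (∑ i, (d' i : ℝ) * kr n L x i))) =
      if d = d' then cc H b L d * conj (cc H' b' L d') else 0 := by
    intro d' hd'
    rw [intervalIntegral.integral_const_mul, kr_orth hL d d' hd hd', mul_ite, mul_one, mul_zero]
  rw [Finset.sum_congr rfl h3, Finset.sum_ite_eq, if_pos hd]

theorem integral_normSq {L : ℕ} (hL : 0 < L) (H : Matrix (Fin n) (Fin n) ℝ) (b : Fin n → ℝ) :
    ∫ x in (0 : ℝ)..1, ‖SS H b L x‖ ^ 2 = (L : ℝ) ^ n := by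
  have h0 : (0 : Fin n → ℤ) ∈ dbox n L := by
    unfold dbox
    rw [Fintype.mem_piFinset]
    intro i
    rw [Finset.mem_Ioo, Pi.zero_apply]
    constructor <;> omega
  have hc0 : cc H b L 0 = ((L : ℂ)) ^ n := by
    unfold cc
    have h1 : ∀ y ∈ bx n L 0, e1 ((quad H (fun i => ((y i + (0 : Fin n → ℤ) i : ℤ) : ℝ)) -
        quad H (fun i => ((y i : ℤ) : ℝ))) / (2 * L) +
        ∑ i, b i * (((0 : Fin n → ℤ) i : ℤ) : ℝ)) = 1 := by
      intro y _
      have : ((quad H (fun i => ((y i + (0 : Fin n → ℤ) i : ℤ) : ℝ)) -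
        quad H (fun i => ((y i : ℤ) : ℝ))) / (2 * L) +
        ∑ i, b i * (((0 : Fin n → ℤ) i : ℤ) : ℝ)) = 0 := by simp
      rw [this, e1_zero]
    rw [Finset.sum_congr rfl h1, Finset.sum_const, nsmul_eq_mul, mul_one]
    unfold bx
    rw [Fintype.card_piFinset]
    simp
  have hC : ((∫ x in (0 : ℝ)..1, ‖SS H b L x‖ ^ 2 : ℝ) : ℂ) = (((L : ℝ) ^ n : ℝ) : ℂ) := by
    rw [← intervalIntegral.integral_ofReal]
    have h1 : ∀ x : ℝ, ((‖SS H b L x‖ ^ 2 : ℝ) : ℂ) =
        ∑ d ∈ dbox n L, cc H b L d * (e1 (∑ i, (d i : ℝ) * kr n L x i) *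
          conj (e1 (∑ i, ((0 : Fin n → ℤ) i : ℝ) * kr n L x i))) := by
      intro x
      rw [normSq_SS hL H b x]
      refine Finset.sum_congr rfl fun d _ => ?_
      simp [e1_zero]
    rw [intervalIntegral.integral_congr fun x _ => h1 x]
    have hint : ∀ d : Fin n → ℤ, IntervalIntegrable (fun x : ℝ =>
        cc H b L d * (e1 (∑ i, (d i : ℝ) * kr n L x i) *
          conj (e1 (∑ i, ((0 : Fin n → ℤ) i : ℝ) * kr n L x i)))) volume 0 1 := by
      intro d
      refine Continuous.intervalIntegrable ?_ _ _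
      exact continuous_const.mul ((cont_kr L d).mul (Complex.continuous_conj.comp (cont_kr L 0)))
    rw [intervalIntegral.integral_finsetSum fun d _ => hint d]
    have h3 : ∀ d ∈ dbox n L, ∫ x in (0 : ℝ)..1, cc H b L d *
        (e1 (∑ i, (d i : ℝ) * kr n L x i) *
          conj (e1 (∑ i, ((0 : Fin n → ℤ) i : ℝ) * kr n L x i))) =
        if d = 0 then cc H b L d else 0 := by
      intro d hd
      rw [intervalIntegral.integral_const_mul, kr_orth hL d 0 hd h0, mul_ite, mul_one, mul_zero]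
    rw [Finset.sum_congr rfl h3, Finset.sum_ite_eq', if_pos h0, hc0]
    push_cast
    rfl
  exact_mod_cast hC

end Vale.Agent.P110F
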