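import Mathlib
import Vale.Agent.Lib.P110F.Defs

namespace Vale.Agent.P110F

open MeasureTheory Filter Topology
open scoped ComplexConjugate ENNReal

theorem exists_shift (k : ℕ) (G : UnitAddTorus (Fin k) → ℝ) (hG : Measurable G)
    (hG0 : ∀ x, 0 ≤ G x) {C : ℝ} (hC : ∀ x, G x ≤ C) {Y : Type} [Fintype Y]
    (p : Y → UnitAddTorus (Fin k)) :
    ∃ α : UnitAddTorus (Fin k), ∑ y, G (p y + α) ≤ Fintype.card Y * ∫ x, G x := by
  have hint : ∀ q : UnitAddTorus (Fin k), Integrable (fun α => G (q + α)) := by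
    intro q
    refine Integrable.of_bound (hG.comp (measurable_const_add q)).aestronglyMeasurable C
      (Eventually.of_forall fun x => ?_)
    rw [Real.norm_eq_abs, abs_of_nonneg (hG0 _)]
    exact hC _
  have hp : IsProbabilityMeasure (volume : Measure UnitAddCircle) := ⟨UnitAddCircle.measure_univ⟩
  have hp2 : IsProbabilityMeasure (volume : Measure (UnitAddTorus (Fin k))) := by
    change IsProbabilityMeasure (Measure.pi fun _ : Fin k => (volume : Measure UnitAddCircle))
    infer_instance
  obtain ⟨α, hα⟩ := exists_le_integral (μ := (volume : Measure (UnitAddTorus (Fin k))))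
    (f := fun α => ∑ y, G (p y + α)) (integrable_finsetSum _ fun y _ => hint (p y))
  refine ⟨α, hα.trans (le_of_eq ?_)⟩
  rw [integral_finsetSum _ fun y _ => hint (p y)]
  have h1 : ∀ y, ∫ α, G (p y + α) = ∫ x, G x := fun y => integral_add_left_eq_self G (p y)
  simp_rw [h1]
  rw [Finset.sum_const, Finset.card_univ, nsmul_eq_mul]

theorem mFourier_coe (k : ℕ) (m : Fin k → ℤ) (x : Fin k → ℝ) :
    UnitAddTorus.mFourier m (fun i => (x i : UnitAddCircle)) = e1 (∑ i, (m i : ℝ) * x i) := by
  change ∏ i, fourier (m i) ((x i : ℝ) : UnitAddCircle) = _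
  simp_rw [fourier_coe_apply]
  rw [← Complex.exp_sum]
  unfold e1
  congr 1
  push_cast
  rw [Finset.mul_sum]
  refine Finset.sum_congr rfl fun i _ => ?_
  ring

end Vale.Agent.P110F
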