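import Mathlib
import Vale.Agent.Lib.P110F.Defs

namespace Vale.Agent.P110F

open MeasureTheory Filter Topology
open scoped ComplexConjugate ENNReal

private theorem D1_expand (N : ℕ) (a : ℕ → ℂ) (x : ℝ) :
    (((‖∑ j ∈ Finset.range N, a j * e1 (j * x)‖ ^ 2 : ℝ)) : ℂ) =
      ∑ j ∈ Finset.range N, ∑ k ∈ Finset.range N,
        (a j * conj (a k)) * e1 ((((j : ℤ) - (k : ℤ) : ℤ) : ℝ) * x) := by
  have h : (((‖∑ j ∈ Finset.range N, a j * e1 (j * x)‖ ^ 2 : ℝ)) : ℂ) =
      (∑ j ∈ Finset.range N, a j * e1 (j * x)) *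
        conj (∑ k ∈ Finset.range N, a k * e1 (k * x)) := by
    rw [Complex.mul_conj, Complex.normSq_eq_norm_sq]
  rw [h, map_sum, Finset.sum_mul_sum]
  refine Finset.sum_congr rfl fun j _ => Finset.sum_congr rfl fun k _ => ?_
  have he : e1 ((((j : ℤ) - (k : ℤ) : ℤ) : ℝ) * x) = e1 (j * x) * conj (e1 (k * x)) := by
    rw [← e1_neg, ← e1_add]
    congr 1
    push_cast
    ring
  rw [he, map_mul]
  ring

private theorem D1_int (z : ℤ) (c : ℂ) :
    IntervalIntegrable (fun x : ℝ => c * e1 ((z : ℝ) * x)) volume 0 1 := by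
  have h : Continuous fun x : ℝ => c * e1 ((z : ℝ) * x) :=
    continuous_const.mul (continuous_e1.comp (continuous_const.mul continuous_id))
  exact h.intervalIntegrable 0 1

private theorem D1_val (z : ℤ) (c : ℂ) :
    ∫ x in (0 : ℝ)..1, c * e1 ((z : ℝ) * x) = if z = 0 then c else 0 := by
  rw [intervalIntegral.integral_const_mul, integral_e1_int]
  split_ifs <;> simp

theorem integral_normSq_poly (N : ℕ) (a : ℕ → ℂ) :
    ∫ x in (0 : ℝ)..1, ‖∑ j ∈ Finset.range N, a j * e1 (j * x)‖ ^ 2 =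
      ∑ j ∈ Finset.range N, ‖a j‖ ^ 2 := by
  have h1 : ((∫ x in (0 : ℝ)..1, ‖∑ j ∈ Finset.range N, a j * e1 (j * x)‖ ^ 2 : ℝ) : ℂ) =
      ((∑ j ∈ Finset.range N, ‖a j‖ ^ 2 : ℝ) : ℂ) := by
    rw [← intervalIntegral.integral_ofReal]
    simp_rw [D1_expand]
    rw [intervalIntegral.integral_finsetSum, Complex.ofReal_sum]
    · refine Finset.sum_congr rfl fun j hj => ?_
      rw [intervalIntegral.integral_finsetSum]
      · simp_rw [D1_val]
        rw [Finset.sum_eq_single j]
        · rw [if_pos (sub_self _), Complex.mul_conj, Complex.normSq_eq_norm_sq]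
        · intro k _ hkj
          rw [if_neg]
          intro h0
          apply hkj
          omega
        · intro hnot
          exact absurd hj hnot
      · intro k _
        exact D1_int _ _
    · intro j _
      have h := IntervalIntegrable.sum (Finset.range N)
        (f := fun (k : ℕ) (x : ℝ) => (a j * conj (a k)) * e1 ((((j : ℤ) - (k : ℤ) : ℤ) : ℝ) * x))
        (fun k _ => D1_int ((j : ℤ) - (k : ℤ)) (a j * conj (a k)))
      have he : (∑ k ∈ Finset.range N, fun x : ℝ =>
          (a j * conj (a k)) * e1 ((((j : ℤ) - (k : ℤ) : ℤ) : ℝ) * x)) = fun x : ℝ =>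
          ∑ k ∈ Finset.range N, (a j * conj (a k)) * e1 ((((j : ℤ) - (k : ℤ) : ℤ) : ℝ) * x) := by
        funext x
        rw [Finset.sum_apply]
      rw [← he]
      exact h
  exact Complex.ofReal_injective h1

end Vale.Agent.P110F
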