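import Mathlib
import Vale.Agent.Lib.P110F.Defs

/-! P110F: mixed radix digits. -/

namespace Vale.Agent.P110F

open MeasureTheory Filter Topology

open scoped ComplexConjugate ENNReal

private def pairUp (n A C : ℕ) : (Fin n → Fin A) × (Fin n → Fin C) ≃ (Fin n → Fin (A * C)) where
  toFun w i := finProdFinEquiv (w.1 i, w.2 i)
  invFun f := (fun i => (finProdFinEquiv.symm (f i)).1, fun i => (finProdFinEquiv.symm (f i)).2)
  left_inv w := by
    ext i
    · simp only [Equiv.symm_apply_apply]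
    · simp only [Equiv.symm_apply_apply]
  right_inv f := by
    funext i
    simp only [Prod.mk.eta, Equiv.apply_symm_apply]

theorem exists_reindex (n R L : ℕ) (hL : 0 < L) :
    ∃ e : (Fin R × (Fin n → Fin 4)) × (Fin n → Fin L) ≃ Fin (R * (4 * L) ^ n),
      ∀ r s y, ((e ((r, s), y) : ℕ) = (r : ℕ) * (4 * L) ^ n +
        ∑ i : Fin n, ((y i : ℕ) + (s i : ℕ) * L) * (4 * L) ^ (i : ℕ)) := by
  refine ⟨((Equiv.prodAssoc (Fin R) (Fin n → Fin 4) (Fin n → Fin L)).trans
    (Equiv.prodCongr (Equiv.refl (Fin R)) ((pairUp n 4 L).trans finFunctionFinEquiv))).trans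
      finProdFinEquiv, fun r s y => ?_⟩
  rw [Equiv.trans_apply, Equiv.trans_apply, Equiv.prodAssoc_apply, Equiv.prodCongr_apply,
    Prod.map_apply, Equiv.refl_apply, Equiv.trans_apply, finProdFinEquiv_apply_val,
    finFunctionFinEquiv_apply]
  have h1 : ∑ i : Fin n, ((pairUp n 4 L (s, y) i : Fin (4 * L)) : ℕ) * (4 * L) ^ (i : ℕ) =
      ∑ i : Fin n, ((y i : ℕ) + (s i : ℕ) * L) * (4 * L) ^ (i : ℕ) := by
    refine Finset.sum_congr rfl fun i _ => ?_
    have h2 : ((pairUp n 4 L (s, y) i : Fin (4 * L)) : ℕ) = (y i : ℕ) + (s i : ℕ) * L := by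
      change ((finProdFinEquiv (s i, y i) : Fin (4 * L)) : ℕ) = _
      rw [finProdFinEquiv_apply_val]
      change (y i : ℕ) + L * (s i : ℕ) = _
      rw [Nat.mul_comm L]
    rw [h2]
  change ∑ i : Fin n, ((pairUp n 4 L (s, y) i : Fin (4 * L)) : ℕ) * (4 * L) ^ (i : ℕ) +
    (4 * L) ^ n * (r : ℕ) = _
  rw [h1, add_comm, mul_comm ((4 * L) ^ n)]

end Vale.Agent.P110F
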