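import Mathlib
import Vale.Agent.Lib.P110F.Defs

namespace Vale.Agent.P110F

open MeasureTheory Filter Topology
open scoped ComplexConjugate ENNReal

private theorem D3_cs {f : ℝ → ℝ} (hf : Continuous f) :
    ∫ x in (0 : ℝ)..1, f x ≤ Real.sqrt (∫ x in (0 : ℝ)..1, f x ^ 2) := by
  apply Real.le_sqrt_of_sq_le
  set m := ∫ x in (0 : ℝ)..1, f x with hm
  have h1 : 0 ≤ ∫ x in (0 : ℝ)..1, (f x - m) ^ 2 :=
    intervalIntegral.integral_nonneg zero_le_one fun x _ => sq_nonneg _
  have h2 : ∫ x in (0 : ℝ)..1, (f x - m) ^ 2 = (∫ x in (0 : ℝ)..1, f x ^ 2) - m ^ 2 := by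
    have e : (fun x => (f x - m) ^ 2) = fun x => f x ^ 2 - (2 * m * f x - m ^ 2) := by
      funext x
      ring
    have i1 : IntervalIntegrable (fun x => f x ^ 2) volume 0 1 := (hf.pow 2).intervalIntegrable _ _
    have i2 : IntervalIntegrable (fun x => 2 * m * f x) volume 0 1 :=
      (continuous_const.mul hf).intervalIntegrable _ _
    have i3 : IntervalIntegrable (fun _ : ℝ => m ^ 2) volume 0 1 :=
      continuous_const.intervalIntegrable _ _
    rw [e, intervalIntegral.integral_sub i1 (i2.sub i3), intervalIntegral.integral_sub i2 i3,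
      intervalIntegral.integral_const_mul, ← hm, intervalIntegral.integral_const]
    simp only [sub_zero, one_smul]
    ring
  rw [h2] at h1
  linarith

theorem main_estimate {P : Type} [Fintype P] [DecidableEq P] (S γ : P → ℝ → ℂ)
    (w : P → ℝ) (hw : ∀ p, 0 ≤ w p) (hS : ∀ p, Continuous (S p)) (hγ : ∀ p, Continuous (γ p))
    (hγw : ∀ p x, ‖γ p x‖ ^ 2 = w p) {Λ δ : ℝ} (hΛ : 0 < Λ) (hδ : 0 ≤ δ)
    (hone : ∀ p, ∫ x in (0 : ℝ)..1, ‖S p x‖ ^ 2 = Λ)
    (hoff : ∀ p q, p ≠ q → (∫ x in (0 : ℝ)..1, ‖S p x‖ ^ 2 * ‖S q x‖ ^ 2) / Λ ^ 2 ≤ δ)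
    (M : P → ℝ) (hself : ∀ p, (∫ x in (0 : ℝ)..1, ‖S p x‖ ^ 2 * ‖S p x‖ ^ 2) / Λ ^ 2 ≤ M p)
    {τ : ℝ} (hM : ∀ p, w p * M p ≤ 1 + τ) (hw1 : ∑ p, w p ≤ 1) (hw2 : 1 - τ ≤ ∑ p, w p)
    (hτ : 0 ≤ τ) (hτ1 : τ ≤ 1) :
    ∫ x in (0 : ℝ)..1, |‖∑ p, γ p x * S p x‖ ^ 2 / Λ - 1| ≤
      Fintype.card P ^ 2 * Real.sqrt δ + Real.sqrt (2 * τ + Fintype.card P ^ 2 * δ) := by
  have hwle : ∀ p, w p ≤ 1 := fun p =>
    (Finset.single_le_sum (f := w) (fun q _ => hw q) (Finset.mem_univ p)).trans hw1
  have hγ1 : ∀ p x, ‖γ p x‖ ≤ 1 := by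
    intro p x
    have h := hγw p x
    have h1 := hwle p
    nlinarith [norm_nonneg (γ p x)]
  -- normalised squares
  set a : P → ℝ → ℝ := fun p x => ‖S p x‖ ^ 2 / Λ with ha
  have hac : ∀ p, Continuous (a p) := fun p => ((hS p).norm.pow 2).div_const Λ
  have ha1 : ∀ p, ∫ x in (0 : ℝ)..1, a p x = 1 := by
    intro p
    simp only [ha]
    rw [intervalIntegral.integral_div, hone p, div_self hΛ.ne']
  have ha2 : ∀ p q, ∫ x in (0 : ℝ)..1, a p x * a q x =
      (∫ x in (0 : ℝ)..1, ‖S p x‖ ^ 2 * ‖S q x‖ ^ 2) / Λ ^ 2 := by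
    intro p q
    rw [← intervalIntegral.integral_div]
    congr 1
    funext x
    simp only [ha]
    rw [div_mul_div_comm, sq Λ]
  set D : ℝ → ℝ := fun x => ∑ p, w p * a p x - 1 with hD
  have hDc : Continuous D :=
    (continuous_finsetSum _ fun p _ => continuous_const.mul (hac p)).sub continuous_const
  set b : P → P → ℝ → ℝ := fun p q x => ‖S p x‖ * ‖S q x‖ / Λ with hb
  have hbc : ∀ p q, Continuous (b p q) := fun p q => ((hS p).norm.mul (hS q).norm).div_const Λ
  -- pointwise bound
  have hpt : ∀ x, |‖∑ p, γ p x * S p x‖ ^ 2 / Λ - 1| ≤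
      |D x| + ∑ p, ∑ q, if p = q then 0 else b p q x := by
    intro x
    have e1 : ‖∑ p, γ p x * S p x‖ ^ 2 =
        ∑ p, ∑ q, ((γ p x * S p x) * conj (γ q x * S q x)).re := by
      have h1 : ((‖∑ p, γ p x * S p x‖ ^ 2 : ℝ) : ℂ) =
          (∑ p, γ p x * S p x) * conj (∑ p, γ p x * S p x) := by
        rw [Complex.mul_conj, Complex.normSq_eq_norm_sq]
      have h2 := congrArg Complex.re h1
      rw [Complex.ofReal_re, map_sum, Finset.sum_mul_sum, Complex.re_sum] at h2
      rw [h2]
      exact Finset.sum_congr rfl fun p _ => Complex.re_sum _ _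
    have e2 : ∀ p, ((γ p x * S p x) * conj (γ p x * S p x)).re = w p * ‖S p x‖ ^ 2 := by
      intro p
      rw [Complex.mul_conj, Complex.ofReal_re, Complex.normSq_eq_norm_sq, norm_mul, mul_pow,
        hγw]
    have e3 : ‖∑ p, γ p x * S p x‖ ^ 2 / Λ - 1 = D x +
        ∑ p, ∑ q, (if p = q then 0 else ((γ p x * S p x) * conj (γ q x * S q x)).re) / Λ := by
      have h1 : ∀ p, ∑ q, ((γ p x * S p x) * conj (γ q x * S q x)).re = w p * ‖S p x‖ ^ 2 +
          ∑ q, (if p = q then 0 else ((γ p x * S p x) * conj (γ q x * S q x)).re) := by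
        intro p
        have h2 : ∀ q, ((γ p x * S p x) * conj (γ q x * S q x)).re =
            (if p = q then w p * ‖S p x‖ ^ 2 else 0) +
            (if p = q then 0 else ((γ p x * S p x) * conj (γ q x * S q x)).re) := by
          intro q
          by_cases h : p = q
          · subst h
            rw [if_pos rfl, if_pos rfl, add_zero, e2]
          · rw [if_neg h, if_neg h, zero_add]
        rw [Finset.sum_congr rfl fun q _ => h2 q, Finset.sum_add_distrib]
        congr 1
        rw [Finset.sum_ite_eq Finset.univ p (fun _ => w p * ‖S p x‖ ^ 2), if_pos (Finset.mem_univ p)]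
      rw [e1, Finset.sum_congr rfl fun p _ => h1 p, Finset.sum_add_distrib, add_div]
      have h3 : (∑ p, w p * ‖S p x‖ ^ 2) / Λ = ∑ p, w p * a p x := by
        rw [Finset.sum_div]
        exact Finset.sum_congr rfl fun p _ => by simp only [ha]; rw [mul_div_assoc]
      rw [h3]
      have h4 : (∑ p, ∑ q, (if p = q then 0 else ((γ p x * S p x) * conj (γ q x * S q x)).re)) / Λ =
          ∑ p, ∑ q, (if p = q then 0 else ((γ p x * S p x) * conj (γ q x * S q x)).re) / Λ := by
        rw [Finset.sum_div]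
        exact Finset.sum_congr rfl fun p _ => Finset.sum_div _ _ _
      rw [h4]
      simp only [hD]
      ring
    rw [e3]
    refine (abs_add_le _ _).trans (add_le_add le_rfl ?_)
    refine (Finset.abs_sum_le_sum_abs _ _).trans (Finset.sum_le_sum fun p _ => ?_)
    refine (Finset.abs_sum_le_sum_abs _ _).trans (Finset.sum_le_sum fun q _ => ?_)
    by_cases h : p = q
    · rw [if_pos h, if_pos h, zero_div, abs_zero]
    · rw [if_neg h, if_neg h, abs_div, abs_of_pos hΛ]
      simp only [hb]
      refine div_le_div_of_nonneg_right ?_ hΛ.le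
      refine (Complex.abs_re_le_norm _).trans ?_
      rw [norm_mul, Complex.norm_conj, norm_mul, norm_mul]
      have h1 := hγ1 p x
      have h2 := hγ1 q x
      calc ‖γ p x‖ * ‖S p x‖ * (‖γ q x‖ * ‖S q x‖)
          ≤ 1 * ‖S p x‖ * (1 * ‖S q x‖) := by gcongr
        _ = ‖S p x‖ * ‖S q x‖ := by ring
  -- continuity
  have hic : ∀ p q, Continuous (fun x => if p = q then (0 : ℝ) else b p q x) := by
    intro p q
    by_cases h : p = q
    · simp only [if_pos h]
      exact continuous_const
    · simp only [if_neg h]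
      exact hbc p q
  have hLc : Continuous (fun x => |‖∑ p, γ p x * S p x‖ ^ 2 / Λ - 1|) :=
    ((((continuous_finsetSum _ fun p _ => (hγ p).mul (hS p)).norm.pow 2).div_const Λ).sub
      continuous_const).abs
  have hsc : ∀ p, Continuous (fun x => ∑ q, if p = q then (0 : ℝ) else b p q x) := fun p =>
    continuous_finsetSum _ fun q _ => hic p q
  have hRc : Continuous (fun x => ∑ p, ∑ q, if p = q then (0 : ℝ) else b p q x) :=
    continuous_finsetSum _ fun p _ => hsc p
  have h1 : ∫ x in (0 : ℝ)..1, |‖∑ p, γ p x * S p x‖ ^ 2 / Λ - 1| ≤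
      (∫ x in (0 : ℝ)..1, |D x|) + ∑ p, ∑ q, ∫ x in (0 : ℝ)..1, if p = q then 0 else b p q x := by
    have h2 : ∫ x in (0 : ℝ)..1, |‖∑ p, γ p x * S p x‖ ^ 2 / Λ - 1| ≤
        ∫ x in (0 : ℝ)..1, (|D x| + ∑ p, ∑ q, if p = q then 0 else b p q x) :=
      intervalIntegral.integral_mono_on zero_le_one (hLc.intervalIntegrable _ _)
        ((hDc.abs.add hRc).intervalIntegrable _ _) fun x _ => hpt x
    rw [intervalIntegral.integral_add (hDc.abs.intervalIntegrable _ _)
      (hRc.intervalIntegrable _ _), intervalIntegral.integral_finsetSum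
      (fun p _ => (hsc p).intervalIntegrable _ _)] at h2
    refine h2.trans (add_le_add le_rfl (le_of_eq ?_))
    exact Finset.sum_congr rfl fun p _ => intervalIntegral.integral_finsetSum
      (fun q _ => (hic p q).intervalIntegrable _ _)
  -- off-diagonal
  have h2 : ∑ p, ∑ q, ∫ x in (0 : ℝ)..1, (if p = q then 0 else b p q x) ≤
      Fintype.card P ^ 2 * Real.sqrt δ := by
    have h3 : ∀ p q, ∫ x in (0 : ℝ)..1, (if p = q then 0 else b p q x) ≤ Real.sqrt δ := by
      intro p q
      by_cases h : p = q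
      · simp only [if_pos h]
        rw [intervalIntegral.integral_zero]
        exact Real.sqrt_nonneg _
      · simp only [if_neg h]
        refine (D3_cs (hbc p q)).trans (Real.sqrt_le_sqrt ?_)
        have e : (fun x => b p q x ^ 2) = fun x => ‖S p x‖ ^ 2 * ‖S q x‖ ^ 2 / Λ ^ 2 := by
          funext x
          simp only [hb]
          ring
        rw [e, intervalIntegral.integral_div]
        exact hoff p q h
    calc ∑ p, ∑ q, ∫ x in (0 : ℝ)..1, (if p = q then 0 else b p q x)
        ≤ ∑ _p : P, ∑ _q : P, Real.sqrt δ :=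
          Finset.sum_le_sum fun p _ => Finset.sum_le_sum fun q _ => h3 p q
      _ = Fintype.card P ^ 2 * Real.sqrt δ := by
          simp only [Finset.sum_const, Finset.card_univ, nsmul_eq_mul]
          ring
  -- diagonal
  have h3 : ∫ x in (0 : ℝ)..1, |D x| ≤ Real.sqrt (2 * τ + Fintype.card P ^ 2 * δ) := by
    refine (D3_cs hDc.abs).trans (Real.sqrt_le_sqrt ?_)
    have hpc : ∀ p q, Continuous (fun x => w p * w q * (a p x * a q x)) := fun p q =>
      continuous_const.mul ((hac p).mul (hac q))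
    have hpc' : ∀ p, Continuous (fun x => ∑ q, w p * w q * (a p x * a q x)) := fun p =>
      continuous_finsetSum _ fun q _ => hpc p q
    have hlc : ∀ p, Continuous (fun x => 2 * w p * a p x) := fun p =>
      continuous_const.mul (hac p)
    have e : (fun x => |D x| ^ 2) = fun x => (∑ p, ∑ q, w p * w q * (a p x * a q x)) -
        ((∑ p, 2 * w p * a p x) - 1) := by
      funext x
      rw [sq_abs]
      simp only [hD]
      have e1 : (∑ p, ∑ q, w p * w q * (a p x * a q x)) = (∑ p, w p * a p x) ^ 2 := by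
        rw [sq, Finset.sum_mul_sum]
        exact Finset.sum_congr rfl fun p _ => Finset.sum_congr rfl fun q _ => by ring
      have e2 : (∑ p, 2 * w p * a p x) = 2 * ∑ p, w p * a p x := by
        rw [Finset.mul_sum]
        exact Finset.sum_congr rfl fun p _ => by ring
      rw [e1, e2]
      ring
    have hc1 : Continuous (fun x => ∑ p, ∑ q, w p * w q * (a p x * a q x)) :=
      continuous_finsetSum _ fun p _ => hpc' p
    have hc2 : Continuous (fun x => ∑ p, 2 * w p * a p x) :=
      continuous_finsetSum _ fun p _ => hlc p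
    have i1 : IntervalIntegrable (fun x => ∑ p, ∑ q, w p * w q * (a p x * a q x)) volume 0 1 :=
      hc1.intervalIntegrable _ _
    have i2 : IntervalIntegrable (fun x => ∑ p, 2 * w p * a p x) volume 0 1 :=
      hc2.intervalIntegrable _ _
    have i3 : IntervalIntegrable (fun _ : ℝ => (1 : ℝ)) volume 0 1 :=
      continuous_const.intervalIntegrable _ _
    rw [e, intervalIntegral.integral_sub i1 (i2.sub i3), intervalIntegral.integral_sub i2 i3,
      intervalIntegral.integral_finsetSum (fun p _ => (hpc' p).intervalIntegrable _ _),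
      intervalIntegral.integral_finsetSum (fun p _ => (hlc p).intervalIntegrable _ _)]
    have e3 : ∀ p, ∫ x in (0 : ℝ)..1, 2 * w p * a p x = 2 * w p := by
      intro p
      rw [intervalIntegral.integral_const_mul, ha1, mul_one]
    have e4 : ∀ p, ∫ x in (0 : ℝ)..1, ∑ q, w p * w q * (a p x * a q x) ≤
        w p * (1 + τ) + Fintype.card P * δ := by
      intro p
      rw [intervalIntegral.integral_finsetSum (fun q _ => (hpc p q).intervalIntegrable _ _)]
      have e5 : ∀ q, ∫ x in (0 : ℝ)..1, w p * w q * (a p x * a q x) ≤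
          (if p = q then w p * (1 + τ) else 0) + δ := by
        intro q
        rw [intervalIntegral.integral_const_mul, ha2]
        by_cases h : p = q
        · subst h
          rw [if_pos rfl]
          have h5 := hself p
          have h6 : w p * w p * ((∫ x in (0 : ℝ)..1, ‖S p x‖ ^ 2 * ‖S p x‖ ^ 2) / Λ ^ 2) ≤
              w p * (w p * M p) := by
            rw [mul_assoc]
            exact mul_le_mul_of_nonneg_left (mul_le_mul_of_nonneg_left h5 (hw p)) (hw p)
          have h7 := mul_le_mul_of_nonneg_left (hM p) (hw p)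
          linarith
        · rw [if_neg h, zero_add]
          have h5 := hoff p q h
          have h6 : 0 ≤ w p * w q := mul_nonneg (hw p) (hw q)
          have h7 : w p * w q ≤ 1 := mul_le_one₀ (hwle p) (hw q) (hwle q)
          calc w p * w q * ((∫ x in (0 : ℝ)..1, ‖S p x‖ ^ 2 * ‖S q x‖ ^ 2) / Λ ^ 2)
              ≤ w p * w q * δ := mul_le_mul_of_nonneg_left h5 h6
            _ ≤ 1 * δ := mul_le_mul_of_nonneg_right h7 hδ
            _ = δ := one_mul δ
      refine (Finset.sum_le_sum fun q _ => e5 q).trans (le_of_eq ?_)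
      rw [Finset.sum_add_distrib, Finset.sum_ite_eq Finset.univ p (fun _ => w p * (1 + τ)),
        if_pos (Finset.mem_univ p), Finset.sum_const, Finset.card_univ, nsmul_eq_mul]
    have e6 : ∑ p, ∫ x in (0 : ℝ)..1, ∑ q, w p * w q * (a p x * a q x) ≤
        (1 + τ) * ∑ p, w p + Fintype.card P ^ 2 * δ := by
      refine (Finset.sum_le_sum fun p _ => e4 p).trans (le_of_eq ?_)
      rw [Finset.sum_add_distrib, Finset.sum_const, Finset.card_univ, nsmul_eq_mul, Finset.mul_sum]
      congr 1
      · exact Finset.sum_congr rfl fun p _ => mul_comm _ _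
      · ring
    have e7 : ∑ p, ∫ x in (0 : ℝ)..1, 2 * w p * a p x = 2 * ∑ p, w p := by
      rw [Finset.mul_sum]
      exact Finset.sum_congr rfl fun p _ => e3 p
    rw [e7, intervalIntegral.integral_const]
    simp only [sub_zero, one_smul]
    have e8 : (1 - τ) * (1 - τ) ≤ (1 - τ) * ∑ p, w p :=
      mul_le_mul_of_nonneg_left hw2 (by linarith)
    nlinarith [e6, e8, sq_nonneg τ]
  linarith

end Vale.Agent.P110F
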