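import Mathlib
import Vale.Agent.Lib.P110F.Defs

/-! P110F: module A5 (helper88): summability of the squared weights. -/

namespace Vale.Agent.P110F

open MeasureTheory Filter Topology
open scoped ComplexConjugate ENNReal

variable {n : ℕ}

private theorem A5_one {c : ℝ} (hc : 0 < c) :
    Summable fun z : ℤ => (1 / max 1 (2 * |c * (z : ℝ)|)) ^ 2 := by
  have h1 : Summable fun z : ℤ => (if z = 0 then (1 : ℝ) else 0) +
      (1 / (4 * c ^ 2)) * (1 / (z : ℝ) ^ 2) := by
    refine Summable.add ?_ ?_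
    · exact (hasSum_ite_eq (0 : ℤ) (1 : ℝ)).summable
    · exact (Real.summable_one_div_int_pow.2 one_lt_two).mul_left _
  refine Summable.of_nonneg_of_le (fun z => by positivity) (fun z => ?_) h1
  by_cases hz : z = 0
  · subst hz
    simp
  · have hz' : (0 : ℝ) < |(z : ℝ)| := abs_pos.2 (by exact_mod_cast hz)
    have h2 : 0 < 2 * |c * (z : ℝ)| := by
      rw [abs_mul]
      have := abs_pos.2 hc.ne'
      positivity
    rw [if_neg hz, zero_add]
    have h3 : (1 / max 1 (2 * |c * (z : ℝ)|)) ^ 2 ≤ (1 / (2 * |c * (z : ℝ)|)) ^ 2 := by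
      gcongr
      exact le_max_right _ _
    refine h3.trans (le_of_eq ?_)
    rw [div_pow, mul_pow, sq_abs, mul_pow]
    have hz2 : (z : ℝ) ≠ 0 := by exact_mod_cast hz
    field_simp
    ring

private theorem A5_prod (f : ℤ → ℝ) (h0 : ∀ z, 0 ≤ f z) (hf : Summable f) (n : ℕ) :
    Summable fun e : Fin n → ℤ => ∏ i, f (e i) := by
  induction n with
  | zero => exact (hasSum_unique _).summable
  | succ n ih =>
    have h1 : Summable fun p : ℤ × (Fin n → ℤ) => f p.1 * ∏ i, f (p.2 i) :=
      Summable.mul_of_nonneg (f := f) (g := fun e : Fin n → ℤ => ∏ i, f (e i)) hf ih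
        (fun z => h0 z) (fun e => Finset.prod_nonneg fun i _ => h0 (e i))
    have h2 : (fun e : Fin (n + 1) → ℤ => ∏ i, f (e i)) ∘ (Fin.consEquiv fun _ => ℤ) =
        fun p : ℤ × (Fin n → ℤ) => f p.1 * ∏ i, f (p.2 i) := by
      funext p
      simp [Fin.consEquiv, Fin.prod_univ_succ]
    rw [← (Fin.consEquiv fun _ : Fin (n + 1) => ℤ).summable_iff, h2]
    exact h1

theorem summable_wt {c : ℝ} (hc : 0 < c) (A : Matrix (Fin n) (Fin n) ℤ) (hA : A.det ≠ 0) :
    Summable fun d : Fin n → ℤ => wt (scl c A) d ^ 2 := by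
  have h1 := A5_prod (fun z : ℤ => (1 / max 1 (2 * |c * (z : ℝ)|)) ^ 2)
    (fun z => by positivity) (A5_one hc) n
  have hinj : Function.Injective fun d : Fin n → ℤ => A.mulVec d := by
    intro d d' h
    have h3 : A.mulVec (d - d') = 0 := by
      rw [Matrix.mulVec_sub]
      exact sub_eq_zero.2 h
    have h4 := Matrix.eq_zero_of_mulVec_eq_zero hA h3
    exact sub_eq_zero.1 h4
  have h2 := h1.comp_injective hinj
  refine h2.congr fun d => ?_
  symm
  unfold wt
  rw [Function.comp_apply, ← Finset.prod_pow]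
  refine Finset.prod_congr rfl fun i _ => ?_
  have h5 : ∑ j, scl c A i j * (d j : ℝ) = c * ((A.mulVec d i : ℤ) : ℝ) := by
    unfold scl Matrix.mulVec dotProduct
    push_cast
    rw [Finset.mul_sum]
    exact Finset.sum_congr rfl fun j _ => by ring
  rw [h5]

end Vale.Agent.P110F
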