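import Mathlib
import Vale.Agent.Lib.P110F.Defs
import Vale.Agent.Lib.P110F.A5

namespace Vale.Agent.P110F

open MeasureTheory Filter Topology
open scoped ComplexConjugate ENNReal

variable {n : ℕ}

private theorem A5b_sg_one (t : ℝ) : ‖sg t‖ ≤ 1 := by
  unfold sg
  have h := intervalIntegral.norm_integral_le_of_norm_le_const (a := (0 : ℝ)) (b := 1) (C := 1)
    (f := fun u => e1 (t * u)) (fun u _ => (norm_e1 _).le)
  simpa using h

private theorem A5b_sg_le {t : ℝ} (ht : t ≠ 0) : ‖sg t‖ ≤ 1 / (2 * |t|) := by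
  have hz : (2 * Real.pi * Complex.I * t : ℂ) ≠ 0 := by
    simp [Real.pi_ne_zero, Complex.I_ne_zero, ht]
  have h1 : sg t = (e1 t - 1) / (2 * Real.pi * Complex.I * t) := by
    unfold sg
    have h2 : ∀ x : ℝ, e1 (t * x) = Complex.exp ((2 * Real.pi * Complex.I * t : ℂ) * x) := by
      intro x
      unfold e1
      congr 1
      push_cast
      ring
    simp_rw [h2]
    rw [integral_exp_mul_complex hz]
    unfold e1
    simp
  have h3 : ‖(2 * Real.pi * Complex.I * t : ℂ)‖ = 2 * Real.pi * |t| := by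
    simp [abs_of_pos Real.pi_pos]
  have h4 : ‖e1 t - 1‖ ≤ 2 := by
    refine (norm_sub_le _ _).trans ?_
    rw [norm_e1, norm_one]
    norm_num
  have ht' : 0 < |t| := abs_pos.2 ht
  rw [h1, norm_div, h3, div_le_div_iff₀ (by positivity) (by positivity)]
  have h5 : (2 : ℝ) ≤ Real.pi := Real.two_le_pi
  nlinarith

private theorem A5b_sg (t : ℝ) : ‖sg t‖ ≤ 1 / max 1 (2 * |t|) := by
  rcases le_total 1 (2 * |t|) with h | h
  · rw [max_eq_right h]
    refine A5b_sg_le fun h0 => ?_
    rw [h0] at h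
    norm_num at h
  · rw [max_eq_left h, div_one]
    exact A5b_sg_one t

theorem norm_gg_le (H : Matrix (Fin n) (Fin n) ℝ) (b : Fin n → ℝ) (d : Fin n → ℤ) :
    ‖gg H b d‖ ≤ wt H d := by
  unfold gg wt
  rw [norm_mul, norm_e1, one_mul, norm_prod]
  exact Finset.prod_le_prod (fun i _ => norm_nonneg _) fun i _ => A5b_sg _

theorem summable_gg_mul {c c' : ℝ} (hc : 0 < c) (hc' : 0 < c')
    (A A' : Matrix (Fin n) (Fin n) ℤ) (hA : A.det ≠ 0) (hA' : A'.det ≠ 0) (b b' : Fin n → ℝ) :
    Summable fun d : Fin n → ℤ => gg (scl c A) b d * conj (gg (scl c' A') b' d) := by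
  refine Summable.of_norm_bounded
    (g := fun d => (wt (scl c A) d ^ 2 + wt (scl c' A') d ^ 2) / 2) ?_ fun d => ?_
  · exact ((summable_wt hc A hA).add (summable_wt hc' A' hA')).div_const 2
  · rw [norm_mul, RCLike.norm_conj]
    have h1 := norm_gg_le (scl c A) b d
    have h2 := norm_gg_le (scl c' A') b' d
    have h3 : ‖gg (scl c A) b d‖ * ‖gg (scl c' A') b' d‖ ≤ wt (scl c A) d * wt (scl c' A') d :=
      mul_le_mul h1 h2 (norm_nonneg _) ((norm_nonneg _).trans h1)
    have h4 := two_mul_le_add_sq (wt (scl c A) d) (wt (scl c' A') d)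
    linarith

end Vale.Agent.P110F
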