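import Mathlib
import Vale.Agent.Lib.P110F.Defs

/-!
P110F A3a: Riemann sums of a pure frequency.
-/

namespace Vale.Agent.P110F

open MeasureTheory Filter Topology
open scoped ComplexConjugate ENNReal

private lemma A3a_lip (a b : ℝ) : ‖e1 a - e1 b‖ ≤ 2 * Real.pi * |a - b| := by
  have h1 : e1 a - e1 b = e1 b * (e1 (a - b) - 1) := by
    rw [mul_sub, ← e1_add, mul_one]
    congr 2
    ring
  have h2 : e1 (a - b) = Complex.exp (Complex.I * ((2 * Real.pi * (a - b) : ℝ) : ℂ)) := by
    unfold e1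
    congr 1
    push_cast
    ring
  rw [h1, norm_mul, norm_e1, one_mul, h2]
  refine (Real.norm_exp_I_mul_ofReal_sub_one_le).trans ?_
  rw [Real.norm_eq_abs, abs_mul, abs_of_pos Real.two_pi_pos]

private lemma A3a_full (t : ℝ) :
    Tendsto (fun L : ℕ => (∑ y ∈ Finset.range L, e1 (t * ((y : ℝ) / L))) / (L : ℂ)) atTop
      (𝓝 (sg t)) := by
  have hcont : Continuous fun u : ℝ => e1 (t * u) := continuous_e1.comp (continuous_const.mul
    continuous_id)
  have hb : ∀ L : ℕ, 0 < L →
      ‖(∑ y ∈ Finset.range L, e1 (t * ((y : ℝ) / L))) / (L : ℂ) - sg t‖ ≤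
        2 * Real.pi * |t| / L := by
    intro L hL
    have hL0 : (0 : ℝ) < L := by exact_mod_cast hL
    have h1 : sg t = ∑ y ∈ Finset.range L, ∫ u in ((y : ℝ) / L)..(((y + 1 : ℕ) : ℝ) / L),
        e1 (t * u) := by
      have h2 := intervalIntegral.sum_integral_adjacent_intervals (μ := volume)
        (f := fun u : ℝ => e1 (t * u)) (a := fun y : ℕ => (y : ℝ) / L) (n := L)
        (fun k _ => hcont.intervalIntegrable _ _)
      rw [h2]
      unfold sg
      simp only [Nat.cast_zero, zero_div]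
      rw [div_self hL0.ne']
    have h3 : (∑ y ∈ Finset.range L, e1 (t * ((y : ℝ) / L))) / (L : ℂ) =
        ∑ y ∈ Finset.range L, ∫ _u in ((y : ℝ) / L)..(((y + 1 : ℕ) : ℝ) / L),
          e1 (t * ((y : ℝ) / L)) := by
      rw [Finset.sum_div]
      refine Finset.sum_congr rfl fun y _ => ?_
      rw [intervalIntegral.integral_const]
      have h4 : ((y + 1 : ℕ) : ℝ) / L - (y : ℝ) / L = 1 / L := by
        push_cast
        field_simp
        ring
      rw [h4, Complex.real_smul]
      push_cast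
      ring
    rw [h3, h1, ← Finset.sum_sub_distrib]
    refine (norm_sum_le _ _).trans ?_
    have h5 : ∀ y ∈ Finset.range L,
        ‖(∫ _u in ((y : ℝ) / L)..(((y + 1 : ℕ) : ℝ) / L), e1 (t * ((y : ℝ) / L))) -
          ∫ u in ((y : ℝ) / L)..(((y + 1 : ℕ) : ℝ) / L), e1 (t * u)‖ ≤
        2 * Real.pi * |t| / L * (1 / L) := by
      intro y _
      rw [← intervalIntegral.integral_sub (intervalIntegrable_const) (hcont.intervalIntegrable _ _)]
      have h4 : ((y + 1 : ℕ) : ℝ) / L - (y : ℝ) / L = 1 / L := by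
        push_cast
        field_simp
        ring
      have hle : (y : ℝ) / L ≤ ((y + 1 : ℕ) : ℝ) / L := by
        have : (0 : ℝ) < 1 / L := by positivity
        linarith
      have h6 := intervalIntegral.norm_integral_le_of_norm_le_const (a := (y : ℝ) / L)
        (b := ((y + 1 : ℕ) : ℝ) / L) (C := 2 * Real.pi * |t| / L)
        (f := fun u => e1 (t * ((y : ℝ) / L)) - e1 (t * u)) (by
          intro u hu
          rw [Set.uIoc_of_le hle] at hu
          refine (A3a_lip _ _).trans ?_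
          rw [← mul_sub, abs_mul]
          have h7 : |(y : ℝ) / L - u| ≤ 1 / L := by
            rw [abs_sub_comm, abs_of_nonneg (by linarith [hu.1])]
            linarith [hu.2]
          calc 2 * Real.pi * (|t| * |(y : ℝ) / L - u|) ≤ 2 * Real.pi * (|t| * (1 / L)) := by
                gcongr
            _ = 2 * Real.pi * |t| / L := by ring)
      refine h6.trans_eq ?_
      have h8 : (0 : ℝ) < 1 / L := by positivity
      rw [h4, abs_of_pos h8]
    refine (Finset.sum_le_sum h5).trans_eq ?_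
    rw [Finset.sum_const, Finset.card_range, nsmul_eq_mul]
    field_simp
  rw [tendsto_iff_norm_sub_tendsto_zero]
  refine squeeze_zero' (Eventually.of_forall fun _ => norm_nonneg _) ?_
    (tendsto_const_div_atTop_nhds_zero_nat (2 * Real.pi * |t|))
  filter_upwards [eventually_gt_atTop 0] with L hL
  exact hb L hL

private lemma A3a_diff (t : ℝ) (d : ℤ) (L : ℕ) :
    ‖(∑ y ∈ Finset.Ico (max 0 (-d)) (min (L : ℤ) (L - d)), e1 (t * ((y : ℝ) / L))) -
      ∑ y ∈ Finset.range L, e1 (t * ((y : ℝ) / L))‖ ≤ |(d : ℝ)| := by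
  have h1 : ∑ y ∈ Finset.range L, e1 (t * ((y : ℝ) / L)) =
      ∑ y ∈ Finset.Ico (0 : ℤ) L, e1 (t * ((y : ℝ) / L)) := by
    refine Finset.sum_bij (fun (y : ℕ) _ => (y : ℤ)) (fun y hy => ?_) (fun a _ b _ h => ?_)
      (fun z hz => ?_) (fun y _ => ?_)
    · rw [Finset.mem_Ico]
      rw [Finset.mem_range] at hy
      omega
    · exact_mod_cast h
    · rw [Finset.mem_Ico] at hz
      refine ⟨z.toNat, ?_, ?_⟩
      · rw [Finset.mem_range]
        omega
      · omega
    · rw [Int.cast_natCast]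
  have hsub : Finset.Ico (max 0 (-d)) (min (L : ℤ) (L - d)) ⊆ Finset.Ico (0 : ℤ) L :=
    Finset.Ico_subset_Ico (le_max_left _ _) (min_le_left _ _)
  rw [h1, ← Finset.sum_sdiff hsub, sub_add_cancel_right, norm_neg]
  refine (norm_sum_le _ _).trans ?_
  simp only [norm_e1]
  rw [Finset.sum_const, nsmul_eq_mul, mul_one]
  have h3 : (Finset.Ico (0 : ℤ) L \ Finset.Ico (max 0 (-d)) (min (L : ℤ) (L - d))).card ≤
      d.natAbs := by
    rw [Finset.card_sdiff_of_subset hsub, Int.card_Ico, Int.card_Ico]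
    omega
  have h4 : (d.natAbs : ℝ) = |(d : ℝ)| := by
    rw [Nat.cast_natAbs, Int.cast_abs]
  rw [← h4]
  exact_mod_cast h3

theorem tendsto_riemann (t : ℝ) (d : ℤ) :
    Tendsto (fun L : ℕ => (∑ y ∈ Finset.Ico (max 0 (-d)) (min (L : ℤ) (L - d)),
      e1 (t * ((y : ℝ) / L))) / (L : ℂ)) atTop (𝓝 (sg t)) := by
  have h1 : Tendsto (fun L : ℕ => ((∑ y ∈ Finset.Ico (max 0 (-d)) (min (L : ℤ) (L - d)),
      e1 (t * ((y : ℝ) / L))) - ∑ y ∈ Finset.range L, e1 (t * ((y : ℝ) / L))) / (L : ℂ)) atTop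
      (𝓝 0) := by
    refine squeeze_zero_norm (fun L => ?_) (tendsto_const_div_atTop_nhds_zero_nat |(d : ℝ)|)
    rw [norm_div, Complex.norm_natCast]
    exact div_le_div_of_nonneg_right (A3a_diff t d L) (Nat.cast_nonneg L)
  have h2 := h1.add (A3a_full t)
  rw [zero_add] at h2
  refine h2.congr fun L => ?_
  rw [← add_div, sub_add_cancel]

end Vale.Agent.P110F
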