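import Mathlib
import Vale.Agent.Lib.P110F.Defs
import Vale.Agent.Lib.P110F.A3a
import Vale.Agent.Lib.P110F.A3b

namespace Vale.Agent.P110F

open MeasureTheory Filter Topology
open scoped ComplexConjugate ENNReal

variable {n : ℕ}

theorem tendsto_cc (H : Matrix (Fin n) (Fin n) ℝ) (hH : H.IsSymm) (b : Fin n → ℝ)
    (d : Fin n → ℤ) :
    Tendsto (fun L : ℕ => cc H b L d / (L : ℂ) ^ n) atTop (𝓝 (gg H b d)) := by
  have h1 : Tendsto (fun L : ℕ => quad H (fun i => (d i : ℝ)) / (2 * (L : ℝ)) +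
      ∑ i, b i * (d i : ℝ)) atTop (𝓝 (0 + ∑ i, b i * (d i : ℝ))) := by
    refine Tendsto.add ?_ tendsto_const_nhds
    have h2 : Tendsto (fun L : ℕ => 2 * (L : ℝ)) atTop atTop :=
      (tendsto_natCast_atTop_atTop).const_mul_atTop (by norm_num)
    exact tendsto_const_nhds.div_atTop h2
  rw [zero_add] at h1
  have h3 := (continuous_e1.tendsto _).comp h1
  have h4 : Tendsto (fun L : ℕ => ∏ i, ((∑ y ∈ Finset.Ico (max 0 (-d i)) (min (L : ℤ) (L - d i)),
      e1 ((∑ j, H i j * (d j : ℝ)) * ((y : ℝ) / L))) / (L : ℂ))) atTop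
      (𝓝 (∏ i, sg (∑ j, H i j * (d j : ℝ)))) :=
    tendsto_finsetProd _ fun i _ => tendsto_riemann _ _
  refine (h3.mul h4).congr' ?_
  filter_upwards [eventually_gt_atTop 0] with L hL
  rw [cc_eq_prod H hH b hL d, Function.comp_apply, Finset.prod_div_distrib]
  simp only [Finset.prod_const, Finset.card_univ, Fintype.card_fin]
  rw [mul_div_assoc]

end Vale.Agent.P110F
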