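import Mathlib
import Vale.Agent.Lib.P110F.Defs

/-!
P110F: bound for a geometric sum of exponentials.
-/

namespace Vale.Agent.P110F

open MeasureTheory Filter Topology
open scoped ComplexConjugate ENNReal

/-- Jordan's inequality for `1 - e1 α`. -/
lemma four_abs_le_norm_one_sub_e1 {α : ℝ} (hα : |α| ≤ 1 / 2) : 4 * |α| ≤ ‖1 - e1 α‖ := by
  have h1 : ‖1 - e1 α‖ = ‖2 * Real.sin (Real.pi * α)‖ := by
    have h := Complex.norm_exp_I_mul_ofReal_sub_one (2 * Real.pi * α)
    rw [norm_sub_rev]
    have h2 : e1 α = Complex.exp (Complex.I * ((2 * Real.pi * α : ℝ) : ℂ)) := by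
      unfold e1
      congr 1
      push_cast
      ring
    rw [h2, h]
    congr 3
    ring
  rw [h1, norm_mul, Real.norm_eq_abs, Real.norm_eq_abs, abs_of_pos (by norm_num : (0 : ℝ) < 2)]
  have hpi := Real.pi_pos
  have h3 : |Real.sin (Real.pi * α)| = Real.sin (Real.pi * |α|) := by
    rcases le_total 0 α with h | h
    · rw [abs_of_nonneg h]
      apply abs_of_nonneg
      apply Real.sin_nonneg_of_nonneg_of_le_pi
      · positivity
      · rw [abs_of_nonneg h] at hα
        nlinarith
    · rw [abs_of_nonpos h] at hα ⊢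
      rw [← abs_neg, ← Real.sin_neg, ← mul_neg]
      apply abs_of_nonneg
      apply Real.sin_nonneg_of_nonneg_of_le_pi
      · apply mul_nonneg hpi.le
        linarith
      · nlinarith
  rw [h3]
  have h4 := Real.mul_le_sin (x := Real.pi * |α|) (by positivity) (by nlinarith)
  have h5 : 2 / Real.pi * (Real.pi * |α|) = 2 * |α| := by
    field_simp
  rw [h5] at h4
  linarith

theorem norm_geom_le {L : ℕ} (hL : 0 < L) (a b : ℤ) (hab : b - a ≤ L) {t : ℝ}
    (ht : |t| ≤ L / 2) :
    ‖∑ y ∈ Finset.Ico a b, e1 (t * ((y : ℝ) / L))‖ ≤ L * (1 / max 1 (2 * |t|)) := by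
  have hL' : (0 : ℝ) < L := by exact_mod_cast hL
  rcases le_or_gt (2 * |t|) 1 with h | h
  · rw [max_eq_left h, div_one, mul_one]
    calc ‖∑ y ∈ Finset.Ico a b, e1 (t * ((y : ℝ) / L))‖
        ≤ ∑ y ∈ Finset.Ico a b, ‖e1 (t * ((y : ℝ) / L))‖ := norm_sum_le _ _
      _ = ((Finset.Ico a b).card : ℝ) := by simp [norm_e1]
      _ ≤ L := by
          rw [Int.card_Ico]
          have : (b - a).toNat ≤ L := by omega
          exact_mod_cast this
  · rw [max_eq_right h.le]
    rcases le_or_gt b a with hba | hba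
    · rw [Finset.Ico_eq_empty (by omega)]
      simp only [Finset.sum_empty, norm_zero]
      positivity
    have key : (∑ y ∈ Finset.Ico a b, e1 (t * ((y : ℝ) / L))) * (1 - e1 (t / L)) =
        e1 (t * ((a : ℝ) / L)) - e1 (t * ((b : ℝ) / L)) := by
      have hstep : ∀ y : ℤ, e1 (t * ((y : ℝ) / L)) * (1 - e1 (t / L)) =
          e1 (t * ((y : ℝ) / L)) - e1 (t * (((y + 1 : ℤ) : ℝ) / L)) := by
        intro y
        rw [mul_sub, mul_one, ← e1_add]
        congr 2
        push_cast
        ring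
      obtain ⟨n, hn⟩ : ∃ n : ℕ, b = a + n := ⟨(b - a).toNat, by omega⟩
      subst hn
      clear hab hba
      induction n with
      | zero => simp
      | succ n ih =>
        have h6 : Finset.Ico a (a + ((n + 1 : ℕ) : ℤ)) =
            insert (a + (n : ℤ)) (Finset.Ico a (a + (n : ℤ))) := by
          ext z
          simp only [Finset.mem_Ico, Finset.mem_insert]
          push_cast
          omega
        rw [h6, Finset.sum_insert (by simp), add_mul, ih, hstep]
        push_cast
        ring_nf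
    have hα : |t / L| ≤ 1 / 2 := by
      rw [abs_div, abs_of_pos hL', div_le_iff₀ hL']
      linarith
    have hj := four_abs_le_norm_one_sub_e1 hα
    have hle : ‖∑ y ∈ Finset.Ico a b, e1 (t * ((y : ℝ) / L))‖ * ‖1 - e1 (t / L)‖ ≤ 2 := by
      rw [← norm_mul, key]
      refine (norm_sub_le _ _).trans ?_
      rw [norm_e1, norm_e1]
      norm_num
    rw [abs_div, abs_of_pos hL'] at hj
    have h7 : ‖∑ y ∈ Finset.Ico a b, e1 (t * ((y : ℝ) / L))‖ * (4 * (|t| / L)) ≤ 2 :=
      (mul_le_mul_of_nonneg_left hj (norm_nonneg _)).trans hle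
    have ht0 : 0 < |t| := by linarith
    rw [mul_one_div, le_div_iff₀ (by positivity)]
    have h8 : ‖∑ y ∈ Finset.Ico a b, e1 (t * ((y : ℝ) / L))‖ * (4 * (|t| / L)) =
        (‖∑ y ∈ Finset.Ico a b, e1 (t * ((y : ℝ) / L))‖ * (2 * |t|)) * (2 / L) := by
      ring
    rw [h8, mul_div_assoc', div_le_iff₀ hL'] at h7
    linarith

end Vale.Agent.P110F
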