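import Mathlib
import Vale.Agent.Lib.P110F.Defs
import Vale.Agent.Lib.P110F.A3b
import Vale.Agent.Lib.P110F.A4a

/-!
P110F: bound for the coefficients of the squared modulus of the exponential sum.
-/

namespace Vale.Agent.P110F

open MeasureTheory Filter Topology
open scoped ComplexConjugate ENNReal

variable {n : ℕ}

theorem norm_cc_le (H : Matrix (Fin n) (Fin n) ℝ) (hH : H.IsSymm)
    (hrow : ∀ i, ∑ j, |H i j| ≤ 1 / 2) (b : Fin n → ℝ) {L : ℕ} (hL : 0 < L)
    (d : Fin n → ℤ) (hd : d ∈ dbox n L) :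
    ‖cc H b L d‖ ≤ (L : ℝ) ^ n * wt H d := by
  have hLr : (0 : ℝ) < L := by exact_mod_cast hL
  have hdj : ∀ j, |(d j : ℝ)| ≤ L := by
    intro j
    unfold dbox at hd
    rw [Fintype.mem_piFinset] at hd
    have h := Finset.mem_Ioo.1 (hd j)
    rw [abs_le]
    constructor
    · exact_mod_cast h.1.le
    · exact_mod_cast h.2.le
  have ht : ∀ i, |∑ j, H i j * (d j : ℝ)| ≤ (L : ℝ) / 2 := by
    intro i
    calc |∑ j, H i j * (d j : ℝ)| ≤ ∑ j, |H i j * (d j : ℝ)| := Finset.abs_sum_le_sum_abs _ _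
      _ ≤ ∑ j, |H i j| * L := by
          refine Finset.sum_le_sum fun j _ => ?_
          rw [abs_mul]
          exact mul_le_mul_of_nonneg_left (hdj j) (abs_nonneg _)
      _ = (∑ j, |H i j|) * L := by rw [Finset.sum_mul]
      _ ≤ 1 / 2 * L := mul_le_mul_of_nonneg_right (hrow i) hLr.le
      _ = (L : ℝ) / 2 := by ring
  rw [cc_eq_prod H hH b hL d, norm_mul, norm_e1, one_mul, norm_prod]
  have hw : (L : ℝ) ^ n * wt H d =
      ∏ i, ((L : ℝ) * (1 / max 1 (2 * |∑ j, H i j * (d j : ℝ)|))) := by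
    unfold wt
    rw [Finset.prod_mul_distrib, Finset.prod_const, Finset.card_univ, Fintype.card_fin]
  rw [hw]
  refine Finset.prod_le_prod (fun i _ => norm_nonneg _) fun i _ => ?_
  refine norm_geom_le hL _ _ ?_ (ht i)
  have h1 : min (L : ℤ) (L - d i) ≤ L := min_le_left _ _
  have h2 : (0 : ℤ) ≤ max 0 (-d i) := le_max_left _ _
  linarith

end Vale.Agent.P110F
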