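import Mathlib
import Vale.Agent.Lib.P110F.Defs
import Vale.Agent.Lib.P110F.A2b
import Vale.Agent.Lib.P110F.A3
import Vale.Agent.Lib.P110F.A4
import Vale.Agent.Lib.P110F.A5
import Vale.Agent.Lib.P110F.A5b

namespace Vale.Agent.P110F

open MeasureTheory Filter Topology
open scoped ComplexConjugate ENNReal

variable {n : ℕ}

private lemma A6_wt_nonneg (H : Matrix (Fin n) (Fin n) ℝ) (d : Fin n → ℤ) : 0 ≤ wt H d := by
  unfold wt
  exact Finset.prod_nonneg fun i _ => by positivity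

private lemma A6_symm {A : Matrix (Fin n) (Fin n) ℤ} (hs : A.IsSymm) (c : ℝ) :
    (scl c A).IsSymm := by
  refine Matrix.IsSymm.ext fun i j => ?_
  unfold scl
  rw [hs.apply i j]

private lemma A6_mem_dbox (d : Fin n → ℤ) : ∀ᶠ L : ℕ in atTop, d ∈ dbox n L := by
  have h : ∀ i : Fin n, ∀ᶠ L : ℕ in atTop, -(L : ℤ) < d i ∧ d i < (L : ℤ) := by
    intro i
    filter_upwards [eventually_gt_atTop ((d i).natAbs)] with L hL
    omega
  have h2 := (Filter.eventually_all (ι := Fin n)).2 h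
  filter_upwards [h2] with L hL
  unfold dbox
  rw [Fintype.mem_piFinset]
  intro i
  rw [Finset.mem_Ioo]
  exact hL i

theorem tendsto_moment {c c' : ℝ} (hc : 0 < c) (hc' : 0 < c')
    (A A' : Matrix (Fin n) (Fin n) ℤ) (hA : A.det ≠ 0) (hA' : A'.det ≠ 0)
    (hs : A.IsSymm) (hs' : A'.IsSymm)
    (hrow : ∀ i, ∑ j, |scl c A i j| ≤ 1 / 2) (hrow' : ∀ i, ∑ j, |scl c' A' i j| ≤ 1 / 2)
    (b b' : Fin n → ℝ) :
    Tendsto (fun L : ℕ => (∫ x in (0 : ℝ)..1, ‖SS (scl c A) b L x‖ ^ 2 *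
      ‖SS (scl c' A') b' L x‖ ^ 2) / ((L : ℝ) ^ n) ^ 2) atTop
      (𝓝 (∑' d : Fin n → ℤ, gg (scl c A) b d * conj (gg (scl c' A') b' d)).re) := by
  classical
  set H := scl c A with hH
  set H' := scl c' A' with hH'
  let f : ℕ → (Fin n → ℤ) → ℂ := fun L d => if d ∈ dbox n L then
    (cc H b L d / (L : ℂ) ^ n) * conj (cc H' b' L d / (L : ℂ) ^ n) else 0
  have hsum : Summable fun d : Fin n → ℤ => wt H d * wt H' d := by
    have h1 := (summable_wt hc A hA).add (summable_wt hc' A' hA')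
    refine Summable.of_nonneg_of_le
      (fun d => mul_nonneg (A6_wt_nonneg H d) (A6_wt_nonneg H' d)) (fun d => ?_) h1
    have h2 := sq_nonneg (wt H d - wt H' d)
    have h3 := sq_nonneg (wt H d)
    have h4 := sq_nonneg (wt H' d)
    change wt H d * wt H' d ≤ wt H d ^ 2 + wt H' d ^ 2
    nlinarith
  have hlim : ∀ d, Tendsto (fun L => f L d) atTop (𝓝 (gg H b d * conj (gg H' b' d))) := by
    intro d
    have h1 := (tendsto_cc H (A6_symm hs c) b d).mul
      ((Complex.continuous_conj.tendsto _).comp (tendsto_cc H' (A6_symm hs' c') b' d))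
    refine h1.congr' ?_
    filter_upwards [A6_mem_dbox d] with L hL
    change _ = if d ∈ dbox n L then _ else _
    rw [if_pos hL]
    rfl
  have hbd : ∀ᶠ L : ℕ in atTop, ∀ d, ‖f L d‖ ≤ wt H d * wt H' d := by
    filter_upwards [eventually_gt_atTop 0] with L hL d
    change ‖if d ∈ dbox n L then _ else _‖ ≤ _
    split_ifs with hd
    · have hL' : (0 : ℝ) < (L : ℝ) ^ n := by positivity
      have h1 : ‖cc H b L d / (L : ℂ) ^ n‖ ≤ wt H d := by
        rw [norm_div, norm_pow, Complex.norm_natCast, div_le_iff₀ hL', mul_comm]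
        exact norm_cc_le H (A6_symm hs c) hrow b hL d hd
      have h2 : ‖cc H' b' L d / (L : ℂ) ^ n‖ ≤ wt H' d := by
        rw [norm_div, norm_pow, Complex.norm_natCast, div_le_iff₀ hL', mul_comm]
        exact norm_cc_le H' (A6_symm hs' c') hrow' b' hL d hd
      rw [norm_mul, RCLike.norm_conj]
      exact mul_le_mul h1 h2 (norm_nonneg _) (A6_wt_nonneg H d)
    · rw [norm_zero]
      exact mul_nonneg (A6_wt_nonneg H d) (A6_wt_nonneg H' d)
  have hT := tendsto_tsum_of_dominated_convergence hsum hlim hbd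
  have hre := (Complex.continuous_re.tendsto _).comp hT
  refine hre.congr' ?_
  filter_upwards [eventually_gt_atTop 0] with L hL
  have h1 : ∑' d, f L d = ((∫ x in (0 : ℝ)..1, ‖SS H b L x‖ ^ 2 * ‖SS H' b' L x‖ ^ 2 : ℝ) : ℂ) /
      ((L : ℂ) ^ n) ^ 2 := by
    rw [integral_normSq_mul hL, Finset.sum_div, tsum_eq_sum (s := dbox n L)]
    · refine Finset.sum_congr rfl fun d hd => ?_
      change (if d ∈ dbox n L then _ else _) = _
      rw [if_pos hd, map_div₀, map_pow, Complex.conj_natCast]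
      ring
    · intro d hd
      exact if_neg hd
  change (∑' d, f L d).re = _
  rw [h1]
  have h2 : ((∫ x in (0 : ℝ)..1, ‖SS H b L x‖ ^ 2 * ‖SS H' b' L x‖ ^ 2 : ℝ) : ℂ) /
      ((L : ℂ) ^ n) ^ 2 = (((∫ x in (0 : ℝ)..1, ‖SS H b L x‖ ^ 2 * ‖SS H' b' L x‖ ^ 2) /
        ((L : ℝ) ^ n) ^ 2 : ℝ) : ℂ) := by
    push_cast
    rfl
  rw [h2, Complex.ofReal_re]

end Vale.Agent.P110F
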