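import Mathlib
import Vale.Agent.Lib.P110F.Defs

namespace Vale.Agent.P110F

open MeasureTheory Filter Topology
open scoped ComplexConjugate ENNReal

theorem K1_nonneg (R : ℕ) (t : ℝ) : 0 ≤ K1 R t := by
  unfold K1
  positivity

theorem K1_add_int (R : ℕ) (t : ℝ) (z : ℤ) : K1 R (t + z) = K1 R t := by
  unfold K1
  congr 3
  refine Finset.sum_congr rfl fun r _ => ?_
  have h1 : ((r : ℝ) * (t + z)) = (r : ℝ) * t + (((r : ℤ) * z : ℤ) : ℝ) := by
    push_cast
    ring
  rw [h1, e1_add, e1_int, mul_one]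

theorem continuous_K1 (R : ℕ) : Continuous (K1 R) := by
  unfold K1
  have h := continuous_e1
  fun_prop

private theorem F0_card {R : ℕ} {d : ℤ} (hd : d ∈ Finset.Ioo (-(R : ℤ)) R) :
    ((((Finset.range R ×ˢ Finset.range R).filter
      fun p : ℕ × ℕ => (p.1 : ℤ) - p.2 = d).card : ℕ) : ℝ) = R - |(d : ℝ)| := by
  rw [Finset.mem_Ioo] at hd
  rcases le_total 0 d with h | h
  · obtain ⟨m, rfl⟩ := Int.eq_ofNat_of_zero_le h
    have h1 : (Finset.range R ×ˢ Finset.range R).filter
        (fun p : ℕ × ℕ => (p.1 : ℤ) - p.2 = m) =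
        (Finset.range (R - m)).image fun k => (k + m, k) := by
      ext ⟨a, b⟩
      simp only [Finset.mem_filter, Finset.mem_product, Finset.mem_range, Finset.mem_image,
        Prod.mk.injEq]
      constructor
      · rintro ⟨⟨h1, h2⟩, h3⟩
        exact ⟨b, by omega, by omega, rfl⟩
      · rintro ⟨k, h1, h2, h3⟩
        omega
    rw [h1, Finset.card_image_of_injective _ (fun a b hab => (Prod.mk.inj hab).2),
      Finset.card_range, Nat.cast_sub (by omega)]
    simp
  · obtain ⟨m, hm⟩ := Int.eq_ofNat_of_zero_le (neg_nonneg.2 h)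
    have hd2 : d = -(m : ℤ) := by omega
    subst hd2
    have h1 : (Finset.range R ×ˢ Finset.range R).filter
        (fun p : ℕ × ℕ => (p.1 : ℤ) - p.2 = -(m : ℤ)) =
        (Finset.range (R - m)).image fun k => (k, k + m) := by
      ext ⟨a, b⟩
      simp only [Finset.mem_filter, Finset.mem_product, Finset.mem_range, Finset.mem_image,
        Prod.mk.injEq]
      constructor
      · rintro ⟨⟨h1, h2⟩, h3⟩
        exact ⟨a, by omega, rfl, by omega⟩
      · rintro ⟨k, h1, h2, h3⟩
        omega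
    rw [h1, Finset.card_image_of_injective _ (fun a b hab => (Prod.mk.inj hab).1),
      Finset.card_range, Nat.cast_sub (by omega)]
    simp

theorem K1_eq {R : ℕ} (hR : 0 < R) (t : ℝ) :
    ((K1 R t : ℝ) : ℂ) = ∑ d ∈ Finset.Ioo (-(R : ℤ)) R, ((1 - |(d : ℝ)| / R : ℝ) : ℂ) *
      e1 (d * t) := by
  have hR' : (R : ℝ) ≠ 0 := by positivity
  have h1 : ((‖∑ r ∈ Finset.range R, e1 ((r : ℝ) * t)‖ ^ 2 : ℝ) : ℂ) =
      ∑ p ∈ Finset.range R ×ˢ Finset.range R, e1 ((((p.1 : ℤ) - p.2 : ℤ) : ℝ) * t) := by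
    push_cast
    rw [← Complex.mul_conj', map_sum, Finset.sum_mul_sum, Finset.sum_product]
    refine Finset.sum_congr rfl fun r _ => Finset.sum_congr rfl fun s _ => ?_
    rw [← e1_neg, ← e1_add]
    congr 1
    push_cast
    ring
  have h2 : ∑ p ∈ Finset.range R ×ˢ Finset.range R, e1 ((((p.1 : ℤ) - p.2 : ℤ) : ℝ) * t) =
      ∑ d ∈ Finset.Ioo (-(R : ℤ)) R, ((R - |(d : ℝ)| : ℝ) : ℂ) * e1 (d * t) := by
    rw [← Finset.sum_fiberwise_of_maps_to (t := Finset.Ioo (-(R : ℤ)) R)
      (g := fun p : ℕ × ℕ => (p.1 : ℤ) - p.2)]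
    · refine Finset.sum_congr rfl fun d hd => ?_
      rw [Finset.sum_congr rfl (g := fun _ => e1 (d * t)), Finset.sum_const, nsmul_eq_mul]
      · rw [← F0_card hd]
        push_cast
        rfl
      · intro p hp
        rw [(Finset.mem_filter.1 hp).2]
    · intro p hp
      simp only [Finset.mem_product, Finset.mem_range] at hp
      rw [Finset.mem_Ioo]
      omega
  unfold K1
  rw [Complex.ofReal_div, h1, h2, Finset.sum_div]
  refine Finset.sum_congr rfl fun d _ => ?_
  have h3 : (1 - |(d : ℝ)| / R : ℝ) = (R - |(d : ℝ)|) / R := by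
    field_simp
  rw [h3, Complex.ofReal_div]
  ring

theorem integral_K1 {R : ℕ} (hR : 0 < R) : ∫ t in (0 : ℝ)..1, K1 R t = 1 := by
  have h1 : ((∫ t in (0 : ℝ)..1, K1 R t : ℝ) : ℂ) = 1 := by
    rw [← intervalIntegral.integral_ofReal]
    simp_rw [K1_eq hR]
    rw [intervalIntegral.integral_finsetSum]
    · simp_rw [intervalIntegral.integral_const_mul, integral_e1_int]
      rw [Finset.sum_eq_single (0 : ℤ)]
      · simp
      · intro d _ hd
        rw [if_neg hd, mul_zero]
      · intro h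
        exact absurd (Finset.mem_Ioo.2 ⟨by omega, by omega⟩) h
    · intro d _
      refine Continuous.intervalIntegrable ?_ _ _
      have h := continuous_e1
      fun_prop
  exact_mod_cast h1

end Vale.Agent.P110F
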