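import Mathlib
import Vale.Agent.Lib.P110F.Defs
import Vale.Agent.Lib.P110F.F0

namespace Vale.Agent.P110F

open MeasureTheory Filter Topology
open scoped ComplexConjugate ENNReal

variable {n : ℕ}

private theorem F2_e1_sum {ι : Type} (s : Finset ι) (f : ι → ℝ) :
    e1 (∑ i ∈ s, f i) = ∏ i ∈ s, e1 (f i) := by
  classical
  induction s using Finset.induction_on with
  | empty => simp [e1_zero]
  | insert a s ha ih => rw [Finset.sum_insert ha, Finset.prod_insert ha, e1_add, ih]

/-- the exponential of the affine image of `u` -/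
private noncomputable def F2F (H : Matrix (Fin n) (Fin n) ℝ) (b : Fin n → ℝ) (d : Fin n → ℤ)
    (u : Fin n → ℝ) : ℂ := e1 (∑ i, (d i : ℝ) * (b i + ∑ j, H i j * u j))

private theorem F2_cont (H : Matrix (Fin n) (Fin n) ℝ) (b : Fin n → ℝ) (d : Fin n → ℤ) :
    Continuous (F2F H b d) := by
  unfold F2F
  refine continuous_e1.comp ?_
  fun_prop

private theorem F2_norm (H : Matrix (Fin n) (Fin n) ℝ) (b : Fin n → ℝ) (d : Fin n → ℤ)
    (u : Fin n → ℝ) : ‖F2F H b d u‖ = 1 := norm_e1 _

private theorem F2_cube_restrict :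
    (volume : Measure (Fin n → ℝ)).restrict (cube n) =
      Measure.pi (fun _ : Fin n => (volume : Measure ℝ).restrict (Set.Icc (0 : ℝ) 1)) := by
  unfold cube
  rw [volume_pi, Measure.restrict_pi_pi]

private theorem F2_integrable (H : Matrix (Fin n) (Fin n) ℝ) (b : Fin n → ℝ) (d : Fin n → ℤ) :
    Integrable (F2F H b d) ((volume : Measure (Fin n → ℝ)).restrict (cube n)) := by
  have hfin : IsFiniteMeasure ((volume : Measure (Fin n → ℝ)).restrict (cube n)) := by
    rw [F2_cube_restrict]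
    infer_instance
  refine Integrable.of_bound (F2_cont H b d).aestronglyMeasurable 1 ?_
  exact Filter.Eventually.of_forall fun u => (F2_norm H b d u).le

private theorem F2_int (H : Matrix (Fin n) (Fin n) ℝ) (hH : H.IsSymm) (b : Fin n → ℝ)
    (d : Fin n → ℤ) : ∫ u in cube n, F2F H b d u = gg H b d := by
  have h1 : ∀ u : Fin n → ℝ, F2F H b d u = e1 (∑ i, b i * (d i : ℝ)) *
      ∏ j, e1 ((∑ i, H j i * (d i : ℝ)) * u j) := by
    intro u
    unfold F2F
    rw [← F2_e1_sum, ← e1_add]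
    congr 1
    have h2 : ∑ i, (d i : ℝ) * (b i + ∑ j, H i j * u j) =
        ∑ i, b i * (d i : ℝ) + ∑ i, ∑ j, (d i : ℝ) * (H i j * u j) := by
      rw [← Finset.sum_add_distrib]
      refine Finset.sum_congr rfl fun i _ => ?_
      rw [mul_add, Finset.mul_sum, mul_comm]
    rw [h2, Finset.sum_comm]
    congr 1
    refine Finset.sum_congr rfl fun j _ => ?_
    rw [Finset.sum_mul]
    refine Finset.sum_congr rfl fun i _ => ?_
    rw [hH.apply i j]
    ring
  simp_rw [h1]
  rw [integral_const_mul, F2_cube_restrict,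
    integral_fintype_prod_eq_prod (fun (j : Fin n) (x : ℝ) =>
      e1 ((∑ i, H j i * (d i : ℝ)) * x))]
  unfold gg sg
  congr 1
  refine Finset.prod_congr rfl fun j _ => ?_
  rw [integral_Icc_eq_integral_Ioc, intervalIntegral.integral_of_le zero_le_one]

private theorem F2_prod {R : ℕ} (hR : 0 < R) (H H' : Matrix (Fin n) (Fin n) ℝ)
    (b b' : Fin n → ℝ) (u u' : Fin n → ℝ) :
    ((∏ i, K1 R ((b i + ∑ j, H i j * u j) - (b' i + ∑ j, H' i j * u' j)) : ℝ) : ℂ) =
      ∑ d ∈ dbox n R, (((∏ i, (1 - |(d i : ℝ)| / R) : ℝ) : ℂ) * F2F H b d u) *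
        conj (F2F H' b' d u') := by
  rw [Complex.ofReal_prod, Finset.prod_congr rfl (fun i _ => K1_eq hR _), Finset.prod_univ_sum]
  unfold dbox
  refine Finset.sum_congr rfl fun d _ => ?_
  rw [Finset.prod_mul_distrib, Complex.ofReal_prod]
  rw [mul_assoc]
  congr 1
  unfold F2F
  rw [← e1_neg, ← e1_add, ← F2_e1_sum]
  congr 1
  rw [← sub_eq_add_neg, ← Finset.sum_sub_distrib]
  refine Finset.sum_congr rfl fun i _ => ?_
  ring

theorem fejer_mean {R : ℕ} (hR : 0 < R) (H H' : Matrix (Fin n) (Fin n) ℝ) (hH : H.IsSymm)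
    (hH' : H'.IsSymm) (b b' : Fin n → ℝ) :
    ∑ d ∈ dbox n R, ((∏ i, (1 - |(d i : ℝ)| / R) : ℝ) : ℂ) *
      (gg H b d * conj (gg H' b' d)) =
      ((∫ u in cube n, ∫ u' in cube n, ∏ i, K1 R ((b i + ∑ j, H i j * u j) -
        (b' i + ∑ j, H' i j * u' j)) : ℝ) : ℂ) := by
  rw [← integral_complex_ofReal]
  simp_rw [← integral_complex_ofReal, F2_prod hR H H' b b']
  have hconj : ∀ d : Fin n → ℤ, Integrable (fun u' => conj (F2F H' b' d u'))
      ((volume : Measure (Fin n → ℝ)).restrict (cube n)) := by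
    intro d
    exact (F2_integrable H' b' d).norm.mono' 
      ((Complex.continuous_conj.comp (F2_cont H' b' d)).aestronglyMeasurable)
      (Filter.Eventually.of_forall fun u => by simp)
  have h1 : ∀ u : Fin n → ℝ, ∫ u' in cube n, ∑ d ∈ dbox n R,
      (((∏ i, (1 - |(d i : ℝ)| / R) : ℝ) : ℂ) * F2F H b d u) * conj (F2F H' b' d u') =
      ∑ d ∈ dbox n R, (((∏ i, (1 - |(d i : ℝ)| / R) : ℝ) : ℂ) * conj (gg H' b' d)) *
        F2F H b d u := by
    intro u
    rw [integral_finset_sum _ (fun d _ => (hconj d).const_mul _)]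
    refine Finset.sum_congr rfl fun d _ => ?_
    rw [integral_const_mul, integral_conj, F2_int H' hH']
    ring
  simp_rw [h1]
  rw [integral_finset_sum _ (fun d _ => (F2_integrable H b d).const_mul _)]
  refine Finset.sum_congr rfl fun d _ => ?_
  rw [integral_const_mul, F2_int H hH]
  ring

end Vale.Agent.P110F
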