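import Mathlib
import Vale.Agent.Lib.P110F.Defs
import Vale.Agent.Lib.P110F.F0

/-! Bound of the one dimensional Fejer kernel away from the integers. -/

namespace Vale.Agent.P110F

open MeasureTheory Filter Topology
open scoped ComplexConjugate ENNReal

private lemma F1_sin {η : ℝ} (t : ℝ) (ht : ∀ z : ℤ, η ≤ |t - z|) :
    2 * η ≤ |Real.sin (Real.pi * t)| := by
  have hs : |t - round t| ≤ 1 / 2 := abs_sub_round t
  have hη := ht (round t)
  have hpi := Real.pi_pos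
  have h1 : Real.sin (Real.pi * t) =
      (-1) ^ (round t) * Real.sin (Real.pi * (t - round t)) := by
    rw [← Real.sin_add_int_mul_pi]
    ring_nf
  have h2 : |Real.sin (Real.pi * t)| = |Real.sin (Real.pi * (t - round t))| := by
    rw [h1, abs_mul, abs_zpow, abs_neg, abs_one, one_zpow, one_mul]
  have h3 : |Real.pi * (t - round t)| = Real.pi * |t - round t| := by
    rw [abs_mul, abs_of_pos hpi]
  have h4 : |Real.sin (Real.pi * (t - round t))| = Real.sin (Real.pi * |t - round t|) := by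
    rw [← h3]
    apply Real.abs_sin_eq_sin_abs_of_abs_le_pi
    rw [h3]
    nlinarith
  have h5 : 2 / Real.pi * (Real.pi * |t - round t|) ≤ Real.sin (Real.pi * |t - round t|) := by
    apply Real.mul_le_sin
    · positivity
    · nlinarith
  have h6 : 2 / Real.pi * (Real.pi * |t - round t|) = 2 * |t - round t| := by
    field_simp
  rw [h2, h4]
  linarith

private lemma F1_norm {η : ℝ} (t : ℝ) (ht : ∀ z : ℤ, η ≤ |t - z|) :
    4 * η ≤ ‖e1 t - 1‖ := by
  have h := F1_sin t ht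
  have h1 : ‖e1 t - 1‖ = ‖2 * Real.sin (2 * Real.pi * t / 2)‖ := by
    rw [← Complex.norm_exp_I_mul_ofReal_sub_one]
    unfold e1
    rw [show (2 * Real.pi * Complex.I * t : ℂ) = Complex.I * ((2 * Real.pi * t : ℝ) : ℂ) by
      push_cast; ring]
  rw [h1, Real.norm_eq_abs, abs_mul, abs_two, show 2 * Real.pi * t / 2 = Real.pi * t by ring]
  linarith

private lemma F1_pow (r : ℕ) (t : ℝ) : e1 ((r : ℝ) * t) = e1 t ^ r := by
  unfold e1
  rw [← Complex.exp_nat_mul]
  congr 1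
  push_cast
  ring

theorem K1_le {R : ℕ} (hR : 0 < R) {η : ℝ} (hη : 0 < η) (t : ℝ) (ht : ∀ z : ℤ, η ≤ |t - z|) :
    K1 R t ≤ 1 / (4 * R * η ^ 2) := by
  have hR' : (0 : ℝ) < R := by exact_mod_cast hR
  have h4 := F1_norm t ht
  have hpos : 0 < ‖e1 t - 1‖ := by linarith
  have hne : e1 t ≠ 1 := by
    intro h
    rw [h, sub_self, norm_zero] at hpos
    exact lt_irrefl _ hpos
  have hsum : ∑ r ∈ Finset.range R, e1 ((r : ℝ) * t) = (e1 t ^ R - 1) / (e1 t - 1) := by
    rw [← geom_sum_eq hne]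
    exact Finset.sum_congr rfl fun r _ => F1_pow r t
  have hnum : ‖e1 t ^ R - 1‖ ≤ 2 := by
    calc ‖e1 t ^ R - 1‖ ≤ ‖e1 t ^ R‖ + ‖(1 : ℂ)‖ := norm_sub_le _ _
      _ = 2 := by rw [norm_pow, norm_e1, one_pow, norm_one]; norm_num
  have hquot : ‖∑ r ∈ Finset.range R, e1 ((r : ℝ) * t)‖ ≤ 1 / (2 * η) := by
    rw [hsum, norm_div, div_le_div_iff₀ hpos (by positivity)]
    have h0 : 0 ≤ ‖e1 t ^ R - 1‖ := norm_nonneg _
    nlinarith
  have hsq : ‖∑ r ∈ Finset.range R, e1 ((r : ℝ) * t)‖ ^ 2 ≤ (1 / (2 * η)) ^ 2 :=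
    pow_le_pow_left₀ (norm_nonneg _) hquot 2
  unfold K1
  calc ‖∑ r ∈ Finset.range R, e1 ((r : ℝ) * t)‖ ^ 2 / R ≤ (1 / (2 * η)) ^ 2 / R := by
        gcongr
    _ = 1 / (4 * R * η ^ 2) := by
        field_simp
        ring

end Vale.Agent.P110F
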