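import Mathlib
import Vale.Agent.Lib.P110F.Defs

/-! P110F/V1: change of variables along an affine map, for periodic functions. -/

namespace Vale.Agent.P110F

open MeasureTheory Filter Topology

open scoped ComplexConjugate ENNReal Pointwise

variable {n : ℕ}

private theorem V1_fund (n : ℕ) :
    ZSpan.fundamentalDomain (Pi.basisFun ℝ (Fin n)) = hcube n := by
  ext v
  rw [ZSpan.mem_fundamentalDomain]
  simp [hcube, Set.mem_pi]

private theorem V1_periodic (f : (Fin n → ℝ) → ℝ≥0∞)
    (hper : ∀ (v : Fin n → ℝ) (z : Fin n → ℤ), f (fun i => v i + z i) = f v)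
    (c : Fin n → ℝ) :
    ∫⁻ v in (c +ᵥ hcube n : Set (Fin n → ℝ)), f v = ∫⁻ v in hcube n, f v := by
  have hF := ZSpan.isAddFundamentalDomain' (Pi.basisFun ℝ (Fin n))
    (volume : Measure (Fin n → ℝ))
  rw [V1_fund] at hF
  have : Countable ↥(Submodule.span ℤ (Set.range (Pi.basisFun ℝ (Fin n)))).toAddSubgroup :=
    inferInstanceAs (Countable ↥(Submodule.span ℤ (Set.range (Pi.basisFun ℝ (Fin n)))))
  have hF' := hF.vadd_of_comm c
  refine hF'.setLIntegral_eq hF f ?_
  intro g x
  have hg : (g : Fin n → ℝ) ∈ Submodule.span ℤ (Set.range (Pi.basisFun ℝ (Fin n))) := g.2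
  rw [Submodule.mem_span_range_iff_exists_fun] at hg
  obtain ⟨z, hz⟩ := hg
  have h1 : g +ᵥ x = fun i => x i + z i := by
    funext i
    have h2 : (g +ᵥ x) i = (g : Fin n → ℝ) i + x i := rfl
    rw [h2, ← hz]
    simp [Finset.sum_apply, Pi.single_apply, add_comm]
  rw [h1, hper]

theorem lintegral_affine_le (H : Matrix (Fin n) (Fin n) ℝ) (hdet : H.det ≠ 0)
    (hrow : ∀ i, ∑ j, |H i j| ≤ 1 / 4) (w : Fin n → ℝ) (f : (Fin n → ℝ) → ℝ≥0∞)
    (hf : Measurable f) (hper : ∀ (v : Fin n → ℝ) (z : Fin n → ℤ), f (fun i => v i + z i) = f v) :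
    ∫⁻ u in cube n, f (fun i => w i + ∑ j, H i j * u j) ≤
      ENNReal.ofReal (1 / |H.det|) * ∫⁻ v in hcube n, f v := by
  set c : Fin n → ℝ := fun i => w i - 1 / 2 with hc
  set S : Set (Fin n → ℝ) := c +ᵥ hcube n with hS
  have hcube_meas : MeasurableSet (hcube n) :=
    MeasurableSet.univ_pi (fun _ => measurableSet_Ico)
  have hSmeas : MeasurableSet S := hcube_meas.const_vadd c
  have hmemS : ∀ v : Fin n → ℝ, (∀ i, v i - c i ∈ Set.Ico (0 : ℝ) 1) → v ∈ S := by
    intro v hv
    rw [hS, Set.mem_vadd_set_iff_neg_vadd_mem]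
    rw [hcube, Set.mem_pi]
    intro i _
    have : (-c +ᵥ v) i = v i - c i := by
      show (-c + v) i = v i - c i
      simp
      ring
    rw [this]
    exact hv i
  set g : (Fin n → ℝ) → ℝ≥0∞ := S.indicator f with hg
  have hgm : Measurable g := hf.indicator hSmeas
  have hmul : ∀ u : Fin n → ℝ, Matrix.toLin' H u = fun i => ∑ j, H i j * u j := by
    intro u
    funext i
    rw [Matrix.toLin'_apply]
    rfl
  calc ∫⁻ u in cube n, f (fun i => w i + ∑ j, H i j * u j)
      ≤ ∫⁻ u in cube n, g (w + Matrix.toLin' H u) := by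
        refine setLIntegral_mono' (MeasurableSet.univ_pi (fun _ => measurableSet_Icc)) ?_
        intro u hu
        rw [cube, Set.mem_pi] at hu
        have h1 : (fun i => w i + ∑ j, H i j * u j) = w + Matrix.toLin' H u := by
          rw [hmul]
          rfl
        rw [h1, hg, Set.indicator_of_mem]
        refine hmemS _ (fun i => ?_)
        have h2 : (w + Matrix.toLin' H u) i - c i = (∑ j, H i j * u j) + 1 / 2 := by
          rw [hmul, hc]
          simp only [Pi.add_apply]
          ring
        have h3 : |∑ j, H i j * u j| ≤ 1 / 4 := by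
          refine (Finset.abs_sum_le_sum_abs _ _).trans (le_trans ?_ (hrow i))
          refine Finset.sum_le_sum (fun j _ => ?_)
          rw [abs_mul]
          have h4 := hu j (Set.mem_univ j)
          have h5 : |u j| ≤ 1 := by
            rw [abs_of_nonneg h4.1]
            exact h4.2
          exact mul_le_of_le_one_right (abs_nonneg _) h5
        rw [h2]
        have h6 := abs_le.1 h3
        constructor <;> linarith [h6.1, h6.2]
    _ ≤ ∫⁻ u, g (w + Matrix.toLin' H u) := setLIntegral_le_lintegral _ _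
    _ = ∫⁻ v, g (w + v) ∂(Measure.map (Matrix.toLin' H) volume) := by
        rw [lintegral_map]
        · exact hgm.comp (measurable_const_add w)
        · exact (LinearMap.continuous_of_finiteDimensional _).measurable
    _ = ENNReal.ofReal |H.det⁻¹| * ∫⁻ v, g (w + v) := by
        rw [Real.map_matrix_volume_pi_eq_smul_volume_pi hdet, lintegral_smul_measure]
        rfl
    _ = ENNReal.ofReal (1 / |H.det|) * ∫⁻ v in hcube n, f v := by
        rw [lintegral_add_left_eq_self, hg, lintegral_indicator hSmeas, hS,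
          V1_periodic f hper c, abs_inv, one_div]

end Vale.Agent.P110F
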