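import Mathlib
import Vale.Agent.Lib.P110F.Defs
import Vale.Agent.Lib.P110F.F0
import Vale.Agent.Lib.P110F.F1
import Vale.Agent.Lib.P110F.V1

namespace Vale.Agent.P110F

open MeasureTheory Filter Topology
open scoped ComplexConjugate ENNReal

variable {n : ℕ}

private lemma F3_measurableSet_cube (n : ℕ) : MeasurableSet (cube n) := by
  unfold cube
  exact MeasurableSet.univ_pi fun _ => measurableSet_Icc

private lemma F3_isCompact_cube (n : ℕ) : IsCompact (cube n) := by
  unfold cube
  exact isCompact_univ_pi fun _ => isCompact_Icc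

private lemma F3_volume_cube (n : ℕ) : (volume : Measure (Fin n → ℝ)) (cube n) = 1 := by
  unfold cube
  rw [volume_pi_pi]
  simp

private lemma F3_integral_Ico {R : ℕ} (hR : 0 < R) : ∫ t in Set.Ico (0 : ℝ) 1, K1 R t = 1 := by
  rw [← integral_Icc_eq_integral_Ico, integral_Icc_eq_integral_Ioc,
    ← intervalIntegral.integral_of_le zero_le_one]
  exact integral_K1 hR

/-- the set of points whose `i`-th coordinate is far from the integers -/
private def F3_far (n : ℕ) (η : ℝ) (i : Fin n) : Set (Fin n → ℝ) :=
  {v | ∀ z : ℤ, η ≤ |v i - z|}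

private lemma F3_meas_far (n : ℕ) (η : ℝ) (i : Fin n) : MeasurableSet (F3_far n η i) := by
  unfold F3_far
  rw [Set.ofPred_forall]
  refine MeasurableSet.iInter fun z => ?_
  refine measurableSet_le measurable_const ?_
  exact ((measurable_pi_apply i).sub_const _).norm

private lemma F3_lint {R : ℕ} (hR : 0 < R) {η : ℝ} (hη : 0 < η) (i : Fin n) :
    ∫⁻ v in hcube n, (F3_far n η i).indicator
      (fun v => ENNReal.ofReal (∏ j, K1 R (v j))) v ≤ ENNReal.ofReal (1 / (4 * R * η ^ 2)) := by
  classical
  set G : Fin n → ℝ → ℝ := fun j t => if j = i then 1 / (4 * R * η ^ 2) else K1 R t with hG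
  have hGint : ∀ j, Integrable (G j) ((volume : Measure ℝ).restrict (Set.Ico 0 1)) := by
    intro j
    have hc : Continuous (G j) := by
      rw [hG]
      by_cases h : j = i
      · simp only [h, if_true]
        exact continuous_const
      · simp only [h, if_false]
        exact continuous_K1 R
    exact (hc.continuousOn.integrableOn_compact isCompact_Icc).mono_set Set.Ico_subset_Icc_self
  have hG0 : ∀ j t, 0 ≤ G j t := by
    intro j t
    rw [hG]
    by_cases h : j = i
    · simp only [h, if_true]
      positivity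
    · simp only [h, if_false]
      exact K1_nonneg R t
  have hres : (volume : Measure (Fin n → ℝ)).restrict (hcube n) =
      Measure.pi fun _ : Fin n => (volume : Measure ℝ).restrict (Set.Ico 0 1) := by
    unfold hcube
    exact Measure.restrict_pi_pi _ _
  calc ∫⁻ v in hcube n, (F3_far n η i).indicator
          (fun v => ENNReal.ofReal (∏ j, K1 R (v j))) v
      ≤ ∫⁻ v in hcube n, ENNReal.ofReal (∏ j, G j (v j)) := by
        refine lintegral_mono fun v => ?_
        by_cases hv : v ∈ F3_far n η i
        · rw [Set.indicator_of_mem hv]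
          refine ENNReal.ofReal_le_ofReal ?_
          refine Finset.prod_le_prod (fun j _ => K1_nonneg R _) fun j _ => ?_
          rw [hG]
          by_cases h : j = i
          · simp only [h, if_true]
            exact K1_le hR hη _ hv
          · simp only [h, if_false]
            exact le_rfl
        · rw [Set.indicator_of_notMem hv]
          exact bot_le
    _ = ENNReal.ofReal (∫ v in hcube n, ∏ j, G j (v j)) := by
        rw [ofReal_integral_eq_lintegral_ofReal]
        · rw [hres]
          exact Integrable.fintype_prod hGint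
        · exact Filter.Eventually.of_forall fun v => Finset.prod_nonneg fun j _ => hG0 j _
    _ = ENNReal.ofReal (∏ j, ∫ t in Set.Ico (0 : ℝ) 1, G j t) := by
        rw [hres, integral_fintype_prod_eq_prod (𝕜 := ℝ) (fun j => G j)]
    _ = ENNReal.ofReal (1 / (4 * R * η ^ 2)) := by
        congr 1
        rw [Finset.prod_eq_single i]
        · rw [hG]
          simp
        · intro j _ hj
          rw [hG]
          simp only [hj, if_false]
          exact F3_integral_Ico hR
        · intro h
          exact absurd (Finset.mem_univ i) h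

private lemma F3_inner {H H' : Matrix (Fin n) (Fin n) ℝ} {b b' : Fin n → ℝ} (hdet : H.det ≠ 0)
    (hrow : ∀ i, ∑ j, |H i j| ≤ 1 / 4) {η : ℝ} (hη : 0 < η)
    (hsep : ∀ u ∈ cube n, ∀ u' ∈ cube n, ∃ i, ∀ z : ℤ,
      η ≤ |(b i + ∑ j, H i j * u j) - (b' i + ∑ j, H' i j * u' j) - z|)
    {R : ℕ} (hR : 0 < R) (u' : Fin n → ℝ) (hu' : u' ∈ cube n) :
    ∫ u in cube n, ∏ i, K1 R ((b i + ∑ j, H i j * u j) - (b' i + ∑ j, H' i j * u' j)) ≤
      n * (1 / |H.det| * (1 / (4 * R * η ^ 2))) := by
  classical
  set w : Fin n → ℝ := fun i => b i - (b' i + ∑ j, H' i j * u' j) with hw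
  have harg : ∀ (u : Fin n → ℝ) (i : Fin n),
      (b i + ∑ j, H i j * u j) - (b' i + ∑ j, H' i j * u' j) = w i + ∑ j, H i j * u j := by
    intro u i
    rw [hw]
    ring
  simp_rw [harg]
  have hKm : Measurable fun v : Fin n → ℝ => ENNReal.ofReal (∏ j, K1 R (v j)) := by
    refine Measurable.ennreal_ofReal ?_
    exact (continuous_finsetProd _ fun j _ =>
      (continuous_K1 R).comp (continuous_apply j)).measurable
  set f : Fin n → (Fin n → ℝ) → ℝ≥0∞ := fun i => (F3_far n η i).indicator
      (fun v => ENNReal.ofReal (∏ j, K1 R (v j))) with hf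
  have hfm : ∀ i, Measurable (f i) := fun i => hKm.indicator (F3_meas_far n η i)
  have hper : ∀ i, ∀ (v : Fin n → ℝ) (z : Fin n → ℤ), f i (fun i => v i + z i) = f i v := by
    intro i v z
    have hmem : ((fun i => v i + z i) ∈ F3_far n η i) ↔ v ∈ F3_far n η i := by
      unfold F3_far
      simp only [Set.mem_ofPred_eq]
      constructor
      · intro h y
        have := h (y + z i)
        push_cast at this
        rwa [show v i + (z i : ℝ) - ((y : ℝ) + (z i : ℝ)) = v i - y by ring] at this
      · intro h y
        have := h (y - z i)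
        push_cast at this
        rwa [show v i - ((y : ℝ) - (z i : ℝ)) = v i + (z i : ℝ) - y by ring] at this
    rw [hf]
    by_cases hv : v ∈ F3_far n η i
    · simp only [Set.indicator_of_mem hv, Set.indicator_of_mem (hmem.2 hv), K1_add_int]
    · simp only [Set.indicator_of_notMem hv, Set.indicator_of_notMem (fun h => hv (hmem.1 h))]
  have haff : Continuous fun u : Fin n → ℝ => (fun i => w i + ∑ j, H i j * u j : Fin n → ℝ) := by
    fun_prop
  have hbound : ∫⁻ u in cube n, ENNReal.ofReal (∏ i, K1 R (w i + ∑ j, H i j * u j)) ≤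
      ENNReal.ofReal (n * (1 / |H.det| * (1 / (4 * R * η ^ 2)))) := by
    calc ∫⁻ u in cube n, ENNReal.ofReal (∏ i, K1 R (w i + ∑ j, H i j * u j))
        ≤ ∫⁻ u in cube n, ∑ i, f i (fun i => w i + ∑ j, H i j * u j) := by
          refine setLIntegral_mono' (F3_measurableSet_cube n) fun u hu => ?_
          obtain ⟨i, hi⟩ := hsep u hu u' hu'
          have hmem : (fun i => w i + ∑ j, H i j * u j) ∈ F3_far n η i := by
            intro z
            have := hi z
            rwa [harg] at this
          calc ENNReal.ofReal (∏ i, K1 R (w i + ∑ j, H i j * u j))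
              = f i (fun i => w i + ∑ j, H i j * u j) := by
                rw [hf]
                simp only [Set.indicator_of_mem hmem]
            _ ≤ ∑ i, f i (fun i => w i + ∑ j, H i j * u j) :=
                Finset.single_le_sum (f := fun i => f i (fun i => w i + ∑ j, H i j * u j))
                  (fun i _ => bot_le) (Finset.mem_univ i)
      _ = ∑ i, ∫⁻ u in cube n, f i (fun i => w i + ∑ j, H i j * u j) := by
          rw [lintegral_finsetSum]
          intro i _
          exact (hfm i).comp haff.measurable
      _ ≤ ∑ _i : Fin n, ENNReal.ofReal (1 / |H.det|) * ENNReal.ofReal (1 / (4 * R * η ^ 2)) := by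
          refine Finset.sum_le_sum fun i _ => ?_
          refine (lintegral_affine_le H hdet hrow w (f i) (hfm i) (hper i)).trans ?_
          gcongr
          exact F3_lint hR hη i
      _ = ENNReal.ofReal (n * (1 / |H.det| * (1 / (4 * R * η ^ 2)))) := by
          rw [Finset.sum_const, Finset.card_univ, Fintype.card_fin,
            ENNReal.ofReal_mul (by positivity), ENNReal.ofReal_mul (by positivity),
            ENNReal.ofReal_natCast, nsmul_eq_mul]
  rw [integral_eq_lintegral_of_nonneg_ae]
  · refine ENNReal.toReal_le_of_le_ofReal (by positivity) hbound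
  · exact Filter.Eventually.of_forall fun u => Finset.prod_nonneg fun i _ => K1_nonneg R _
  · refine Continuous.aestronglyMeasurable ?_
    refine continuous_finsetProd _ fun i _ => (continuous_K1 R).comp ?_
    fun_prop

theorem fejer_sep {H H' : Matrix (Fin n) (Fin n) ℝ} {b b' : Fin n → ℝ} (hdet : H.det ≠ 0)
    (hrow : ∀ i, ∑ j, |H i j| ≤ 1 / 4) (hsep : Sep H b H' b') :
    Tendsto (fun R : ℕ => ∫ u in cube n, ∫ u' in cube n, ∏ i,
      K1 R ((b i + ∑ j, H i j * u j) - (b' i + ∑ j, H' i j * u' j))) atTop (𝓝 0) := by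
  obtain ⟨η, hη, hsep⟩ := hsep
  have hlim : Tendsto (fun R : ℕ => (n : ℝ) * (1 / |H.det| * (1 / (4 * (R : ℝ) * η ^ 2))))
      atTop (𝓝 0) := by
    have h1 : Tendsto (fun R : ℕ => (1 : ℝ) / (R : ℝ)) atTop (𝓝 0) :=
      tendsto_one_div_atTop_nhds_zero_nat
    have h2 := h1.const_mul ((n : ℝ) * (1 / |H.det| * (1 / (4 * η ^ 2))))
    rw [mul_zero] at h2
    refine h2.congr fun R => ?_
    rw [show (4 * (R : ℝ) * η ^ 2) = (4 * η ^ 2) * R by ring, one_div_mul_one_div_rev,
      one_div_mul_one_div_rev]
    rw [show (n : ℝ) * (1 / (4 * η ^ 2 * |H.det|)) * (1 / (R : ℝ)) =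
      n * ((1 / (4 * η ^ 2 * |H.det|)) * (1 / (R : ℝ))) by ring, one_div_mul_one_div_rev]
    congr 2
    ring
  refine squeeze_zero_norm' ?_ hlim
  filter_upwards [eventually_gt_atTop 0] with R hR
  have hcont : Continuous (Function.uncurry fun (u u' : Fin n → ℝ) => ∏ i,
      K1 R ((b i + ∑ j, H i j * u j) - (b' i + ∑ j, H' i j * u' j))) := by
    unfold Function.uncurry
    refine continuous_finsetProd _ fun i _ => (continuous_K1 R).comp ?_
    fun_prop
  have hint : Integrable (Function.uncurry fun (u u' : Fin n → ℝ) => ∏ i,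
      K1 R ((b i + ∑ j, H i j * u j) - (b' i + ∑ j, H' i j * u' j)))
      (((volume : Measure (Fin n → ℝ)).restrict (cube n)).prod
        ((volume : Measure (Fin n → ℝ)).restrict (cube n))) := by
    rw [Measure.prod_restrict]
    exact hcont.continuousOn.integrableOn_compact ((F3_isCompact_cube n).prod (F3_isCompact_cube n))
  rw [integral_integral_swap hint]
  have hle : ∀ u' ∈ cube n, ‖∫ u in cube n, ∏ i,
      K1 R ((b i + ∑ j, H i j * u j) - (b' i + ∑ j, H' i j * u' j))‖ ≤
      n * (1 / |H.det| * (1 / (4 * R * η ^ 2))) := by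
    intro u' hu'
    rw [Real.norm_of_nonneg]
    · exact F3_inner hdet hrow hη hsep hR u' hu'
    · exact integral_nonneg fun u => Finset.prod_nonneg fun i _ => K1_nonneg R _
  have := norm_setIntegral_le_of_norm_le_const (μ := (volume : Measure (Fin n → ℝ)))
    (s := cube n) (by rw [F3_volume_cube]; exact ENNReal.one_lt_top) hle
  refine this.trans ?_
  rw [Measure.real, F3_volume_cube]
  simp

end Vale.Agent.P110F
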