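import Mathlib
import Vale.Agent.Lib.P110F.Defs
import Vale.Agent.Lib.P110F.F0
import Vale.Agent.Lib.P110F.V1

/-! P110F F/F4: the Fejer mean of the autocorrelation of one piece. -/

namespace Vale.Agent.P110F

open MeasureTheory Filter Topology
open scoped ComplexConjugate ENNReal

variable {n : ℕ}

private theorem f4_K1_neg (R : ℕ) (t : ℝ) : K1 R (-t) = K1 R t := by
  unfold K1
  have h : ∑ r ∈ Finset.range R, e1 ((r : ℝ) * -t) =
      conj (∑ r ∈ Finset.range R, e1 ((r : ℝ) * t)) := by
    rw [map_sum]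
    refine Finset.sum_congr rfl fun r _ => ?_
    rw [mul_neg, e1_neg]
  rw [h, RCLike.norm_conj]

private theorem f4_isCompact_cube (n : ℕ) : IsCompact (cube n) :=
  isCompact_univ_pi fun _ => isCompact_Icc

private theorem f4_volume_cube (n : ℕ) : volume (cube n) = 1 := by
  unfold cube
  rw [volume_pi_pi]
  simp

private theorem f4_continuous_prod (R : ℕ) : Continuous fun v : Fin n → ℝ => ∏ i, K1 R (v i) :=
  continuous_finsetProd _ fun i _ => (continuous_K1 R).comp (continuous_apply i)

private theorem f4_int {R : ℕ} (hR : 0 < R) :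
    ∫ v in hcube n, ∏ i, K1 R (v i) = 1 := by
  have h1 : (volume : Measure (Fin n → ℝ)).restrict (hcube n) =
      Measure.pi fun _ => (volume : Measure ℝ).restrict (Set.Ico 0 1) := by
    unfold hcube
    rw [volume_pi, Measure.restrict_pi_pi]
  rw [h1, integral_fintype_prod_eq_prod (fun _ : Fin n => K1 R)]
  have h2 : ∫ t in Set.Ico (0 : ℝ) 1, K1 R t = 1 := by
    rw [integral_Ico_eq_integral_Ioc, ← intervalIntegral.integral_of_le zero_le_one,
      integral_K1 hR]
  rw [h2]
  simp

private theorem f4_lint {R : ℕ} (hR : 0 < R) :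
    ∫⁻ v in hcube n, ENNReal.ofReal (∏ i, K1 R (v i)) = 1 := by
  rw [← ofReal_integral_eq_lintegral_ofReal, f4_int hR, ENNReal.ofReal_one]
  · refine ((f4_continuous_prod R).continuousOn.integrableOn_compact
      (f4_isCompact_cube n)).mono_set ?_
    exact Set.pi_mono fun i _ => Set.Ico_subset_Icc_self
  · exact Eventually.of_forall fun v => Finset.prod_nonneg fun i _ => K1_nonneg R _

private theorem f4_inner {H : Matrix (Fin n) (Fin n) ℝ} (b : Fin n → ℝ) (hdet : H.det ≠ 0)
    (hrow : ∀ i, ∑ j, |H i j| ≤ 1 / 4) {R : ℕ} (hR : 0 < R) (u : Fin n → ℝ) :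
    ∫ u' in cube n, ∏ i,
      K1 R ((b i + ∑ j, H i j * u j) - (b i + ∑ j, H i j * u' j)) ≤ 1 / |H.det| := by
  have h0 : ∀ u' : Fin n → ℝ, ∏ i,
      K1 R ((b i + ∑ j, H i j * u j) - (b i + ∑ j, H i j * u' j)) =
      ∏ i, K1 R ((-∑ j, H i j * u j) + ∑ j, H i j * u' j) := fun u' => by
    refine Finset.prod_congr rfl fun i _ => ?_
    rw [← f4_K1_neg]
    congr 1
    ring
  simp only [h0]
  have hc : Continuous fun u' : Fin n → ℝ =>
      ∏ i, K1 R ((-∑ j, H i j * u j) + ∑ j, H i j * u' j) :=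
    continuous_finsetProd _ fun i _ => (continuous_K1 R).comp (by fun_prop)
  have h1 := lintegral_affine_le H hdet hrow (fun i => -∑ j, H i j * u j)
    (fun v => ENNReal.ofReal (∏ i, K1 R (v i)))
    (ENNReal.measurable_ofReal.comp (f4_continuous_prod R).measurable) (fun v z => by
      simp only [K1_add_int])
  rw [f4_lint hR, mul_one, ← ofReal_integral_eq_lintegral_ofReal
    (hc.continuousOn.integrableOn_compact (f4_isCompact_cube n))
    (Eventually.of_forall fun v => Finset.prod_nonneg fun i _ => K1_nonneg R _)] at h1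
  exact (ENNReal.ofReal_le_ofReal_iff (by positivity)).1 h1

theorem fejer_self {H : Matrix (Fin n) (Fin n) ℝ} {b : Fin n → ℝ} (hdet : H.det ≠ 0)
    (hrow : ∀ i, ∑ j, |H i j| ≤ 1 / 4) {R : ℕ} (hR : 0 < R) :
    ∫ u in cube n, ∫ u' in cube n, ∏ i,
      K1 R ((b i + ∑ j, H i j * u j) - (b i + ∑ j, H i j * u' j)) ≤ 1 / |H.det| := by
  have h : ∫ u in cube n, ∫ u' in cube n, ∏ i,
      K1 R ((b i + ∑ j, H i j * u j) - (b i + ∑ j, H i j * u' j)) ≤
      ∫ _u in cube n, 1 / |H.det| := by
    refine integral_mono_of_nonneg (Eventually.of_forall fun u => ?_) ?_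
      (Eventually.of_forall fun u => f4_inner b hdet hrow hR u)
    · exact integral_nonneg fun u' => Finset.prod_nonneg fun i _ => K1_nonneg R _
    · refine integrableOn_const ?_
      rw [f4_volume_cube]
      exact ENNReal.one_ne_top
  refine h.trans (le_of_eq ?_)
  rw [setIntegral_const, measureReal_def, f4_volume_cube]
  simp

end Vale.Agent.P110F
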