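import Mathlib
import Vale.Agent.Lib.P110F.Defs

/-! P110F: Fejer means of a summable family converge to its sum. -/

namespace Vale.Agent.P110F

open MeasureTheory Filter Topology
open scoped ComplexConjugate ENNReal

variable {n : ℕ}

private theorem F5_mem_dbox {L : ℕ} {d : Fin n → ℤ} :
    d ∈ dbox n L ↔ ∀ i, |(d i : ℝ)| < L := by
  unfold dbox
  rw [Fintype.mem_piFinset]
  refine forall_congr' fun i => ?_
  rw [Finset.mem_Ioo, ← abs_lt]
  constructor
  · intro h
    have h2 : ((|d i| : ℤ) : ℝ) < ((L : ℤ) : ℝ) := by exact_mod_cast h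
    rw [Int.cast_abs] at h2
    simpa using h2
  · intro h
    have h2 : ((|d i| : ℤ) : ℝ) < ((L : ℤ) : ℝ) := by
      rw [Int.cast_abs]
      simpa using h
    exact_mod_cast h2

theorem fejer_tendsto {f : (Fin n → ℤ) → ℂ} (hf : Summable f) :
    Tendsto (fun R : ℕ => ∑ d ∈ dbox n R, ((∏ i, (1 - |(d i : ℝ)| / R) : ℝ) : ℂ) * f d) atTop
      (𝓝 (∑' d, f d)) := by
  classical
  let g : ℕ → (Fin n → ℤ) → ℂ := fun R d =>
    if d ∈ dbox n R then ((∏ i, (1 - |(d i : ℝ)| / R) : ℝ) : ℂ) * f d else 0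
  have h1 : ∀ R : ℕ, (∑ d ∈ dbox n R, ((∏ i, (1 - |(d i : ℝ)| / R) : ℝ) : ℂ) * f d) =
      ∑' d, g R d := by
    intro R
    rw [tsum_eq_sum (s := dbox n R)]
    · refine Finset.sum_congr rfl fun d hd => ?_
      simp only [g, if_pos hd]
    · intro d hd
      simp only [g, if_neg hd]
  simp only [h1]
  refine tendsto_tsum_of_dominated_convergence (bound := fun d => ‖f d‖) hf.norm ?_ ?_
  · intro d
    have hev : ∀ᶠ R : ℕ in atTop, d ∈ dbox n R := by
      have h2 : ∀ i, ∀ᶠ R : ℕ in atTop, |(d i : ℝ)| < R := fun i =>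
        tendsto_natCast_atTop_atTop.eventually_gt_atTop _
      have h3 : ∀ᶠ R : ℕ in atTop, ∀ i, |(d i : ℝ)| < R := Filter.eventually_all.mpr h2
      exact h3.mono fun R hR => F5_mem_dbox.mpr hR
    have hw : Tendsto (fun R : ℕ => (∏ i, (1 - |(d i : ℝ)| / R) : ℝ)) atTop (𝓝 1) := by
      have h4 : Tendsto (fun R : ℕ => (∏ i, (1 - |(d i : ℝ)| / R) : ℝ)) atTop
          (𝓝 (∏ _i : Fin n, (1 : ℝ))) := by
        refine tendsto_finsetProd _ fun i _ => ?_
        have h5 : Tendsto (fun R : ℕ => |(d i : ℝ)| / (R : ℝ)) atTop (𝓝 0) :=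
          tendsto_const_nhds.div_atTop tendsto_natCast_atTop_atTop
        simpa using (tendsto_const_nhds (x := (1 : ℝ))).sub h5
      simpa using h4
    have hw2 : Tendsto (fun R : ℕ => ((∏ i, (1 - |(d i : ℝ)| / R) : ℝ) : ℂ) * f d) atTop
        (𝓝 (f d)) := by
      have h6 := (Complex.continuous_ofReal.tendsto 1).comp hw
      have h7 := h6.mul_const (f d)
      simpa using h7
    refine hw2.congr' ?_
    filter_upwards [hev] with R hR
    simp only [g, if_pos hR]
  · refine Filter.Eventually.of_forall fun R d => ?_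
    by_cases hd : d ∈ dbox n R
    · simp only [g, if_pos hd]
      rw [norm_mul]
      have h8 : ‖((∏ i, (1 - |(d i : ℝ)| / R) : ℝ) : ℂ)‖ ≤ 1 := by
        rw [Complex.norm_real, Real.norm_eq_abs]
        have h9 : ∀ i, 0 ≤ 1 - |(d i : ℝ)| / R ∧ 1 - |(d i : ℝ)| / R ≤ 1 := by
          intro i
          have h10 := F5_mem_dbox.mp hd i
          have hR : (0 : ℝ) < R := lt_of_le_of_lt (abs_nonneg _) h10
          constructor
          · have := (div_le_one hR).mpr h10.le
            linarith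
          · have : 0 ≤ |(d i : ℝ)| / R := by positivity
            linarith
        rw [abs_of_nonneg (Finset.prod_nonneg fun i _ => (h9 i).1)]
        exact Finset.prod_le_one (fun i _ => (h9 i).1) fun i _ => (h9 i).2
      calc ‖((∏ i, (1 - |(d i : ℝ)| / R) : ℝ) : ℂ)‖ * ‖f d‖ ≤ 1 * ‖f d‖ :=
            mul_le_mul_of_nonneg_right h8 (norm_nonneg _)
        _ = ‖f d‖ := one_mul _
    · simp only [g, if_neg hd, norm_zero]
      exact norm_nonneg _

end Vale.Agent.P110F
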