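import Mathlib
import Vale.Agent.Lib.P110F.Defs
import Vale.Agent.Lib.P110F.A6
import Vale.Agent.Lib.P110F.F2
import Vale.Agent.Lib.P110F.F3
import Vale.Agent.Lib.P110F.F4
import Vale.Agent.Lib.P110F.F5
import Vale.Agent.Lib.P110F.A5b

/-!
P110F MA: the second moments of the exponential sums.
-/

namespace Vale.Agent.P110F

open MeasureTheory Filter Topology
open scoped ComplexConjugate ENNReal

variable {n : ℕ}

private theorem scl_isSymm {c : ℝ} {A : Matrix (Fin n) (Fin n) ℤ} (hs : A.IsSymm) :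
    (scl c A).IsSymm := by
  ext i j
  change c * (A j i : ℝ) = c * (A i j : ℝ)
  rw [hs.apply i j]

private theorem scl_det (c : ℝ) (A : Matrix (Fin n) (Fin n) ℤ) :
    (scl c A).det = c ^ n * (A.det : ℝ) := by
  have h1 : scl c A = c • (Int.castRingHom ℝ).mapMatrix A := by
    ext i j
    rfl
  rw [h1, Matrix.det_smul, Fintype.card_fin, ← RingHom.map_det]
  rfl

private theorem scl_det_ne {c : ℝ} (hc : 0 < c) {A : Matrix (Fin n) (Fin n) ℤ} (hA : A.det ≠ 0) :
    (scl c A).det ≠ 0 := by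
  rw [scl_det]
  have h1 : (A.det : ℝ) ≠ 0 := by exact_mod_cast hA
  positivity

theorem moment_sep {c c' : ℝ} (hc : 0 < c) (hc' : 0 < c')
    (A A' : Matrix (Fin n) (Fin n) ℤ) (hA : A.det ≠ 0) (hA' : A'.det ≠ 0)
    (hs : A.IsSymm) (hs' : A'.IsSymm)
    (hrow : ∀ i, ∑ j, |scl c A i j| ≤ 1 / 4) (hrow' : ∀ i, ∑ j, |scl c' A' i j| ≤ 1 / 4)
    (b b' : Fin n → ℝ) (hsep : Sep (scl c A) b (scl c' A') b') :
    Tendsto (fun L : ℕ => (∫ x in (0 : ℝ)..1, ‖SS (scl c A) b L x‖ ^ 2 *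
      ‖SS (scl c' A') b' L x‖ ^ 2) / ((L : ℝ) ^ n) ^ 2) atTop (𝓝 0) := by
  have h1 := tendsto_moment hc hc' A A' hA hA' hs hs' (fun i => (hrow i).trans (by norm_num))
    (fun i => (hrow' i).trans (by norm_num)) b b'
  have h2 := fejer_tendsto (summable_gg_mul hc hc' A A' hA hA' b b')
  have h3 := fejer_sep (scl_det_ne hc hA) hrow hsep
  have h4 : Tendsto (fun R : ℕ => ((∫ u in cube n, ∫ u' in cube n, ∏ i,
      K1 R ((b i + ∑ j, scl c A i j * u j) - (b' i + ∑ j, scl c' A' i j * u' j)) : ℝ) : ℂ)) atTop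
      (𝓝 ((0 : ℝ) : ℂ)) := (Complex.continuous_ofReal.tendsto 0).comp h3
  have h5 := (tendsto_congr' (by
    filter_upwards [eventually_gt_atTop 0] with R hR
    exact fejer_mean hR (scl c A) (scl c' A') (scl_isSymm hs) (scl_isSymm hs') b b')).mp h2
  have h6 := tendsto_nhds_unique h5 h4
  rw [h6, Complex.ofReal_re] at h1
  exact h1

theorem moment_self {c : ℝ} (hc : 0 < c)
    (A : Matrix (Fin n) (Fin n) ℤ) (hA : A.det ≠ 0) (hs : A.IsSymm)
    (hrow : ∀ i, ∑ j, |scl c A i j| ≤ 1 / 4) (b : Fin n → ℝ) {ε : ℝ} (hε : 0 < ε) :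
    ∀ᶠ L : ℕ in atTop, (∫ x in (0 : ℝ)..1, ‖SS (scl c A) b L x‖ ^ 2 *
      ‖SS (scl c A) b L x‖ ^ 2) / ((L : ℝ) ^ n) ^ 2 ≤ 1 / (c ^ n * |(A.det : ℝ)|) + ε := by
  have h1 := tendsto_moment hc hc A A hA hA hs hs (fun i => (hrow i).trans (by norm_num))
    (fun i => (hrow i).trans (by norm_num)) b b
  have h2 := fejer_tendsto (summable_gg_mul hc hc A A hA hA b b)
  have h5 := (tendsto_congr' (by
    filter_upwards [eventually_gt_atTop 0] with R hR
    exact fejer_mean hR (scl c A) (scl c A) (scl_isSymm hs) (scl_isSymm hs) b b)).mp h2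
  have h6 : Tendsto (fun R : ℕ => ∫ u in cube n, ∫ u' in cube n, ∏ i,
      K1 R ((b i + ∑ j, scl c A i j * u j) - (b i + ∑ j, scl c A i j * u' j))) atTop
      (𝓝 (∑' d : Fin n → ℤ, gg (scl c A) b d * conj (gg (scl c A) b d)).re) :=
    (Complex.continuous_re.tendsto _).comp h5
  have h7 : (∑' d : Fin n → ℤ, gg (scl c A) b d * conj (gg (scl c A) b d)).re ≤
      1 / (c ^ n * |(A.det : ℝ)|) := by
    refine le_of_tendsto h6 ?_
    filter_upwards [eventually_gt_atTop 0] with R hR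
    refine (fejer_self (scl_det_ne hc hA) hrow hR).trans (le_of_eq ?_)
    rw [scl_det, abs_mul, abs_of_pos (pow_pos hc n)]
  have h8 := h1.eventually_lt_const (u := (∑' d : Fin n → ℤ, gg (scl c A) b d *
    conj (gg (scl c A) b d)).re + ε) (by linarith)
  filter_upwards [h8] with L hL
  linarith

end Vale.Agent.P110F
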