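import Vale.Agent.Lib.P110F.CellSum
import Vale.Agent.Lib.P110F.A2b
import Vale.Agent.Lib.P110F.MA
import Vale.Agent.Lib.P110F.C6
import Vale.Agent.Lib.P110F.D1
import Vale.Agent.Lib.P110F.D2
import Vale.Agent.Lib.P110F.D3
import Vale.Agent.Lib.P110F.D4

/-! P110F FinalA: the pieces of the final assembly (everything except the choice of the cells). -/

namespace Vale.Agent.P110F

open MeasureTheory Filter Topology
open scoped ComplexConjugate ENNReal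

theorem sep_neg {n : ℕ} {H H' : Matrix (Fin n) (Fin n) ℝ} {b b' : Fin n → ℝ}
    (h : Sep H b H' b') : Sep (-H) (-b) (-H') (-b') := by
  obtain ⟨η, hη, h1⟩ := h
  refine ⟨η, hη, fun u hu u' hu' => ?_⟩
  obtain ⟨i, hi⟩ := h1 u hu u' hu'
  refine ⟨i, fun z => ?_⟩
  have h2 := hi (-z)
  have h3 : ((-b) i + ∑ j, (-H) i j * u j) - ((-b') i + ∑ j, (-H') i j * u' j) - z =
      -((b i + ∑ j, H i j * u j) - (b' i + ∑ j, H' i j * u' j) - ((-z : ℤ) : ℝ)) := by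
    simp only [Pi.neg_apply, Matrix.neg_apply, neg_mul, Finset.sum_neg_distrib]
    push_cast
    ring
  rw [h3, abs_neg]
  exact h2

/-- integer sign of a bit -/
def sgz (s : Bool) : ℤ := if s then 1 else -1

theorem sgz_cases (s : Bool) : sgz s = 1 ∨ sgz s = -1 := by
  cases s
  · exact Or.inr rfl
  · exact Or.inl rfl

theorem sgn_mat {n k : ℕ} (s : ℤ) (m : Fin k → ℤ) (H : Fin k → Matrix (Fin n) (Fin n) ℤ) :
    ∑ i, (s * m i) • H i = s • ∑ i, m i • H i := by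
  rw [Finset.smul_sum]
  exact Finset.sum_congr rfl fun i _ => mul_smul _ _ _

theorem sgn_det {n k : ℕ} {s : ℤ} (hs : s = 1 ∨ s = -1) (m : Fin k → ℤ)
    (H : Fin k → Matrix (Fin n) (Fin n) ℤ) :
    |((∑ i, (s * m i) • H i).det : ℝ)| = |((∑ i, m i • H i).det : ℝ)| := by
  rw [sgn_mat, Matrix.det_smul]
  push_cast
  rw [abs_mul, abs_pow]
  rcases hs with rfl | rfl <;> simp

theorem sgn_scl {n k : ℕ} {s : ℤ} (hs : s = 1 ∨ s = -1) (c : ℝ) (m : Fin k → ℤ)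
    (H : Fin k → Matrix (Fin n) (Fin n) ℤ) (a a' : Fin n) :
    |scl c (∑ i, (s * m i) • H i) a a'| = |scl c (∑ i, m i • H i) a a'| := by
  rw [sgn_mat]
  unfold scl
  rw [Matrix.smul_apply, smul_eq_mul]
  push_cast
  rcases hs with rfl | rfl <;> simp

theorem sgn_symm {n k : ℕ} (m : Fin k → ℤ) {H : Fin k → Matrix (Fin n) (Fin n) ℤ}
    (hH : ∀ i, (H i).IsSymm) : (∑ i, m i • H i).IsSymm := by
  unfold Matrix.IsSymm
  rw [Matrix.transpose_sum]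
  refine Finset.sum_congr rfl fun i _ => ?_
  rw [Matrix.transpose_smul, (hH i).eq]

/-- separation of all signed pieces -/
theorem cells_sep {n k : ℕ} {ι : Type} {Sp : Finset (Fin k → ℤ)} {c : ℝ}
    {H : ι → Fin k → Matrix (Fin n) (Fin n) ℤ} {β : ι → Fin k → Fin n → ℝ}
    (hsep : ∀ (j j' : ι) (m m' : Fin k → ℤ) (s : ℤ), m ∈ Sp → m' ∈ Sp → (s = 1 ∨ s = -1) →
        ¬ (j = j' ∧ m = m' ∧ s = 1) →
        Sep (scl c (∑ i, m i • H j i)) (fun a => ∑ i, (m i : ℝ) * β j i a)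
          (scl c (∑ i, (s * m' i) • H j' i)) (fun a => ∑ i, ((s * m' i : ℤ) : ℝ) * β j' i a))
    (p q : ι × Sp × Bool) (hpq : p ≠ q) :
    Sep (scl c (∑ i, (sgz p.2.2 * p.2.1.1 i) • H p.1 i))
      (fun a => ∑ i, ((sgz p.2.2 * p.2.1.1 i : ℤ) : ℝ) * β p.1 i a)
      (scl c (∑ i, (sgz q.2.2 * q.2.1.1 i) • H q.1 i))
      (fun a => ∑ i, ((sgz q.2.2 * q.2.1.1 i : ℤ) : ℝ) * β q.1 i a) := by
  obtain ⟨j, ⟨m, hm⟩, s⟩ := p
  obtain ⟨j', ⟨m', hm'⟩, s'⟩ := q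
  cases s
  · -- `s = -1`
    have h1 : ¬ (j = j' ∧ m = m' ∧ -sgz s' = 1) := by
      rintro ⟨rfl, rfl, h⟩
      apply hpq
      cases s'
      · rfl
      · simp [sgz] at h
    have h2 : -sgz s' = 1 ∨ -sgz s' = -1 := by
      cases s' <;> simp [sgz]
    have h3 := sep_neg (hsep j j' m m' (-sgz s') hm hm' h2 h1)
    have e1 : -scl c (∑ i, m i • H j i) = scl c (∑ i, (sgz false * m i) • H j i) := by
      rw [sgn_mat]
      funext a a'
      change -(c * _) = c * _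
      rw [Matrix.smul_apply, smul_eq_mul]
      simp [sgz]
    have e2 : -scl c (∑ i, (-sgz s' * m' i) • H j' i) =
        scl c (∑ i, (sgz s' * m' i) • H j' i) := by
      rw [sgn_mat, sgn_mat]
      funext a a'
      change -(c * _) = c * _
      rw [Matrix.smul_apply, Matrix.smul_apply, smul_eq_mul, smul_eq_mul]
      push_cast
      ring
    have e3 : -(fun a => ∑ i, (m i : ℝ) * β j i a) =
        fun a => ∑ i, ((sgz false * m i : ℤ) : ℝ) * β j i a := by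
      funext a
      rw [Pi.neg_apply, ← Finset.sum_neg_distrib]
      refine Finset.sum_congr rfl fun i _ => ?_
      simp [sgz]
    have e4 : -(fun a => ∑ i, ((-sgz s' * m' i : ℤ) : ℝ) * β j' i a) =
        fun a => ∑ i, ((sgz s' * m' i : ℤ) : ℝ) * β j' i a := by
      funext a
      rw [Pi.neg_apply, ← Finset.sum_neg_distrib]
      refine Finset.sum_congr rfl fun i _ => ?_
      push_cast
      ring
    rw [e1, e2, e3, e4] at h3
    exact h3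
  · -- `s = 1`
    have h1 : ¬ (j = j' ∧ m = m' ∧ sgz s' = 1) := by
      rintro ⟨rfl, rfl, h⟩
      apply hpq
      cases s'
      · simp [sgz] at h
      · rfl
    have h3 := hsep j j' m m' (sgz s') hm hm' (sgz_cases s') h1
    have e1 : scl c (∑ i, m i • H j i) = scl c (∑ i, (sgz true * m i) • H j i) := by
      simp [sgz]
    have e3 : (fun a => ∑ i, (m i : ℝ) * β j i a) =
        fun a => ∑ i, ((sgz true * m i : ℤ) : ℝ) * β j i a := by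
      simp [sgz]
    rw [e1, e3] at h3
    exact h3

theorem mFourier_add' {k : ℕ} (m : Fin k → ℤ) (x y : UnitAddTorus (Fin k)) :
    UnitAddTorus.mFourier m (x + y) = UnitAddTorus.mFourier m x * UnitAddTorus.mFourier m y := by
  simp only [UnitAddTorus.mFourier, ContinuousMap.coe_mk, Pi.add_apply]
  rw [← Finset.prod_mul_distrib]
  refine Finset.prod_congr rfl fun i _ => ?_
  simp only [fourier_apply, smul_add, AddCircle.toCircle_add, Circle.coe_mul]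

theorem norm_mFourier' {k : ℕ} (m : Fin k → ℤ) (x : UnitAddTorus (Fin k)) :
    ‖UnitAddTorus.mFourier m x‖ = 1 := by
  simp only [UnitAddTorus.mFourier, ContinuousMap.coe_mk]
  rw [norm_prod]
  exact Finset.prod_eq_one fun i _ => by rw [fourier_apply, Circle.norm_coe]

/-- coefficient of a signed piece -/
noncomputable def cf {k : ℕ} {ι : Type} {Sp : Finset (Fin k → ℤ)} (q : (Fin k → ℤ) → ℂ)
    (α : UnitAddTorus (Fin k)) (p : ι × Sp × Bool) : ℂ :=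
  (if p.2.2 then q p.2.1.1 else conj (q p.2.1.1)) *
    UnitAddTorus.mFourier (fun i => sgz p.2.2 * p.2.1.1 i) α

theorem norm_cf {k : ℕ} {ι : Type} {Sp : Finset (Fin k → ℤ)} (q : (Fin k → ℤ) → ℂ)
    (α : UnitAddTorus (Fin k)) (p : ι × Sp × Bool) : ‖cf q α p‖ = ‖q p.2.1.1‖ := by
  unfold cf
  rw [norm_mul, norm_mFourier', mul_one]
  split_ifs
  · rfl
  · exact RCLike.norm_conj _

theorem f_decomp {k n : ℕ} {ι : Type} [Fintype ι] (c : ℝ) (L : ℕ)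
    (H : ι → Fin k → Matrix (Fin n) (Fin n) ℤ) (β : ι → Fin k → Fin n → ℝ)
    (Sp : Finset (Fin k → ℤ)) (q : (Fin k → ℤ) → ℂ) (α : UnitAddTorus (Fin k)) (base : ι → ℝ)
    (x : ℝ) :
    ∑ j : ι, ∑ y : Fin n → Fin L, (∑ m ∈ Sp,
      (q m * UnitAddTorus.mFourier m
          ((fun i => (phi c L (H j) (β j) y i : UnitAddCircle)) + α) +
        conj (q m) * UnitAddTorus.mFourier (-m)
          ((fun i => (phi c L (H j) (β j) y i : UnitAddCircle)) + α))) *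
      e1 ((base j + ∑ i : Fin n, ((y i : ℕ) : ℝ) * ((4 * L : ℕ) : ℝ) ^ (i : ℕ)) * x) =
    ∑ p : ι × Sp × Bool, cf q α p * e1 (base p.1 * x) *
      SS (scl c (∑ i, (sgz p.2.2 * p.2.1.1 i) • H p.1 i))
        (fun a => ∑ i, ((sgz p.2.2 * p.2.1.1 i : ℤ) : ℝ) * β p.1 i a) L x := by
  rw [Fintype.sum_prod_type]
  refine Finset.sum_congr rfl fun j _ => ?_
  rw [Fintype.sum_prod_type]
  have key : ∀ (m : Fin k → ℤ) (q' : ℂ), ∑ y : Fin n → Fin L, q' * UnitAddTorus.mFourier m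
        ((fun i => (phi c L (H j) (β j) y i : UnitAddCircle)) + α) *
        e1 ((base j + ∑ i : Fin n, ((y i : ℕ) : ℝ) * ((4 * L : ℕ) : ℝ) ^ (i : ℕ)) * x) =
      q' * UnitAddTorus.mFourier m α * e1 (base j * x) *
        SS (scl c (∑ i, m i • H j i)) (fun a => ∑ i, (m i : ℝ) * β j i a) L x := by
    intro m q'
    rw [mul_assoc (q' * _), ← cell_sum, Finset.mul_sum]
    refine Finset.sum_congr rfl fun y _ => ?_
    rw [mFourier_add', mFourier_coe]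
    ring
  rw [Finset.sum_congr rfl fun y _ => Finset.sum_mul Sp _ _, Finset.sum_comm,
    ← Finset.sum_coe_sort]
  refine Finset.sum_congr rfl fun m _ => ?_
  rw [Finset.sum_congr rfl fun y _ => add_mul _ _ _, Finset.sum_add_distrib, key, key,
    Fintype.sum_bool]
  congr 1
  · simp [cf, sgz]
  · have hm : (-(m : Fin k → ℤ)) = fun i => sgz false * m.1 i := by
      funext i
      simp [sgz]
    rw [hm]
    simp only [cf, Bool.false_eq_true, if_false]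


/-- the sequence and the error term -/
theorem exists_poly {k n R L : ℕ} (hL : 0 < L) {ι : Type} [Fintype ι] [DecidableEq ι]
    (sl : ι → Fin R × (Fin n → Fin 4)) (hsl : Function.Injective sl)
    (F : UnitAddTorus (Fin k) → ℝ) (hF1 : ∀ x, F x = 1 ∨ F x = -1)
    (main : ι → (Fin n → Fin L) → ℂ) (X : ι → (Fin n → Fin L) → UnitAddTorus (Fin k)) :
    ∃ (a : ℕ → ℝ) (base : ι → ℝ) (g : ℝ → ℂ), (∀ t, a t = 1 ∨ a t = -1) ∧ Continuous g ∧
      (∀ x, ∑ t ∈ Finset.range (R * (4 * L) ^ n), (a t : ℂ) * e1 (t * x) =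
        (∑ j, ∑ y, main j y *
          e1 ((base j + ∑ i : Fin n, ((y i : ℕ) : ℝ) * ((4 * L : ℕ) : ℝ) ^ (i : ℕ)) * x)) +
          g x) ∧
      ∫ x in (0 : ℝ)..1, ‖g x‖ ^ 2 = ((R * (4 * L) ^ n : ℕ) : ℝ) -
        Fintype.card ι * (L : ℝ) ^ n + ∑ j, ∑ y, ‖(F (X j y) : ℂ) - main j y‖ ^ 2 := by
  classical
  obtain ⟨e, he⟩ := exists_reindex n R L hL
  -- values on cells
  obtain ⟨A, hA⟩ : ∃ A : (Fin R × (Fin n → Fin 4)) × (Fin n → Fin L) → ℝ,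
    A = fun q => if h : ∃ j, sl j = q.1 then F (X h.choose q.2) else 1 := ⟨_, rfl⟩
  obtain ⟨B, hB⟩ : ∃ B : (Fin R × (Fin n → Fin 4)) × (Fin n → Fin L) → ℂ,
    B = fun q => if h : ∃ j, sl j = q.1 then main h.choose q.2 else 0 := ⟨_, rfl⟩
  have hch : ∀ j (h : ∃ j', sl j' = sl j), h.choose = j := fun j h => hsl h.choose_spec
  have hAj : ∀ j y, A (sl j, y) = F (X j y) := by
    intro j y
    rw [hA]
    have h : ∃ j', sl j' = sl j := ⟨j, rfl⟩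
    simp only [dif_pos h]
    rw [hch j h]
  have hBj : ∀ j y, B (sl j, y) = main j y := by
    intro j y
    rw [hB]
    have h : ∃ j', sl j' = sl j := ⟨j, rfl⟩
    simp only [dif_pos h]
    rw [hch j h]
  have hA0 : ∀ q, (¬ ∃ j, sl j = q.1) → A q = 1 := by
    intro q h
    rw [hA]
    simp only [dif_neg h]
  have hB0 : ∀ q, (¬ ∃ j, sl j = q.1) → B q = 0 := by
    intro q h
    rw [hB]
    simp only [dif_neg h]
  have hA1 : ∀ q, A q = 1 ∨ A q = -1 := by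
    intro q
    by_cases h : ∃ j, sl j = q.1
    · rw [hA]
      simp only [dif_pos h]
      exact hF1 _
    · exact Or.inl (hA0 q h)
  obtain ⟨N, hN⟩ : ∃ N : ℕ, N = R * (4 * L) ^ n := ⟨_, rfl⟩
  -- sums over the cells
  have hsum : ∀ {M : Type} [AddCommMonoid M] (Φ : (Fin R × (Fin n → Fin 4)) × (Fin n → Fin L) → M),
      (∀ q, (¬ ∃ j, sl j = q.1) → Φ q = 0) → ∑ q, Φ q = ∑ j, ∑ y, Φ (sl j, y) := by
    intro M _ Φ hΦ
    rw [← Fintype.sum_prod_type']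
    refine (Fintype.sum_of_injective (fun q : ι × (Fin n → Fin L) => (sl q.1, q.2)) ?_ _ _ ?_
      fun q => rfl).symm
    · rintro ⟨j, y⟩ ⟨j', y'⟩ h
      simp only [Prod.mk.injEq] at h
      rw [hsl h.1, h.2]
    · intro q hq
      refine hΦ q fun h => hq ?_
      obtain ⟨j, hj⟩ := h
      exact ⟨(j, q.2), by simp [hj]⟩
  have hpoly : ∀ (b : (Fin R × (Fin n → Fin 4)) × (Fin n → Fin L) → ℂ) (x : ℝ),
      ∑ t ∈ Finset.range (R * (4 * L) ^ n),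
        (if h : t < R * (4 * L) ^ n then b (e.symm ⟨t, h⟩) else 1) * e1 (t * x) =
      ∑ q, b q * e1 (((e q : ℕ) : ℝ) * x) := by
    intro b x
    rw [Finset.sum_range, ← Equiv.sum_comp e]
    refine Finset.sum_congr rfl fun q _ => ?_
    rw [dif_pos (e q).2]
    simp
  refine ⟨fun t => if h : t < R * (4 * L) ^ n then A (e.symm ⟨t, h⟩) else 1,
    fun j => ((sl j).1 : ℕ) * ((4 * L : ℕ) : ℝ) ^ n +
      ∑ i : Fin n, (((sl j).2 i : ℕ) : ℝ) * L * ((4 * L : ℕ) : ℝ) ^ (i : ℕ),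
    fun x => ∑ q, ((A q : ℂ) - B q) * e1 (((e q : ℕ) : ℝ) * x), ?_, ?_, ?_, ?_⟩
  · intro t
    beta_reduce
    split_ifs
    · exact hA1 _
    · exact Or.inl rfl
  · refine continuous_finsetSum _ fun q _ => ?_
    exact continuous_const.mul (continuous_e1.comp (continuous_const.mul continuous_id))
  · intro x
    have h1 : ∑ t ∈ Finset.range (R * (4 * L) ^ n),
        (((if h : t < R * (4 * L) ^ n then A (e.symm ⟨t, h⟩) else 1 : ℝ)) : ℂ) * e1 (t * x) =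
        ∑ q, (A q : ℂ) * e1 (((e q : ℕ) : ℝ) * x) := by
      rw [← hpoly fun q => (A q : ℂ)]
      refine Finset.sum_congr rfl fun t _ => ?_
      split_ifs
      · rfl
      · simp
    rw [h1]
    have h2 : ∑ j, ∑ y, main j y * e1 ((((sl j).1 : ℕ) * ((4 * L : ℕ) : ℝ) ^ n +
          ∑ i : Fin n, (((sl j).2 i : ℕ) : ℝ) * L * ((4 * L : ℕ) : ℝ) ^ (i : ℕ) +
          ∑ i : Fin n, ((y i : ℕ) : ℝ) * ((4 * L : ℕ) : ℝ) ^ (i : ℕ)) * x) =
        ∑ q, B q * e1 (((e q : ℕ) : ℝ) * x) := by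
      rw [hsum (fun q => B q * e1 (((e q : ℕ) : ℝ) * x)) fun q h => by rw [hB0 q h, zero_mul]]
      refine Finset.sum_congr rfl fun j _ => Finset.sum_congr rfl fun y _ => ?_
      rw [hBj]
      congr 3
      have h3 := he (sl j).1 (sl j).2 y
      rw [Prod.mk.eta] at h3
      rw [h3]
      push_cast
      rw [add_assoc, ← Finset.sum_add_distrib]
      congr 1
      exact Finset.sum_congr rfl fun i _ => by ring
    rw [h2, ← Finset.sum_add_distrib]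
    exact Finset.sum_congr rfl fun q _ => by ring
  · have h1 : (fun x : ℝ => ‖∑ q, ((A q : ℂ) - B q) * e1 (((e q : ℕ) : ℝ) * x)‖ ^ 2) =
        fun x => ‖∑ t ∈ Finset.range (R * (4 * L) ^ n),
          (if h : t < R * (4 * L) ^ n then ((A (e.symm ⟨t, h⟩) : ℂ) - B (e.symm ⟨t, h⟩)) else 1) *
            e1 (t * x)‖ ^ 2 := by
      funext x
      rw [hpoly fun q => (A q : ℂ) - B q]
    rw [h1, integral_normSq_poly]
    have h2 : ∑ t ∈ Finset.range (R * (4 * L) ^ n),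
        ‖(if h : t < R * (4 * L) ^ n then ((A (e.symm ⟨t, h⟩) : ℂ) - B (e.symm ⟨t, h⟩))
          else 1 : ℂ)‖ ^ 2 = ∑ q, ‖(A q : ℂ) - B q‖ ^ 2 := by
      rw [Finset.sum_range, ← Equiv.sum_comp e]
      refine Finset.sum_congr rfl fun q _ => ?_
      rw [dif_pos (e q).2]
      simp
    rw [h2]
    have h3 : ∑ q, ‖(A q : ℂ) - B q‖ ^ 2 = ∑ q : (Fin R × (Fin n → Fin 4)) × (Fin n → Fin L),
        (1 + (‖(A q : ℂ) - B q‖ ^ 2 - 1)) := Finset.sum_congr rfl fun q _ => by ring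
    rw [h3, Finset.sum_add_distrib,
      hsum (fun q => ‖(A q : ℂ) - B q‖ ^ 2 - 1) fun q h => by rw [hA0 q h, hB0 q h]; simp]
    have h4 : ∑ _q : (Fin R × (Fin n → Fin 4)) × (Fin n → Fin L), (1 : ℝ) =
        ((R * (4 * L) ^ n : ℕ) : ℝ) := by
      rw [Finset.sum_const, Finset.card_univ, nsmul_eq_mul, mul_one, Fintype.card_congr e,
        Fintype.card_fin]
    rw [h4]
    simp only [hAj, hBj, Finset.sum_sub_distrib, Finset.sum_const, Finset.card_univ, nsmul_eq_mul,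
      mul_one, Fintype.card_fun, Fintype.card_fin]
    push_cast
    ring


theorem exists_R (J n : ℕ) : ∃ R : ℕ, J ≤ R * 4 ^ n ∧ R * 4 ^ n ≤ J + 4 ^ n := by
  refine ⟨J / 4 ^ n + 1, ?_, ?_⟩
  · have h1 : 0 < 4 ^ n := by positivity
    have h2 := Nat.div_add_mod J (4 ^ n)
    have h3 := Nat.mod_lt J h1
    nlinarith
  · have h2 := Nat.div_mul_le_self J (4 ^ n)
    nlinarith

theorem exists_emb {ι : Type} [Fintype ι] {n R : ℕ} (h : Fintype.card ι ≤ R * 4 ^ n) :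
    ∃ sl : ι → Fin R × (Fin n → Fin 4), Function.Injective sl := by
  have h1 : Fintype.card ι ≤ Fintype.card (Fin R × (Fin n → Fin 4)) := by
    simpa using h
  obtain ⟨e⟩ := Function.Embedding.nonempty_of_card_le h1
  exact ⟨e, e.injective⟩

theorem cont_SS {n : ℕ} (H : Matrix (Fin n) (Fin n) ℝ) (b : Fin n → ℝ) (L : ℕ) :
    Continuous (SS H b L) := by
  unfold SS kr
  refine continuous_finsetSum _ fun y _ => continuous_e1.comp ?_
  fun_prop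

/-- the main part -/
theorem main_part {k n L J : ℕ} (hJ1 : (1 : ℝ) ≤ J) {ι : Type} [Fintype ι] [DecidableEq ι]
    (hJ : J = Fintype.card ι) {c : ℝ} (hc : 0 < c) (Sp1 : Finset (Fin k → ℤ))
    (q : (Fin k → ℤ) → ℂ) {V : ℝ} (hV : V = ∑ m ∈ Sp1, ‖q m‖ ^ 2) (hV2 : 2 * V ≤ 1) {τ : ℝ}
    (hτ0 : 0 < τ) (hτ1 : τ ≤ 1 / 1000) (hVτ : 1 - τ ≤ 2 * V)
    (A : ι × Sp1 × Bool → Matrix (Fin n) (Fin n) ℤ) (b : ι × Sp1 × Bool → Fin n → ℝ)
    (hAdet0 : ∀ p, (A p).det ≠ 0)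
    (hvb : ∀ p, ‖q p.2.1.1‖ ^ 2 ≤ (1 + τ) * J * c ^ n * |((A p).det : ℝ)|) {δ : ℝ} (hδ0 : 0 < δ)
    (hKδ : (Fintype.card (ι × Sp1 × Bool) : ℝ) ^ 2 * Real.sqrt δ ≤ τ)
    (hKδ2 : (Fintype.card (ι × Sp1 × Bool) : ℝ) ^ 2 * δ ≤ τ) (hL0 : 0 < L)
    (hL1 : ∀ p p' : ι × Sp1 × Bool, p ≠ p' →
      (∫ x in (0 : ℝ)..1, ‖SS (scl c (A p)) (b p) L x‖ ^ 2 *
        ‖SS (scl c (A p')) (b p') L x‖ ^ 2) / ((L : ℝ) ^ n) ^ 2 ≤ δ)
    (hL2 : ∀ p : ι × Sp1 × Bool,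
      (∫ x in (0 : ℝ)..1, ‖SS (scl c (A p)) (b p) L x‖ ^ 2 *
        ‖SS (scl c (A p)) (b p) L x‖ ^ 2) / ((L : ℝ) ^ n) ^ 2 ≤
        1 / (c ^ n * |((A p).det : ℝ)|) + τ) (α : UnitAddTorus (Fin k)) (base : ι → ℝ)
    (f : ℝ → ℂ) (hf : ∀ x, f x = ∑ p : ι × Sp1 × Bool, cf q α p * e1 (base p.1 * x) *
      SS (scl c (A p)) (b p) L x) :
    ∫ x in (0 : ℝ)..1, |‖f x‖ ^ 2 / (J * (L : ℝ) ^ n) - 1| ≤ τ + Real.sqrt (5 * τ) := by
  have hJ0 : (0 : ℝ) < J := by linarith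
  have hLr : (0 : ℝ) < (L : ℝ) ^ n := by
    have : (0 : ℝ) < L := by exact_mod_cast hL0
    positivity
  obtain ⟨γ, hγ⟩ : ∃ γ : ι × Sp1 × Bool → ℝ → ℂ,
    γ = fun p x => cf q α p * e1 (base p.1 * x) / (Real.sqrt J : ℂ) := ⟨_, rfl⟩
  have hsJ : (Real.sqrt J : ℂ) ≠ 0 := by
    exact_mod_cast (Real.sqrt_pos.2 hJ0).ne'
  have hfγ : ∀ x, f x = (Real.sqrt J : ℂ) * ∑ p, γ p x * SS (scl c (A p)) (b p) L x := by
    intro x
    rw [hf, Finset.mul_sum]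
    refine Finset.sum_congr rfl fun p _ => ?_
    rw [hγ]
    beta_reduce
    field_simp
  have hfn : ∀ x, ‖f x‖ ^ 2 / (J * (L : ℝ) ^ n) =
      ‖∑ p, γ p x * SS (scl c (A p)) (b p) L x‖ ^ 2 / (L : ℝ) ^ n := by
    intro x
    rw [hfγ, norm_mul, mul_pow, Complex.norm_real, Real.norm_of_nonneg (Real.sqrt_nonneg _),
      Real.sq_sqrt hJ0.le]
    field_simp
  have hγc : ∀ p, Continuous (γ p) := by
    intro p
    rw [hγ]
    exact (continuous_const.mul (continuous_e1.comp (continuous_const.mul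
      continuous_id))).div_const _
  have hγw : ∀ p x, ‖γ p x‖ ^ 2 = ‖q p.2.1.1‖ ^ 2 / J := by
    intro p x
    rw [hγ]
    beta_reduce
    rw [norm_div, norm_mul, norm_cf, norm_e1, mul_one, div_pow, Complex.norm_real,
      Real.norm_of_nonneg (Real.sqrt_nonneg _), Real.sq_sqrt hJ0.le]
  have hwsum : ∑ p : ι × Sp1 × Bool, ‖q p.2.1.1‖ ^ 2 / (J : ℝ) = 2 * V := by
    rw [Fintype.sum_prod_type]
    simp only [Fintype.sum_prod_type, Finset.sum_const, Finset.card_univ,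
      nsmul_eq_mul, Fintype.card_bool]
    rw [← hJ, Finset.sum_coe_sort Sp1 (fun m => ((2 : ℕ) : ℝ) * (‖q m‖ ^ 2 / (J : ℝ))),
      hV, Finset.mul_sum, Finset.mul_sum]
    refine Finset.sum_congr rfl fun m _ => ?_
    push_cast
    field_simp
  have hvle : ∀ m ∈ Sp1, ‖q m‖ ^ 2 ≤ 1 := by
    intro m hm
    have h1 : ‖q m‖ ^ 2 ≤ ∑ m ∈ Sp1, ‖q m‖ ^ 2 :=
      Finset.single_le_sum (f := fun m => ‖q m‖ ^ 2) (fun _ _ => by positivity) hm
    rw [← hV] at h1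
    linarith
  have hMM : ∀ p : ι × Sp1 × Bool, ‖q p.2.1.1‖ ^ 2 / (J : ℝ) *
      (1 / (c ^ n * |((A p).det : ℝ)|) + τ) ≤ 1 + 2 * τ := by
    intro p
    have h1 := hvb p
    have h2 : 0 < |((A p).det : ℝ)| := abs_pos.2 (by exact_mod_cast hAdet0 p)
    have h3 : 0 < c ^ n * |((A p).det : ℝ)| := by positivity
    have h4 : ‖q p.2.1.1‖ ^ 2 / (J : ℝ) * (1 / (c ^ n * |((A p).det : ℝ)|)) ≤ 1 + τ := by
      rw [div_mul_div_comm, mul_one, div_le_iff₀ (by positivity)]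
      calc ‖q p.2.1.1‖ ^ 2 ≤ _ := h1
        _ = (1 + τ) * (J * (c ^ n * |((A p).det : ℝ)|)) := by ring
    have h5 : ‖q p.2.1.1‖ ^ 2 / (J : ℝ) ≤ 1 := by
      rw [div_le_one hJ0]
      exact (hvle _ p.2.1.2).trans hJ1
    rw [mul_add]
    nlinarith
  have hmain := main_estimate (fun p x => SS (scl c (A p)) (b p) L x) γ
    (fun p => ‖q p.2.1.1‖ ^ 2 / (J : ℝ)) (fun p => by positivity) (fun p => cont_SS _ _ _) hγc
    hγw hLr hδ0.le (fun p => integral_normSq hL0 _ _) hL1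
    (fun p => 1 / (c ^ n * |((A p).det : ℝ)|) + τ) hL2 (τ := 2 * τ) hMM
    (by rw [hwsum]; exact hV2) (by rw [hwsum]; linarith) (by linarith) (by linarith)
  simp only [hfn]
  refine hmain.trans ?_
  refine add_le_add hKδ (Real.sqrt_le_sqrt ?_)
  linarith

/-- the end of the proof -/
theorem wrap {f g : ℝ → ℂ} (hfc : Continuous f) (hg : Continuous g) {J R n L : ℕ} {τ : ℝ}
    (hτ0 : 0 < τ) (hJ0 : (0 : ℝ) < J) (hL0 : 0 < L) (hs5 : Real.sqrt (5 * τ) ≤ 1 / 2)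
    (hs2 : Real.sqrt (2 * τ) ≤ 1) (hτ1 : τ ≤ 1 / 1000) (hR1 : J ≤ R * 4 ^ n)
    (hR2 : R * 4 ^ n ≤ J + 4 ^ n) (hJ4 : (4 : ℝ) ^ n ≤ τ * J)
    (hest : ∫ x in (0 : ℝ)..1, |‖f x‖ ^ 2 / (J * (L : ℝ) ^ n) - 1| ≤ τ + Real.sqrt (5 * τ))
    (hgint : ∫ x in (0 : ℝ)..1, ‖g x‖ ^ 2 ≤ ((R * (4 * L) ^ n : ℕ) : ℝ) -
      J * (L : ℝ) ^ n + J * (L : ℝ) ^ n * τ) :
    ∫ x in (0 : ℝ)..1, |‖f x + g x‖ ^ 2 / ((R * (4 * L) ^ n : ℕ) : ℝ) - 1| ≤
      3 * (τ + Real.sqrt (5 * τ)) + 5 * Real.sqrt (2 * τ) := by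
  have hLr : (0 : ℝ) < (L : ℝ) ^ n := by
    have : (0 : ℝ) < L := by exact_mod_cast hL0
    positivity
  obtain ⟨W, hW⟩ : ∃ W : ℝ, W = (L : ℝ) ^ n := ⟨_, rfl⟩
  obtain ⟨Q, hQ⟩ : ∃ Q : ℝ, Q = ((R * 4 ^ n : ℕ) : ℝ) := ⟨_, rfl⟩
  have hNr : ((R * (4 * L) ^ n : ℕ) : ℝ) = Q * W := by
    rw [hQ, hW]
    push_cast
    rw [mul_pow]
    ring
  rw [← hW] at hLr hest hgint
  have hR1' : (J : ℝ) ≤ Q := by
    rw [hQ]
    exact_mod_cast hR1
  have hR2' : Q ≤ (1 + τ) * J := by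
    rw [hQ]
    have h1 : ((R * 4 ^ n : ℕ) : ℝ) ≤ ((J + 4 ^ n : ℕ) : ℝ) := by exact_mod_cast hR2
    push_cast at h1 ⊢
    linarith
  have hs : 0 ≤ Real.sqrt (5 * τ) := Real.sqrt_nonneg _
  rw [hNr] at hgint ⊢
  have h5 : Q * W ≤ (1 + τ) * J * W := mul_le_mul_of_nonneg_right hR2' hLr.le
  have h6 : (J : ℝ) * W ≤ Q * W := mul_le_mul_of_nonneg_right hR1' hLr.le
  have h7 : 2 * τ * (J * W) ≤ 2 * τ * (Q * W) := mul_le_mul_of_nonneg_left h6 (by positivity)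
  have hJW : 0 < (J : ℝ) * W := mul_pos hJ0 hLr
  have h8 : Q * W ≤ (1 + (τ + Real.sqrt (5 * τ))) * (J * W) := by nlinarith
  have h9 : ∫ x in (0 : ℝ)..1, ‖g x‖ ^ 2 ≤ Real.sqrt (2 * τ) ^ 2 * (Q * W) := by
    rw [Real.sq_sqrt (by positivity)]
    nlinarith
  exact perturb hfc hg hJW h6 h8 (by positivity) (by linarith) (Real.sqrt_nonneg _) hs2 hest h9

/-- the shift -/
theorem shift_part {k : ℕ} (F : UnitAddTorus (Fin k) → ℝ) (hF : Measurable F)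
    (hF1 : ∀ x, F x = 1 ∨ F x = -1) (Sp1 : Finset (Fin k → ℤ)) (q : (Fin k → ℤ) → ℂ) {V : ℝ}
    (hint : ∫ x, ‖(F x : ℂ) - ∑ m ∈ Sp1, (q m * UnitAddTorus.mFourier m x +
        conj (q m) * UnitAddTorus.mFourier (-m) x)‖ ^ 2 = 1 - 2 * V) {Y : Type} [Fintype Y]
    (p : Y → UnitAddTorus (Fin k)) :
    ∃ α : UnitAddTorus (Fin k), ∑ y, ‖(F (p y + α) : ℂ) - ∑ m ∈ Sp1,
      (q m * UnitAddTorus.mFourier m (p y + α) +
        conj (q m) * UnitAddTorus.mFourier (-m) (p y + α))‖ ^ 2 ≤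
      Fintype.card Y * (1 - 2 * V) := by
  obtain ⟨G, hG⟩ : ∃ G : UnitAddTorus (Fin k) → ℝ, G = fun x => ‖(F x : ℂ) - ∑ m ∈ Sp1,
    (q m * UnitAddTorus.mFourier m x + conj (q m) * UnitAddTorus.mFourier (-m) x)‖ ^ 2 := ⟨_, rfl⟩
  have hGm : Measurable G := by
    rw [hG]
    refine Measurable.pow_const (Measurable.norm (Measurable.sub (by fun_prop) ?_)) 2
    refine Finset.measurable_fun_sum _ fun m _ => ?_
    refine Measurable.add ?_ ?_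
    · exact (UnitAddTorus.mFourier m).continuous.measurable.const_mul _
    · exact (UnitAddTorus.mFourier (-m)).continuous.measurable.const_mul _
  have hG0 : ∀ x, 0 ≤ G x := fun x => by
    rw [hG]
    positivity
  have hGC : ∀ x, G x ≤ (1 + ∑ m ∈ Sp1, (‖q m‖ + ‖q m‖)) ^ 2 := by
    intro x
    rw [hG]
    refine pow_le_pow_left₀ (norm_nonneg _) ?_ 2
    refine (norm_sub_le _ _).trans (add_le_add ?_ ?_)
    · rcases hF1 x with h | h <;> simp [h]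
    · refine (norm_sum_le _ _).trans (Finset.sum_le_sum fun m _ => ?_)
      refine (norm_add_le _ _).trans (le_of_eq ?_)
      rw [norm_mul, norm_mul, norm_mFourier', norm_mFourier', mul_one, mul_one,
        RCLike.norm_conj]
  obtain ⟨α, hα⟩ := exists_shift k G hGm hG0 hGC p
  have hGI : ∫ x, G x = 1 - 2 * V := by
    rw [hG]
    exact hint
  rw [hGI, hG] at hα
  exact ⟨α, hα⟩

/-- the polynomial for given cells -/
theorem poly_part {k n L J R : ℕ} (hJ1 : (1 : ℝ) ≤ J) {ι : Type} [Fintype ι] [DecidableEq ι]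
    (hJ : J = Fintype.card ι) {c : ℝ} (hc : 0 < c)
    (F : UnitAddTorus (Fin k) → ℝ) (hF : Measurable F)
    (hF1 : ∀ x, F x = 1 ∨ F x = -1) (Sp1 : Finset (Fin k → ℤ))
    (q : (Fin k → ℤ) → ℂ) {V : ℝ} (hV : V = ∑ m ∈ Sp1, ‖q m‖ ^ 2) (hV2 : 2 * V ≤ 1) {τ : ℝ}
    (hint : ∫ x, ‖(F x : ℂ) - ∑ m ∈ Sp1, (q m * UnitAddTorus.mFourier m x +
        conj (q m) * UnitAddTorus.mFourier (-m) x)‖ ^ 2 = 1 - 2 * V)
    (hτ0 : 0 < τ) (hτ1 : τ ≤ 1 / 1000) (hVτ : 1 - τ ≤ 2 * V)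
    (H : ι → Fin k → Matrix (Fin n) (Fin n) ℤ) (β : ι → Fin k → Fin n → ℝ)
    (hdet : ∀ j, ∀ m ∈ Sp1, (∑ i, m i • H j i).det ≠ 0)
    (hvb : ∀ j, ∀ m ∈ Sp1, ‖q m‖ ^ 2 ≤
      (1 + τ) * J * c ^ n * |((∑ i, m i • H j i).det : ℝ)|)
    {δ : ℝ} (hδ0 : 0 < δ)
    (hKδ : (Fintype.card (ι × Sp1 × Bool) : ℝ) ^ 2 * Real.sqrt δ ≤ τ)
    (hKδ2 : (Fintype.card (ι × Sp1 × Bool) : ℝ) ^ 2 * δ ≤ τ) (hL0 : 0 < L)
    (hL1 : ∀ p p' : ι × Sp1 × Bool, p ≠ p' →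
      (∫ x in (0 : ℝ)..1, ‖SS (scl c (∑ i, (sgz p.2.2 * p.2.1.1 i) • H p.1 i))
          (fun a => ∑ i, ((sgz p.2.2 * p.2.1.1 i : ℤ) : ℝ) * β p.1 i a) L x‖ ^ 2 *
        ‖SS (scl c (∑ i, (sgz p'.2.2 * p'.2.1.1 i) • H p'.1 i))
          (fun a => ∑ i, ((sgz p'.2.2 * p'.2.1.1 i : ℤ) : ℝ) * β p'.1 i a) L x‖ ^ 2) /
          ((L : ℝ) ^ n) ^ 2 ≤ δ)
    (hL2 : ∀ p : ι × Sp1 × Bool,
      (∫ x in (0 : ℝ)..1, ‖SS (scl c (∑ i, (sgz p.2.2 * p.2.1.1 i) • H p.1 i))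
          (fun a => ∑ i, ((sgz p.2.2 * p.2.1.1 i : ℤ) : ℝ) * β p.1 i a) L x‖ ^ 2 *
        ‖SS (scl c (∑ i, (sgz p.2.2 * p.2.1.1 i) • H p.1 i))
          (fun a => ∑ i, ((sgz p.2.2 * p.2.1.1 i : ℤ) : ℝ) * β p.1 i a) L x‖ ^ 2) /
          ((L : ℝ) ^ n) ^ 2 ≤
        1 / (c ^ n * |((∑ i, (sgz p.2.2 * p.2.1.1 i) • H p.1 i).det : ℝ)|) + τ)
    (hs5 : Real.sqrt (5 * τ) ≤ 1 / 2)
    (hs2 : Real.sqrt (2 * τ) ≤ 1) (hR1 : J ≤ R * 4 ^ n)
    (hR2 : R * 4 ^ n ≤ J + 4 ^ n) (hJ4 : (4 : ℝ) ^ n ≤ τ * J) :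
    ∃ a : ℕ → ℝ, (∀ j, a j = 1 ∨ a j = -1) ∧
      ∫ x in (0 : ℝ)..1, |‖∑ j ∈ Finset.range (R * (4 * L) ^ n), (a j : ℂ) * e1 (j * x)‖ ^ 2 /
        ((R * (4 * L) ^ n : ℕ) : ℝ) - 1| ≤ 3 * (τ + Real.sqrt (5 * τ)) + 5 * Real.sqrt (2 * τ) := by
  obtain ⟨sl, hsl⟩ := exists_emb (ι := ι) (n := n) (R := R) (by rw [← hJ]; exact hR1)
  obtain ⟨α, hα⟩ := shift_part F hF hF1 Sp1 q hint
    (fun y : ι × (Fin n → Fin L) => fun i => (phi c L (H y.1) (β y.1) y.2 i : UnitAddCircle))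
  rw [Fintype.card_prod, Fintype.card_fun, Fintype.card_fin, Fintype.card_fin,
    Fintype.sum_prod_type, ← hJ] at hα
  obtain ⟨a, base, g, ha, hg, hpoly, hgint⟩ := exists_poly hL0 sl hsl F hF1
    (fun j y => ∑ m ∈ Sp1, (q m * UnitAddTorus.mFourier m
        ((fun i => (phi c L (H j) (β j) y i : UnitAddCircle)) + α) +
      conj (q m) * UnitAddTorus.mFourier (-m)
        ((fun i => (phi c L (H j) (β j) y i : UnitAddCircle)) + α)))
    (fun j y => (fun i => (phi c L (H j) (β j) y i : UnitAddCircle)) + α)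
  obtain ⟨f, hf⟩ : ∃ f : ℝ → ℂ, f = fun x => ∑ j, ∑ y : Fin n → Fin L, (∑ m ∈ Sp1,
      (q m * UnitAddTorus.mFourier m
        ((fun i => (phi c L (H j) (β j) y i : UnitAddCircle)) + α) +
      conj (q m) * UnitAddTorus.mFourier (-m)
        ((fun i => (phi c L (H j) (β j) y i : UnitAddCircle)) + α))) *
    e1 ((base j + ∑ i : Fin n, ((y i : ℕ) : ℝ) * ((4 * L : ℕ) : ℝ) ^ (i : ℕ)) * x) := ⟨_, rfl⟩
  have hfc : Continuous f := by
    rw [hf]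
    refine continuous_finsetSum _ fun j _ => continuous_finsetSum _ fun y _ => ?_
    exact continuous_const.mul (continuous_e1.comp (continuous_const.mul continuous_id))
  refine ⟨a, ha, ?_⟩
  have h1 : (fun x : ℝ => |‖∑ j ∈ Finset.range (R * (4 * L) ^ n), (a j : ℂ) * e1 (j * x)‖ ^ 2 /
        ((R * (4 * L) ^ n : ℕ) : ℝ) - 1|) =
        fun x => |‖f x + g x‖ ^ 2 / ((R * (4 * L) ^ n : ℕ) : ℝ) - 1| := by
    funext x
    rw [hpoly, hf]
  rw [h1]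
  have hAdet : ∀ p : ι × Sp1 × Bool, |((∑ i, (sgz p.2.2 * p.2.1.1 i) • H p.1 i).det : ℝ)| =
      |((∑ i, p.2.1.1 i • H p.1 i).det : ℝ)| := fun p => sgn_det (sgz_cases _) _ _
  refine wrap hfc hg hτ0 (by linarith) hL0 hs5 hs2 hτ1 hR1 hR2 hJ4 ?_ ?_
  · refine main_part hJ1 hJ hc Sp1 q hV hV2 hτ0 hτ1 hVτ
      (fun p => ∑ i, (sgz p.2.2 * p.2.1.1 i) • H p.1 i)
      (fun p a => ∑ i, ((sgz p.2.2 * p.2.1.1 i : ℤ) : ℝ) * β p.1 i a) ?_ ?_ hδ0 hKδ hKδ2 hL0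
      hL1 hL2 α base f ?_
    · intro p h
      have h1 := hAdet p
      rw [h, Int.cast_zero, abs_zero] at h1
      have h2 := abs_eq_zero.1 h1.symm
      exact hdet p.1 p.2.1.1 p.2.1.2 (by exact_mod_cast h2)
    · intro p
      rw [hAdet]
      exact hvb p.1 p.2.1.1 p.2.1.2
    · intro x
      rw [hf]
      exact f_decomp c L H β Sp1 q α base x
  · rw [hgint, ← hJ]
    refine add_le_add le_rfl (hα.trans ?_)
    push_cast
    refine mul_le_mul_of_nonneg_left ?_ (by positivity)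
    linarith

end Vale.Agent.P110F
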