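import Vale.Agent.Lib.P110F.Defs

/-! P110F CellSum: the polynomial over one cell. -/

namespace Vale.Agent.P110F

open MeasureTheory Filter Topology
open scoped ComplexConjugate ENNReal

/-- The phases of one cell. -/
noncomputable def phi {n k : ℕ} (c : ℝ) (L : ℕ) (H : Fin k → Matrix (Fin n) (Fin n) ℤ)
    (β : Fin k → Fin n → ℝ) (y : Fin n → Fin L) (i : Fin k) : ℝ :=
  quad (scl c (H i)) (fun a => ((y a : ℕ) : ℝ)) / (2 * L) + ∑ a, β i a * ((y a : ℕ) : ℝ)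

theorem phi_sum {n k : ℕ} (c : ℝ) (L : ℕ) (H : Fin k → Matrix (Fin n) (Fin n) ℤ)
    (β : Fin k → Fin n → ℝ) (y : Fin n → Fin L) (m : Fin k → ℤ) :
    ∑ i, (m i : ℝ) * phi c L H β y i =
      quad (scl c (∑ i, m i • H i)) (fun a => ((y a : ℕ) : ℝ)) / (2 * L) +
        ∑ a, (∑ i, (m i : ℝ) * β i a) * ((y a : ℕ) : ℝ) := by
  unfold phi
  simp only [mul_add, Finset.sum_add_distrib]
  congr 1
  · unfold quad scl
    have h1 : ∀ i, (m i : ℝ) * ((∑ a, ∑ b, ((y a : ℕ) : ℝ) * (c * (H i a b : ℝ)) * ((y b : ℕ) : ℝ)) /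
        (2 * L)) = (∑ a, ∑ b, (m i : ℝ) * (((y a : ℕ) : ℝ) * (c * (H i a b : ℝ)) *
          ((y b : ℕ) : ℝ))) / (2 * L) := by
      intro i
      rw [mul_div_assoc', Finset.mul_sum]
      congr 1
      refine Finset.sum_congr rfl fun a _ => ?_
      rw [Finset.mul_sum]
    rw [Finset.sum_congr rfl fun i _ => h1 i, ← Finset.sum_div]
    congr 1
    rw [Finset.sum_comm]
    refine Finset.sum_congr rfl fun a _ => ?_
    rw [Finset.sum_comm]
    refine Finset.sum_congr rfl fun b _ => ?_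
    rw [Matrix.sum_apply]
    push_cast
    rw [Finset.mul_sum, Finset.mul_sum, Finset.sum_mul]
    refine Finset.sum_congr rfl fun i _ => ?_
    rw [Matrix.smul_apply, smul_eq_mul]
    push_cast
    ring
  · have h1 : ∀ i, (m i : ℝ) * (∑ a, β i a * ((y a : ℕ) : ℝ)) =
        ∑ a, (m i : ℝ) * (β i a * ((y a : ℕ) : ℝ)) := fun i => Finset.mul_sum _ _ _
    rw [Finset.sum_congr rfl fun i _ => h1 i, Finset.sum_comm]
    refine Finset.sum_congr rfl fun a _ => ?_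
    rw [Finset.sum_mul]
    exact Finset.sum_congr rfl fun i _ => by ring

theorem cell_sum {n k : ℕ} (c : ℝ) (L : ℕ) (H : Fin k → Matrix (Fin n) (Fin n) ℤ)
    (β : Fin k → Fin n → ℝ) (m : Fin k → ℤ) (base x : ℝ) :
    ∑ y : Fin n → Fin L, e1 ((base + ∑ i : Fin n, ((y i : ℕ) : ℝ) * ((4 * L : ℕ) : ℝ) ^ (i : ℕ)) * x) *
      e1 (∑ i, (m i : ℝ) * phi c L H β y i) =
      e1 (base * x) * SS (scl c (∑ i, m i • H i)) (fun a => ∑ i, (m i : ℝ) * β i a) L x := by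
  unfold SS
  rw [Finset.mul_sum]
  refine Finset.sum_congr rfl fun y _ => ?_
  rw [phi_sum, ← e1_add, ← e1_add]
  congr 1
  rw [add_mul]
  have h1 : ∑ i, (∑ i', (m i' : ℝ) * β i' i + kr n L x i) * ((y i : ℕ) : ℝ) =
      ∑ i, (∑ i', (m i' : ℝ) * β i' i) * ((y i : ℕ) : ℝ) +
        (∑ i : Fin n, ((y i : ℕ) : ℝ) * ((4 * L : ℕ) : ℝ) ^ (i : ℕ)) * x := by
    rw [Finset.sum_mul, ← Finset.sum_add_distrib]
    refine Finset.sum_congr rfl fun i _ => ?_
    unfold kr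
    ring
  rw [h1]
  ring

end Vale.Agent.P110F
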