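import Mathlib
import Vale.Agent.Lib.P110F.Defs

/-!
P110F/C1: the stopped walk is measurable and bounded.
-/

namespace Vale.Agent.P110F

open MeasureTheory Filter Topology
open scoped ComplexConjugate ENNReal

private theorem XX_succ (η : ℝ) (k : ℕ) (x : UnitAddTorus (Fin (k + 1))) :
    XX η (k + 1) x = XX η k (fun i => x i.castSucc) +
      (if |XX η k (fun i => x i.castSucc)| < 1 then
        η * Real.sqrt 2 * (fourier 1 (x (Fin.last k)) : ℂ).re else 0) := rfl

theorem measurable_XX (η : ℝ) (k : ℕ) : Measurable (XX η k) := by
  induction k with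
  | zero => exact measurable_const
  | succ k ih =>
    have h1 : Measurable (fun x : UnitAddTorus (Fin (k + 1)) => XX η k (fun i => x i.castSucc)) :=
      ih.comp (measurable_pi_lambda _ fun i => measurable_pi_apply _)
    have h2 : Measurable (fun x : UnitAddTorus (Fin (k + 1)) =>
        η * Real.sqrt 2 * (fourier 1 (x (Fin.last k)) : ℂ).re) := by
      refine Measurable.const_mul ?_ _
      refine Complex.measurable_re.comp ?_
      exact (map_continuous (fourier (T := (1 : ℝ)) 1)).measurable.comp (measurable_pi_apply _)
    have h3 : MeasurableSet {x : UnitAddTorus (Fin (k + 1)) |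
        |XX η k (fun i => x i.castSucc)| < 1} :=
      measurableSet_lt (continuous_abs.measurable.comp h1) measurable_const
    exact h1.add (Measurable.ite h3 h2 measurable_const)

theorem abs_XX_le {η : ℝ} (hη : 0 < η) (k : ℕ) (x : UnitAddTorus (Fin k)) :
    |XX η k x| ≤ 1 + Real.sqrt 2 * η := by
  have hs : 0 ≤ Real.sqrt 2 * η := by positivity
  induction k with
  | zero =>
    have h0 : XX η 0 x = 0 := rfl
    rw [h0, abs_zero]
    linarith
  | succ k ih =>
    rw [XX_succ]
    by_cases h : |XX η k (fun i => x i.castSucc)| < 1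
    · rw [if_pos h]
      have h1 : |(fourier 1 (x (Fin.last k)) : ℂ).re| ≤ 1 := by
        refine (Complex.abs_re_le_norm _).trans (le_of_eq ?_)
        rw [fourier_apply]
        exact Circle.norm_coe _
      calc |XX η k (fun i => x i.castSucc) +
            η * Real.sqrt 2 * (fourier 1 (x (Fin.last k)) : ℂ).re|
          ≤ |XX η k (fun i => x i.castSucc)| +
            |η * Real.sqrt 2 * (fourier 1 (x (Fin.last k)) : ℂ).re| := abs_add_le _ _
        _ ≤ 1 + Real.sqrt 2 * η := by
          refine add_le_add h.le ?_
          rw [abs_mul, abs_mul, abs_of_pos hη, abs_of_nonneg (Real.sqrt_nonneg 2)]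
          calc η * Real.sqrt 2 * |(fourier 1 (x (Fin.last k)) : ℂ).re|
              ≤ η * Real.sqrt 2 * 1 := mul_le_mul_of_nonneg_left h1 (by positivity)
            _ = Real.sqrt 2 * η := by ring
    · rw [if_neg h, add_zero]
      exact ih _

end Vale.Agent.P110F
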