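import Mathlib
import Vale.Agent.Lib.P110F.Defs
import Vale.Agent.Lib.P110F.C1

namespace Vale.Agent.P110F

open MeasureTheory Filter Topology
open scoped ComplexConjugate ENNReal

private lemma C2_prob : IsProbabilityMeasure (volume : Measure UnitAddCircle) :=
  ⟨by simp⟩

private lemma C2_int_fourier {n : ℤ} (hn : n ≠ 0) :
    ∫ c : UnitAddCircle, ((fourier n c : ℂ)).re = 0 := by
  refine integral_eq_zero_of_add_right_eq_neg (μ := (volume : Measure UnitAddCircle))
    (g := (((1 : ℝ) / 2 / n : ℝ) : UnitAddCircle)) ?_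
  intro x
  rw [fourier_add_half_inv_index hn one_pos x]
  simp

private lemma C2_integrable (n : ℤ) :
    Integrable (fun c : UnitAddCircle => ((fourier n c : ℂ)).re) := by
  have : Continuous fun c : UnitAddCircle => ((fourier n c : ℂ)).re := by fun_prop
  exact this.integrable_of_hasCompactSupport (HasCompactSupport.of_compactSpace _)

private lemma C2_integrable_sq (n : ℤ) :
    Integrable (fun c : UnitAddCircle => ((fourier n c : ℂ)).re ^ 2) := by
  have : Continuous fun c : UnitAddCircle => ((fourier n c : ℂ)).re ^ 2 := by fun_prop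
  exact this.integrable_of_hasCompactSupport (HasCompactSupport.of_compactSpace _)

private lemma C2_int_sq : ∫ c : UnitAddCircle, ((fourier 1 c : ℂ)).re ^ 2 = 1 / 2 := by
  have h : ∀ c : UnitAddCircle, ((fourier 1 c : ℂ)).re ^ 2 =
      1 / 2 + (1 / 2) * ((fourier 2 c : ℂ)).re := by
    intro c
    have h1 : (fourier 2 c : ℂ) = fourier 1 c * fourier 1 c := by
      rw [← fourier_add]
      norm_num
    have h2 : Complex.normSq (fourier 1 c : ℂ) = 1 := by
      rw [Complex.normSq_eq_norm_sq, fourier_apply, Circle.norm_coe]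
      norm_num
    rw [h1, Complex.mul_re]
    rw [Complex.normSq_apply] at h2
    nlinarith
  simp_rw [h]
  have := C2_prob
  rw [integral_add (integrable_const _) ((C2_integrable 2).const_mul _), integral_const_mul,
    C2_int_fourier (by norm_num)]
  simp

/-- The inner integral. -/
private lemma C2_inner (X s : ℝ) (η : ℝ) :
    ∫ c : UnitAddCircle, (X + s * (η * Real.sqrt 2 * ((fourier 1 c : ℂ)).re)) ^ 2 =
      X ^ 2 + s ^ 2 * η ^ 2 := by
  have := C2_prob
  have h : ∀ c : UnitAddCircle, (X + s * (η * Real.sqrt 2 * ((fourier 1 c : ℂ)).re)) ^ 2 =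
      X ^ 2 + ((2 * X * s * η * Real.sqrt 2) * ((fourier 1 c : ℂ)).re +
        (2 * s ^ 2 * η ^ 2) * ((fourier 1 c : ℂ)).re ^ 2) := by
    intro c
    have h2 : Real.sqrt 2 ^ 2 = 2 := Real.sq_sqrt (by norm_num)
    linear_combination (s ^ 2 * η ^ 2 * ((fourier 1 c : ℂ)).re ^ 2) * h2
  simp_rw [h]
  have hi : Integrable (fun c : UnitAddCircle =>
      (2 * X * s * η * Real.sqrt 2) * ((fourier 1 c : ℂ)).re +
        (2 * s ^ 2 * η ^ 2) * ((fourier 1 c : ℂ)).re ^ 2) :=
    ((C2_integrable 1).const_mul _).add ((C2_integrable_sq 1).const_mul _)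
  rw [integral_add (integrable_const _) hi,
    integral_add ((C2_integrable 1).const_mul _) ((C2_integrable_sq 1).const_mul _),
    integral_const_mul, integral_const_mul, C2_int_fourier one_ne_zero, C2_int_sq]
  simp
  ring

private lemma C2_succ (η : ℝ) (k : ℕ) (x : UnitAddTorus (Fin (k + 1))) :
    XX η (k + 1) x = XX η k (fun i => x i.castSucc) +
      (if |XX η k (fun i => x i.castSucc)| < 1 then (1 : ℝ) else 0) *
        (η * Real.sqrt 2 * ((fourier 1 (x (Fin.last k)) : ℂ)).re) := by
  rw [XX]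
  split_ifs <;> ring

private lemma C2_meas (η : ℝ) (k : ℕ) :
    MeasurableSet {x : UnitAddTorus (Fin k) | |XX η k x| < 1} :=
  measurableSet_lt (measurable_XX η k).abs measurable_const

private lemma C2_sq_le {η : ℝ} (hη : 0 < η) (k : ℕ) (x : UnitAddTorus (Fin k)) :
    (XX η k x) ^ 2 ≤ (1 + Real.sqrt 2 * η) ^ 2 := by
  have := abs_XX_le hη k x
  exact sq_le_sq' (by linarith [abs_le.1 this]) (abs_le.1 this).2

private lemma C2_sq_int {η : ℝ} (hη : 0 < η) (k : ℕ) :
    Integrable (fun x : UnitAddTorus (Fin k) => (XX η k x) ^ 2) := by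
  have := C2_prob
  refine Integrable.of_bound ((measurable_XX η k).pow_const 2).aestronglyMeasurable
    ((1 + Real.sqrt 2 * η) ^ 2) (Eventually.of_forall fun x => ?_)
  rw [Real.norm_eq_abs, abs_of_nonneg (sq_nonneg _)]
  exact C2_sq_le hη k x

/-- One step of the variance. -/
private lemma C2_step {η : ℝ} (hη : 0 < η) (k : ℕ) :
    ∫ x : UnitAddTorus (Fin (k + 1)), (XX η (k + 1) x) ^ 2 =
      (∫ x : UnitAddTorus (Fin k), (XX η k x) ^ 2) +
        η ^ 2 * volume.real {x : UnitAddTorus (Fin k) | |XX η k x| < 1} := by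
  have := C2_prob
  have hmp := volume_preserving_piFinSuccAbove (fun _ : Fin (k + 1) => UnitAddCircle) (Fin.last k)
  set g : UnitAddCircle × (Fin k → UnitAddCircle) → ℝ := fun q =>
    (XX η k q.2 + (if |XX η k q.2| < 1 then (1 : ℝ) else 0) *
        (η * Real.sqrt 2 * ((fourier 1 q.1 : ℂ)).re)) ^ 2 with hg
  have h1 : ∫ x : UnitAddTorus (Fin (k + 1)), (XX η (k + 1) x) ^ 2 = ∫ q, g q := by
    rw [← hmp.integral_comp']
    refine integral_congr_ae (Eventually.of_forall fun x => ?_)
    simp only [hg, C2_succ]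
    have e : (fun i : Fin k => x i.castSucc) = (Fin.last k).removeNth x := by
      ext i
      simp [Fin.removeNth]
    simp only [MeasurableEquiv.piFinSuccAbove_apply, Fin.insertNthEquiv_symm_apply, e]
  have hgi : Integrable g := by
    have h2 : Integrable (fun x : UnitAddTorus (Fin (k + 1)) => (XX η (k + 1) x) ^ 2) :=
      C2_sq_int hη (k + 1)
    have h3 : (fun x : UnitAddTorus (Fin (k + 1)) => (XX η (k + 1) x) ^ 2) =
        g ∘ (MeasurableEquiv.piFinSuccAbove (fun _ : Fin (k + 1) => UnitAddCircle) (Fin.last k)) := by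
      ext x
      simp only [hg, C2_succ, Function.comp]
      have e : (fun i : Fin k => x i.castSucc) = (Fin.last k).removeNth x := by
        ext i
        simp [Fin.removeNth]
      simp only [MeasurableEquiv.piFinSuccAbove_apply, Fin.insertNthEquiv_symm_apply, e]
    rw [h3] at h2
    exact (hmp.integrable_comp_emb (MeasurableEquiv.measurableEmbedding _)).1 h2
  rw [h1]
  have h4 : ∫ q, g q = ∫ y : Fin k → UnitAddCircle, ∫ c : UnitAddCircle, g (c, y) :=
    integral_prod_symm g hgi
  rw [h4]
  have h5 : ∀ y : Fin k → UnitAddCircle, ∫ c : UnitAddCircle, g (c, y) =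
      (XX η k y) ^ 2 + η ^ 2 * Set.indicator {x : UnitAddTorus (Fin k) | |XX η k x| < 1} 1 y := by
    intro y
    refine (C2_inner (XX η k y) (if |XX η k y| < 1 then (1 : ℝ) else 0) η).trans ?_
    by_cases hy : |XX η k y| < 1
    · simp [hy, Set.indicator]
    · simp [hy, Set.indicator]
  simp_rw [h5]
  have h6 : Integrable (fun y : UnitAddTorus (Fin k) =>
      η ^ 2 * Set.indicator {x : UnitAddTorus (Fin k) | |XX η k x| < 1} (1 : UnitAddTorus (Fin k) → ℝ) y) :=
    Integrable.const_mul ((integrable_const (1 : ℝ)).indicator (C2_meas η k)) _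
  refine (integral_add (C2_sq_int hη k) h6).trans ?_
  rw [integral_const_mul, integral_indicator_one (C2_meas η k)]

private lemma C2_mono {η : ℝ} (k : ℕ) :
    volume.real {x : UnitAddTorus (Fin (k + 1)) | |XX η (k + 1) x| < 1} ≤
      volume.real {x : UnitAddTorus (Fin k) | |XX η k x| < 1} := by
  have := C2_prob
  have hmp := volume_preserving_piFinSuccAbove (fun _ : Fin (k + 1) => UnitAddCircle) (Fin.last k)
  have hsub : {x : UnitAddTorus (Fin (k + 1)) | |XX η (k + 1) x| < 1} ⊆
      (MeasurableEquiv.piFinSuccAbove (fun _ : Fin (k + 1) => UnitAddCircle) (Fin.last k)) ⁻¹'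
        (Set.univ ×ˢ {x : UnitAddTorus (Fin k) | |XX η k x| < 1}) := by
    intro x hx
    simp only [Set.mem_ofPred_eq, C2_succ] at hx
    have e : (fun i : Fin k => x i.castSucc) = (Fin.last k).removeNth x := by
      ext i
      simp [Fin.removeNth]
    simp only [Set.mem_preimage, Set.mem_prod, Set.mem_univ, true_and, Set.mem_ofPred_eq,
      MeasurableEquiv.piFinSuccAbove_apply, Fin.insertNthEquiv_symm_apply, ← e]
    by_contra hcon
    rw [if_neg hcon, zero_mul, add_zero] at hx
    exact hcon hx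
  calc volume.real {x : UnitAddTorus (Fin (k + 1)) | |XX η (k + 1) x| < 1}
      ≤ volume.real ((MeasurableEquiv.piFinSuccAbove (fun _ : Fin (k + 1) => UnitAddCircle)
          (Fin.last k)) ⁻¹' (Set.univ ×ˢ {x : UnitAddTorus (Fin k) | |XX η k x| < 1})) :=
        measureReal_mono hsub
    _ = volume.real {x : UnitAddTorus (Fin k) | |XX η k x| < 1} := by
        rw [Measure.real, hmp.measure_preimage_equiv]
        rw [show (volume : Measure (UnitAddCircle × (Fin k → UnitAddCircle))) =
          (volume : Measure UnitAddCircle).prod volume from rfl, Measure.prod_prod,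
          measure_univ, one_mul]
        rfl

private lemma C2_lower {η : ℝ} (hη : 0 < η) (k : ℕ) :
    k * η ^ 2 * volume.real {x : UnitAddTorus (Fin k) | |XX η k x| < 1} ≤
      ∫ x : UnitAddTorus (Fin k), (XX η k x) ^ 2 := by
  induction k with
  | zero =>
    simp only [Nat.cast_zero, zero_mul]
    exact integral_nonneg fun x => sq_nonneg _
  | succ k ih =>
    rw [C2_step hη k]
    have h1 := C2_mono (η := η) k
    have h2 : 0 ≤ ((k : ℝ) + 1) * η ^ 2 := by positivity
    push_cast
    nlinarith [mul_le_mul_of_nonneg_left h1 h2]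

theorem not_stopped_small {η : ℝ} (hη : 0 < η) (k : ℕ) :
    k * η ^ 2 * volume.real {x : UnitAddTorus (Fin k) | |XX η k x| < 1} ≤
      (1 + Real.sqrt 2 * η) ^ 2 := by
  have := C2_prob
  refine (C2_lower hη k).trans ?_
  calc ∫ x : UnitAddTorus (Fin k), (XX η k x) ^ 2
      ≤ ∫ _ : UnitAddTorus (Fin k), (1 + Real.sqrt 2 * η) ^ 2 :=
        integral_mono (C2_sq_int hη k) (integrable_const _) (C2_sq_le hη k)
    _ = (1 + Real.sqrt 2 * η) ^ 2 := by simp

end Vale.Agent.P110F
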