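import Mathlib
import Vale.Agent.Lib.P110F.Defs

/-!
P110F/C3: the Fourier coefficients of the stopped walk.
-/

namespace Vale.Agent.P110F

open MeasureTheory Filter Topology
open scoped ComplexConjugate ENNReal

private theorem c3_int (n : ℤ) :
    ∫ t, (fourier n t : ℂ) ∂(AddCircle.haarAddCircle (T := (1 : ℝ))) = if n = 0 then 1 else 0 := by
  have h := congrFun (fourierCoeff_fourier (T := (1 : ℝ)) n) 0
  unfold fourierCoeff at h
  simp only [neg_zero, fourier_zero, one_smul] at h
  rw [h, Pi.single_apply]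
  by_cases hn : n = 0
  · rw [if_pos hn, if_pos hn.symm]
  · rw [if_neg hn, if_neg (Ne.symm hn)]

private theorem c3_norm (n : ℤ) (t : UnitAddCircle) : ‖(fourier n t : ℂ)‖ = 1 := by
  rw [fourier_apply, Circle.norm_coe]

private theorem c3_meas (η : ℝ) : ∀ k, Measurable (XX η k) := by
  intro k
  induction k with
  | zero => exact measurable_const
  | succ k ih =>
    have h1 : Measurable fun x : UnitAddTorus (Fin (k + 1)) => fun i : Fin k => x i.castSucc :=
      measurable_pi_lambda _ fun i => measurable_pi_apply _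
    have h2 : Measurable fun x : UnitAddTorus (Fin (k + 1)) =>
        XX η k (fun i => x i.castSucc) := ih.comp h1
    have hm1 : Measurable fun x : UnitAddTorus (Fin (k + 1)) =>
        (fourier 1 (x (Fin.last k)) : ℂ) :=
      (fourier (T := (1 : ℝ)) 1).continuous.measurable.comp (measurable_pi_apply (Fin.last k))
    have h3 : Measurable fun x : UnitAddTorus (Fin (k + 1)) =>
        η * Real.sqrt 2 * (fourier 1 (x (Fin.last k)) : ℂ).re :=
      (Complex.measurable_re.comp hm1).const_mul _
    show Measurable fun x : UnitAddTorus (Fin (k + 1)) => XX η k (fun i => x i.castSucc) +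
      (if |XX η k (fun i => x i.castSucc)| < 1 then
        η * Real.sqrt 2 * (fourier 1 (x (Fin.last k)) : ℂ).re else 0)
    exact h2.add (Measurable.ite (measurableSet_lt (by fun_prop) measurable_const) h3
      measurable_const)

private theorem c3_bound (η : ℝ) : ∀ k (x : UnitAddTorus (Fin k)),
    |XX η k x| ≤ k * (|η| * Real.sqrt 2) := by
  intro k
  induction k with
  | zero => intro x; simp [XX]
  | succ k ih =>
    intro x
    show |XX η k (fun i => x i.castSucc) + (if |XX η k (fun i => x i.castSucc)| < 1 then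
        η * Real.sqrt 2 * (fourier 1 (x (Fin.last k)) : ℂ).re else 0)| ≤ _
    refine (abs_add_le _ _).trans ?_
    have h1 := ih fun i => x i.castSucc
    have h2 : |(if |XX η k (fun i => x i.castSucc)| < 1 then
        η * Real.sqrt 2 * (fourier 1 (x (Fin.last k)) : ℂ).re else 0)| ≤ |η| * Real.sqrt 2 := by
      split_ifs
      · rw [abs_mul, abs_mul, abs_of_nonneg (Real.sqrt_nonneg 2)]
        have h3 : |(fourier 1 (x (Fin.last k)) : ℂ).re| ≤ 1 :=
          (Complex.abs_re_le_norm _).trans (c3_norm 1 _).le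
        have h4 : 0 ≤ |η| * Real.sqrt 2 := by positivity
        nlinarith
      · rw [abs_zero]
        positivity
    push_cast
    linarith

private theorem c3_re (t : UnitAddCircle) : (((fourier 1 t : ℂ).re : ℝ) : ℂ) =
    (1 / 2 : ℂ) * fourier 1 t + (1 / 2 : ℂ) * fourier (-1) t := by
  rw [fourier_neg, Complex.re_eq_add_conj]
  ring

private theorem c3_int_re (n : ℤ) :
    ∫ t, (fourier (-n) t : ℂ) * (((fourier 1 t : ℂ).re : ℝ) : ℂ)
      ∂(AddCircle.haarAddCircle (T := (1 : ℝ))) =
      (1 / 2 : ℂ) * (if n = 1 then 1 else 0) + (1 / 2 : ℂ) * (if n = -1 then 1 else 0) := by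
  have h1 : ∀ t : UnitAddCircle, (fourier (-n) t : ℂ) * (((fourier 1 t : ℂ).re : ℝ) : ℂ) =
      (1 / 2 : ℂ) * fourier (-n + 1) t + (1 / 2 : ℂ) * fourier (-n + -1) t := by
    intro t
    rw [c3_re, fourier_add, fourier_add]
    ring
  have hI : ∀ m : ℤ, Integrable (fun t => (1 / 2 : ℂ) * (fourier m t : ℂ))
      (AddCircle.haarAddCircle (T := (1 : ℝ))) := by
    intro m
    refine Integrable.of_bound ((continuous_const.mul (fourier m).continuous).aestronglyMeasurable)
      1 (Eventually.of_forall fun t => ?_)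
    rw [norm_mul, c3_norm]
    norm_num
  rw [integral_congr_ae (Eventually.of_forall h1), integral_add (hI _) (hI _),
    integral_const_mul, integral_const_mul, c3_int, c3_int]
  have e1 : (-n + 1 = 0) = (n = 1) := by
    apply propext
    omega
  have e2 : (-n + -1 = 0) = (n = -1) := by
    apply propext
    omega
  simp only [e1, e2]

private theorem c3_coeff_zero (η : ℝ) (m : Fin 0 → ℤ) :
    UnitAddTorus.mFourierCoeff (fun x => (XX η 0 x : ℂ)) m = 0 := by
  unfold UnitAddTorus.mFourierCoeff
  simp [XX]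

private theorem c3_coeff_succ (η : ℝ) (k : ℕ) (m : Fin (k + 1) → ℤ) :
    ∃ c : ℂ, UnitAddTorus.mFourierCoeff (fun x => (XX η (k + 1) x : ℂ)) m =
      (if m (Fin.last k) = 0 then 1 else 0) *
        UnitAddTorus.mFourierCoeff (fun x => (XX η k x : ℂ)) (fun i => m i.castSucc) +
      ((1 / 2 : ℂ) * (if m (Fin.last k) = 1 then 1 else 0) +
        (1 / 2 : ℂ) * (if m (Fin.last k) = -1 then 1 else 0)) * c := by
  obtain ⟨μ, hμ⟩ : ∃ μ : Measure UnitAddCircle, μ = AddCircle.haarAddCircle := ⟨_, rfl⟩
  have hμp : IsProbabilityMeasure μ := by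
    rw [hμ]
    infer_instance
  obtain ⟨A, hA⟩ : ∃ A : (Fin k → UnitAddCircle) → ℂ, A = fun y =>
    UnitAddTorus.mFourier (-(fun i : Fin k => m i.castSucc)) y * (XX η k y : ℂ) := ⟨_, rfl⟩
  obtain ⟨C, hC⟩ : ∃ C : (Fin k → UnitAddCircle) → ℂ, C = fun y =>
    UnitAddTorus.mFourier (-(fun i : Fin k => m i.castSucc)) y *
      (((if |XX η k y| < 1 then η * Real.sqrt 2 else 0 : ℝ)) : ℂ) := ⟨_, rfl⟩
  obtain ⟨B0, hB0⟩ : ∃ B0 : UnitAddCircle → ℂ, B0 = fun t => fourier (-m (Fin.last k)) t :=
    ⟨_, rfl⟩
  obtain ⟨B1, hB1⟩ : ∃ B1 : UnitAddCircle → ℂ, B1 = fun t =>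
    (fourier (-m (Fin.last k)) t : ℂ) * (((fourier 1 t : ℂ).re : ℝ) : ℂ) := ⟨_, rfl⟩
  have hn : ∀ y : Fin k → UnitAddCircle,
      ‖UnitAddTorus.mFourier (-(fun i : Fin k => m i.castSucc)) y‖ = 1 := by
    intro y
    show ‖∏ i, (fourier _ (y i) : ℂ)‖ = 1
    rw [norm_prod]
    exact Finset.prod_eq_one fun i _ => c3_norm _ _
  have hAI : Integrable A (Measure.pi fun _ : Fin k => μ) := by
    rw [hA]
    refine Integrable.of_bound (((UnitAddTorus.mFourier _).continuous.measurable.mul
      (Complex.measurable_ofReal.comp (c3_meas η k))).aestronglyMeasurable)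
      (k * (|η| * Real.sqrt 2)) (Eventually.of_forall fun y => ?_)
    rw [norm_mul, hn, one_mul, Complex.norm_real]
    exact c3_bound η k y
  have hCI : Integrable C (Measure.pi fun _ : Fin k => μ) := by
    rw [hC]
    refine Integrable.of_bound (((UnitAddTorus.mFourier _).continuous.measurable.mul
      (Complex.measurable_ofReal.comp (Measurable.ite (measurableSet_lt (c3_meas η k).abs
        measurable_const) measurable_const measurable_const))).aestronglyMeasurable)
      (|η| * Real.sqrt 2) (Eventually.of_forall fun y => ?_)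
    rw [norm_mul, hn, one_mul, Complex.norm_real, Real.norm_eq_abs]
    split_ifs
    · rw [abs_mul, abs_of_nonneg (Real.sqrt_nonneg 2)]
    · rw [abs_zero]
      positivity
  have hB0I : Integrable B0 μ := by
    rw [hB0]
    exact Integrable.of_bound ((fourier _).continuous.aestronglyMeasurable) 1
      (Eventually.of_forall fun t => (c3_norm _ t).le)
  have hB1I : Integrable B1 μ := by
    rw [hB1]
    refine Integrable.of_bound (((fourier _).continuous.mul (Complex.continuous_ofReal.comp
      (Complex.continuous_re.comp (fourier 1).continuous))).aestronglyMeasurable) 1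
      (Eventually.of_forall fun t => ?_)
    rw [norm_mul, c3_norm, one_mul, Complex.norm_real, Real.norm_eq_abs]
    exact (Complex.abs_re_le_norm _).trans (c3_norm 1 _).le
  refine ⟨∫ y, C y ∂(Measure.pi fun _ : Fin k => μ), ?_⟩
  have h1 : UnitAddTorus.mFourierCoeff (fun x => (XX η (k + 1) x : ℂ)) m =
      ∫ x, UnitAddTorus.mFourier (-m) x • (XX η (k + 1) x : ℂ)
        ∂(Measure.pi fun _ : Fin (k + 1) => μ) := by
    rw [hμ]
    rfl
  have h2 : UnitAddTorus.mFourierCoeff (fun x => (XX η k x : ℂ)) (fun i => m i.castSucc) =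
      ∫ y, A y ∂(Measure.pi fun _ : Fin k => μ) := by
    rw [hμ, hA]
    rfl
  have h3 := (measurePreserving_piFinSuccAbove (fun _ : Fin (k + 1) => μ)
    (Fin.last k)).integral_comp' (fun z => B0 z.1 * A z.2 + B1 z.1 * C z.2)
  have h4 : ∀ x : Fin (k + 1) → UnitAddCircle,
      UnitAddTorus.mFourier (-m) x • (XX η (k + 1) x : ℂ) =
      (fun z : UnitAddCircle × (Fin k → UnitAddCircle) => B0 z.1 * A z.2 + B1 z.1 * C z.2)
        (MeasurableEquiv.piFinSuccAbove (fun _ => UnitAddCircle) (Fin.last k) x) := by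
    intro x
    have e1 : MeasurableEquiv.piFinSuccAbove (fun _ => UnitAddCircle) (Fin.last k) x =
        (x (Fin.last k), fun i : Fin k => x i.castSucc) := by
      refine Prod.ext rfl ?_
      funext i
      show x ((Fin.last k).succAbove i) = x i.castSucc
      rw [Fin.succAbove_last]
    rw [e1]
    show (∏ i, (fourier ((-m) i) (x i) : ℂ)) • ((XX η k (fun i => x i.castSucc) +
      (if |XX η k (fun i => x i.castSucc)| < 1 then
        η * Real.sqrt 2 * (fourier 1 (x (Fin.last k)) : ℂ).re else 0) : ℝ) : ℂ) =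
      B0 (x (Fin.last k)) * A (fun i : Fin k => x i.castSucc) +
        B1 (x (Fin.last k)) * C (fun i : Fin k => x i.castSucc)
    rw [hA, hB0, hB1, hC]
    show _ = fourier (-m (Fin.last k)) (x (Fin.last k)) *
      ((∏ i : Fin k, (fourier ((-(fun i : Fin k => m i.castSucc)) i) (x i.castSucc) : ℂ)) *
        (XX η k (fun i => x i.castSucc) : ℂ)) +
      ((fourier (-m (Fin.last k)) (x (Fin.last k)) : ℂ) *
        (((fourier 1 (x (Fin.last k)) : ℂ).re : ℝ) : ℂ)) *
      ((∏ i : Fin k, (fourier ((-(fun i : Fin k => m i.castSucc)) i) (x i.castSucc) : ℂ)) *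
        (((if |XX η k (fun i => x i.castSucc)| < 1 then η * Real.sqrt 2 else 0 : ℝ)) : ℂ))
    rw [Fin.prod_univ_castSucc, smul_eq_mul]
    simp only [Pi.neg_apply]
    by_cases hc : |XX η k (fun i => x i.castSucc)| < 1
    · rw [if_pos hc, if_pos hc]
      push_cast
      ring
    · rw [if_neg hc, if_neg hc]
      push_cast
      ring
  rw [h1, integral_congr_ae (Eventually.of_forall h4), h3,
    integral_add (hB0I.mul_prod hAI) (hB1I.mul_prod hCI), integral_prod_mul, integral_prod_mul,
    ← h2, hB0, hB1, hμ, c3_int_re]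
  congr 2
  rw [c3_int]
  simp only [neg_eq_zero]

theorem coeff_XX (η : ℝ) (k : ℕ) (m : Fin k → ℤ)
    (hm : UnitAddTorus.mFourierCoeff (fun x => (XX η k x : ℂ)) m ≠ 0) : LNO m ∨ LNO (-m) := by
  induction k with
  | zero => exact absurd (c3_coeff_zero η m) hm
  | succ k ih =>
    obtain ⟨c, hc⟩ := c3_coeff_succ η k m
    rw [hc] at hm
    by_cases h0 : m (Fin.last k) = 0
    · rw [if_pos h0, if_neg (by rw [h0]; norm_num), if_neg (by rw [h0]; norm_num)] at hm
      have hm' : UnitAddTorus.mFourierCoeff (fun x => (XX η k x : ℂ))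
          (fun i => m i.castSucc) ≠ 0 := by
        intro h
        rw [h] at hm
        simp at hm
      have key : ∀ m' : Fin (k + 1) → ℤ, m' (Fin.last k) = 0 →
          LNO (fun i : Fin k => m' i.castSucc) → LNO m' := by
        rintro m' h' ⟨i, hi, hj⟩
        refine ⟨i.castSucc, hi, fun j hij => ?_⟩
        induction j using Fin.lastCases with
        | last => exact h'
        | cast j => exact hj j (Fin.castSucc_lt_castSucc_iff.1 hij)
      rcases ih _ hm' with h | h
      · exact Or.inl (key m h0 h)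
      · refine Or.inr (key (-m) (by rw [Pi.neg_apply, h0, neg_zero]) ?_)
        exact h
    · by_cases h1 : m (Fin.last k) = 1
      · refine Or.inl ⟨Fin.last k, h1, fun j hj => ?_⟩
        exact absurd hj (not_lt.2 (Fin.le_last j))
      · by_cases h2 : m (Fin.last k) = -1
        · refine Or.inr ⟨Fin.last k, by rw [Pi.neg_apply, h2, neg_neg], fun j hj => ?_⟩
          exact absurd hj (not_lt.2 (Fin.le_last j))
        · rw [if_neg h0, if_neg h1, if_neg h2] at hm
          simp at hm

end Vale.Agent.P110F
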