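import Mathlib
import Vale.Agent.Lib.P110F.Defs
import Vale.Agent.Lib.P110F.C1
import Vale.Agent.Lib.P110F.C2
import Vale.Agent.Lib.P110F.C3

/-!
P110F: a sign function on a torus whose Fourier mass sits on the lexicographically last modes.
-/

namespace Vale.Agent.P110F

open MeasureTheory Filter Topology
open scoped ComplexConjugate ENNReal

private lemma vol_eq_pi (k : ℕ) : (volume : Measure (UnitAddTorus (Fin k))) =
    Measure.pi (fun _ : Fin k => (AddCircle.haarAddCircle : Measure UnitAddCircle)) := by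
  rw [volume_pi]
  congr 1
  ext1 i
  rw [AddCircle.volume_eq_smul_haarAddCircle]
  simp

private lemma parseval_aux (k : ℕ) (f : UnitAddTorus (Fin k) → ℂ) (hf : Measurable f)
    {C : ℝ} (hC : ∀ x, ‖f x‖ ≤ C) :
    HasSum (fun m : Fin k → ℤ => ‖UnitAddTorus.mFourierCoeff f m‖ ^ 2)
      (∫ x : UnitAddTorus (Fin k), ‖f x‖ ^ 2) := by
  rw [vol_eq_pi]
  have hm : MemLp f 2
      (Measure.pi (fun _ : Fin k => (AddCircle.haarAddCircle : Measure UnitAddCircle))) :=
    MemLp.of_bound hf.aestronglyMeasurable C (Eventually.of_forall hC)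
  have h := UnitAddTorus.hasSum_sq_mFourierCoeff (d := Fin k) (hm.toLp f)
  have h1 : ∀ m : Fin k → ℤ, UnitAddTorus.mFourierCoeff (hm.toLp f) m =
      UnitAddTorus.mFourierCoeff f m := by
    intro m
    unfold UnitAddTorus.mFourierCoeff
    apply integral_congr_ae
    filter_upwards [hm.coeFn_toLp] with x hx
    rw [hx]
  simp_rw [h1] at h
  convert h using 1
  apply integral_congr_ae
  filter_upwards [hm.coeFn_toLp] with x hx
  rw [hx]

private lemma integrable_aux (k : ℕ) (f : UnitAddTorus (Fin k) → ℂ) (hf : Measurable f)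
    {C : ℝ} (hC : ∀ x, ‖f x‖ ≤ C) (m : Fin k → ℤ) :
    Integrable (fun x => UnitAddTorus.mFourier m x • f x)
      (Measure.pi (fun _ : Fin k => (AddCircle.haarAddCircle : Measure UnitAddCircle))) := by
  refine Integrable.of_bound (C := C) ?_ (Eventually.of_forall fun x => ?_)
  · exact ((UnitAddTorus.mFourier m).continuous.measurable.smul hf).aestronglyMeasurable
  · rw [norm_smul]
    have h1 : ‖UnitAddTorus.mFourier m x‖ ≤ 1 := by
      have := (UnitAddTorus.mFourier m).norm_coe_le_norm x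
      rwa [UnitAddTorus.mFourier_norm] at this
    calc ‖UnitAddTorus.mFourier m x‖ * ‖f x‖ ≤ 1 * ‖f x‖ :=
          mul_le_mul_of_nonneg_right h1 (norm_nonneg _)
      _ ≤ C := by rw [one_mul]; exact hC x

private lemma coeff_sub_aux (k : ℕ) (f g : UnitAddTorus (Fin k) → ℂ) (hf : Measurable f)
    (hg : Measurable g) {C D : ℝ} (hC : ∀ x, ‖f x‖ ≤ C) (hD : ∀ x, ‖g x‖ ≤ D)
    (m : Fin k → ℤ) : UnitAddTorus.mFourierCoeff (fun x => f x - g x) m =
      UnitAddTorus.mFourierCoeff f m - UnitAddTorus.mFourierCoeff g m := by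
  unfold UnitAddTorus.mFourierCoeff
  simp_rw [smul_sub]
  exact integral_sub (integrable_aux k f hf hC (-m)) (integrable_aux k g hg hD (-m))

private lemma coeff_neg_aux (k : ℕ) (F : UnitAddTorus (Fin k) → ℝ) (m : Fin k → ℤ) :
    ‖UnitAddTorus.mFourierCoeff (fun x => (F x : ℂ)) (-m)‖ =
      ‖UnitAddTorus.mFourierCoeff (fun x => (F x : ℂ)) m‖ := by
  have h : UnitAddTorus.mFourierCoeff (fun x => (F x : ℂ)) (-m) =
      conj (UnitAddTorus.mFourierCoeff (fun x => (F x : ℂ)) m) := by
    unfold UnitAddTorus.mFourierCoeff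
    rw [← integral_conj]
    congr 1
    ext1 x
    rw [neg_neg, smul_eq_mul, smul_eq_mul, map_mul, Complex.conj_ofReal, UnitAddTorus.mFourier_neg,
      Complex.conj_conj]
  rw [h, Complex.norm_conj]

theorem exists_F {ε : ℝ} (hε : 0 < ε) :
    ∃ (k : ℕ) (F : UnitAddTorus (Fin k) → ℝ), Measurable F ∧ (∀ x, F x = 1 ∨ F x = -1) ∧
      ∃ Sp : Finset (Fin k → ℤ), (∀ m ∈ Sp, LNO m) ∧
        1 - ε ≤ 2 * ∑ m ∈ Sp, ‖UnitAddTorus.mFourierCoeff (fun x => (F x : ℂ)) m‖ ^ 2 := by
  classical
  obtain ⟨η, hη, hη1, hη2⟩ : ∃ η : ℝ, 0 < η ∧ η ≤ 1 ∧ 2 * η ^ 2 ≤ ε / 4 := by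
    have h1 := min_le_left 1 (ε / 8)
    have h2 := min_le_right 1 (ε / 8)
    have h3 : 0 < min 1 (ε / 8) := lt_min one_pos (by linarith)
    exact ⟨min 1 (ε / 8), h3, h1, by nlinarith⟩
  have hs : Real.sqrt 2 ^ 2 = 2 := Real.sq_sqrt (by norm_num)
  have hs0 : 0 ≤ Real.sqrt 2 := Real.sqrt_nonneg 2
  have hs2 : Real.sqrt 2 ≤ 1.42 := by
    rw [Real.sqrt_le_left (by norm_num)]
    norm_num
  obtain ⟨k, hk⟩ := exists_nat_gt (24 / (η ^ 2 * ε))
  have hP : volume.real {x : UnitAddTorus (Fin k) | |XX η k x| < 1} ≤ ε / 4 := by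
    have h := not_stopped_small hη k
    have h2 : (1 + Real.sqrt 2 * η) ^ 2 ≤ 6 := by
      have h3 : Real.sqrt 2 * η ≤ 1.42 := by nlinarith
      have h4 : 0 ≤ Real.sqrt 2 * η := by positivity
      nlinarith
    rw [div_lt_iff₀ (by positivity)] at hk
    have h5 : 0 ≤ volume.real {x : UnitAddTorus (Fin k) | |XX η k x| < 1} := measureReal_nonneg
    have h6 : (k : ℝ) * η ^ 2 * volume.real {x : UnitAddTorus (Fin k) | |XX η k x| < 1} ≤ 6 :=
      h.trans h2
    have h7 : 24 ≤ ((k : ℝ) * η ^ 2) * ε := by nlinarith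
    have h8 : 0 < (k : ℝ) * η ^ 2 := by
      by_contra hcon
      nlinarith
    by_contra hcon
    push Not at hcon
    have h9 : (k : ℝ) * η ^ 2 * (ε / 4) <
        (k : ℝ) * η ^ 2 * volume.real {x : UnitAddTorus (Fin k) | |XX η k x| < 1} :=
      mul_lt_mul_of_pos_left hcon h8
    linarith
  have hXm := measurable_XX η k
  set X : UnitAddTorus (Fin k) → ℝ := XX η k with hX
  set F : UnitAddTorus (Fin k) → ℝ := fun x => if 0 ≤ X x then 1 else -1 with hF
  have hFm : Measurable F :=
    Measurable.ite (measurableSet_le measurable_const hXm) measurable_const measurable_const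
  have hF1 : ∀ x, F x = 1 ∨ F x = -1 := by
    intro x
    simp only [hF]
    split_ifs <;> simp
  have hFb : ∀ x, ‖(F x : ℂ)‖ ≤ 1 := by
    intro x
    rw [Complex.norm_real]
    rcases hF1 x with h | h <;> rw [h] <;> simp
  have hXb : ∀ x, |X x| ≤ 1 + Real.sqrt 2 * η := fun x => abs_XX_le hη k x
  have hXb' : ∀ x, ‖(X x : ℂ)‖ ≤ 1 + Real.sqrt 2 * η := by
    intro x
    rw [Complex.norm_real]
    exact hXb x
  have hFcm : Measurable (fun x => (F x : ℂ)) := Complex.measurable_ofReal.comp hFm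
  have hXcm : Measurable (fun x => (X x : ℂ)) := Complex.measurable_ofReal.comp hXm
  have hDb : ∀ x, ‖(F x : ℂ) - (X x : ℂ)‖ ≤ 1 + (1 + Real.sqrt 2 * η) := fun x =>
    (norm_sub_le _ _).trans (add_le_add (hFb x) (hXb' x))
  have hDm : Measurable (fun x => (F x : ℂ) - (X x : ℂ)) := hFcm.sub hXcm
  -- the integral of the difference
  have hA : MeasurableSet {x : UnitAddTorus (Fin k) | |X x| < 1} :=
    measurableSet_lt (continuous_abs.measurable.comp hXm) measurable_const
  have hpt : ∀ x, ‖(F x : ℂ) - (X x : ℂ)‖ ^ 2 ≤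
      2 * η ^ 2 + Set.indicator {x : UnitAddTorus (Fin k) | |X x| < 1} (fun _ => (1 : ℝ)) x := by
    intro x
    rw [← Complex.ofReal_sub, Complex.norm_real, Real.norm_eq_abs, sq_abs]
    have hb := hXb x
    by_cases hx : |X x| < 1
    · rw [Set.indicator_of_mem (show x ∈ {x : UnitAddTorus (Fin k) | |X x| < 1} from hx)]
      rw [abs_lt] at hx
      simp only [hF]
      split_ifs with h0
      · nlinarith
      · push Not at h0
        nlinarith
    · rw [Set.indicator_of_notMem (show x ∉ {x : UnitAddTorus (Fin k) | |X x| < 1} from hx)]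
      push Not at hx
      simp only [hF]
      have h2 : (|X x| - 1) ^ 2 ≤ 2 * η ^ 2 := by
        have h3 : 0 ≤ |X x| - 1 := by linarith
        have h4 : |X x| - 1 ≤ Real.sqrt 2 * η := by linarith
        calc (|X x| - 1) ^ 2 ≤ (Real.sqrt 2 * η) ^ 2 := by gcongr
          _ = 2 * η ^ 2 := by rw [mul_pow, hs]
      split_ifs with h0
      · rw [abs_of_nonneg h0] at h2
        nlinarith
      · push Not at h0
        rw [abs_of_neg h0] at h2
        nlinarith
  have hint : ∫ x : UnitAddTorus (Fin k), ‖(F x : ℂ) - (X x : ℂ)‖ ^ 2 ≤ ε / 2 := by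
    have : IsFiniteMeasure (volume : Measure (UnitAddTorus (Fin k))) := by
      rw [vol_eq_pi]
      infer_instance
    have hu : volume.real (Set.univ : Set (UnitAddTorus (Fin k))) = 1 := by
      rw [vol_eq_pi]
      simp
    calc ∫ x : UnitAddTorus (Fin k), ‖(F x : ℂ) - (X x : ℂ)‖ ^ 2
        ≤ ∫ x : UnitAddTorus (Fin k), (2 * η ^ 2 +
            Set.indicator {x : UnitAddTorus (Fin k) | |X x| < 1} (fun _ => (1 : ℝ)) x) := by
          apply integral_mono_of_nonneg
          · exact Eventually.of_forall fun x => by positivity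
          · apply Integrable.add (integrable_const _)
            exact (integrable_const (1 : ℝ)).indicator hA
          · exact Eventually.of_forall hpt
      _ = 2 * η ^ 2 + volume.real {x : UnitAddTorus (Fin k) | |X x| < 1} := by
          rw [integral_add (integrable_const _) ((integrable_const (1 : ℝ)).indicator hA),
            integral_const, integral_indicator hA, setIntegral_const, hu]
          simp
      _ ≤ ε / 2 := by linarith
  have hPF : HasSum (fun m : Fin k → ℤ => ‖UnitAddTorus.mFourierCoeff (fun x => (F x : ℂ)) m‖ ^ 2)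
      1 := by
    have h := parseval_aux k (fun x => (F x : ℂ)) hFcm hFb
    have h1 : ∫ x : UnitAddTorus (Fin k), ‖(F x : ℂ)‖ ^ 2 = 1 := by
      have h2 : ∀ x : UnitAddTorus (Fin k), ‖(F x : ℂ)‖ ^ 2 = 1 := by
        intro x
        rw [Complex.norm_real]
        rcases hF1 x with h | h <;> rw [h] <;> simp
      simp_rw [h2]
      rw [vol_eq_pi]
      simp
    rwa [h1] at h
  have hPD := parseval_aux k (fun x => (F x : ℂ) - (X x : ℂ)) hDm hDb
  obtain ⟨T, hT⟩ : ∃ T : Finset (Fin k → ℤ), 1 - ε / 2 <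
      ∑ m ∈ T, ‖UnitAddTorus.mFourierCoeff (fun x => (F x : ℂ)) m‖ ^ 2 := by
    have := (hPF.eventually (lt_mem_nhds (show 1 - ε / 2 < 1 by linarith))).exists
    exact this
  set c : (Fin k → ℤ) → ℝ := fun m => ‖UnitAddTorus.mFourierCoeff (fun x => (F x : ℂ)) m‖ ^ 2
    with hc
  have hc0 : ∀ m, 0 ≤ c m := fun m => by positivity
  have hcn : ∀ m, c (-m) = c m := fun m => by
    simp only [hc]
    rw [coeff_neg_aux]
  set Sp : Finset (Fin k → ℤ) := T.filter LNO ∪ (T.filter (fun m => LNO (-m))).image (fun m => -m)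
    with hSp
  refine ⟨k, F, hFm, hF1, Sp, ?_, ?_⟩
  · intro m hm
    rw [hSp, Finset.mem_union] at hm
    rcases hm with hm | hm
    · exact (Finset.mem_filter.1 hm).2
    · obtain ⟨m', hm', rfl⟩ := Finset.mem_image.1 hm
      exact (Finset.mem_filter.1 hm').2
  · have h1 : ∑ m ∈ T.filter LNO, c m ≤ ∑ m ∈ Sp, c m :=
      Finset.sum_le_sum_of_subset_of_nonneg Finset.subset_union_left fun m _ _ => hc0 m
    have h2 : ∑ m ∈ T.filter (fun m => LNO (-m)), c m ≤ ∑ m ∈ Sp, c m := by
      calc ∑ m ∈ T.filter (fun m => LNO (-m)), c m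
          = ∑ m ∈ (T.filter (fun m => LNO (-m))).image (fun m => -m), c m := by
            rw [Finset.sum_image (fun a _ b _ h => neg_injective h)]
            exact Finset.sum_congr rfl fun m _ => (hcn m).symm
        _ ≤ ∑ m ∈ Sp, c m :=
            Finset.sum_le_sum_of_subset_of_nonneg Finset.subset_union_right fun m _ _ => hc0 m
    have h3 : ∑ m ∈ T.filter (fun m => ¬ (LNO m ∨ LNO (-m))), c m ≤ ε / 2 := by
      calc ∑ m ∈ T.filter (fun m => ¬ (LNO m ∨ LNO (-m))), c m
          = ∑ m ∈ T.filter (fun m => ¬ (LNO m ∨ LNO (-m))),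
              ‖UnitAddTorus.mFourierCoeff (fun x => (F x : ℂ) - (X x : ℂ)) m‖ ^ 2 := by
            refine Finset.sum_congr rfl fun m hm => ?_
            have hm' := (Finset.mem_filter.1 hm).2
            have h4 : UnitAddTorus.mFourierCoeff (fun x => (X x : ℂ)) m = 0 := by
              by_contra hne
              exact hm' (coeff_XX η k m hne)
            rw [coeff_sub_aux k (fun x => (F x : ℂ)) (fun x => (X x : ℂ)) hFcm hXcm hFb hXb' m,
              h4, sub_zero]
        _ ≤ ∫ x : UnitAddTorus (Fin k), ‖(F x : ℂ) - (X x : ℂ)‖ ^ 2 :=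
            sum_le_hasSum _ (fun m _ => by positivity) hPD
        _ ≤ ε / 2 := hint
    have h5 : ∑ m ∈ T, c m ≤ ∑ m ∈ T.filter LNO, c m +
        ∑ m ∈ T.filter (fun m => LNO (-m)), c m +
        ∑ m ∈ T.filter (fun m => ¬ (LNO m ∨ LNO (-m))), c m := by
      rw [Finset.sum_filter, Finset.sum_filter, Finset.sum_filter, ← Finset.sum_add_distrib,
        ← Finset.sum_add_distrib]
      apply Finset.sum_le_sum
      intro m _
      have := hc0 m
      by_cases ha : LNO m <;> by_cases hb : LNO (-m) <;> (simp [ha, hb]; try linarith)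
    linarith

end Vale.Agent.P110F
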