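import Mathlib
import Vale.Agent.Lib.P110F.Defs

namespace Vale.Agent.P110F

open MeasureTheory Filter Topology
open scoped ComplexConjugate ENNReal

/-- the product Haar measure -/
private noncomputable abbrev C5mu (k : ℕ) : Measure (UnitAddTorus (Fin k)) :=
  Measure.pi fun _ => (AddCircle.haarAddCircle : Measure UnitAddCircle)

private lemma C5_vol (k : ℕ) : (volume : Measure (UnitAddTorus (Fin k))) = C5mu k := by
  have h : (volume : Measure UnitAddCircle) = AddCircle.haarAddCircle := by
    rw [AddCircle.volume_eq_smul_haarAddCircle, ENNReal.ofReal_one, one_smul]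
  rw [volume_pi, h]

private lemma C5_coeff (k : ℕ) (f : UnitAddTorus (Fin k) → ℂ) (m : Fin k → ℤ) :
    UnitAddTorus.mFourierCoeff f m =
      ∫ x, conj (UnitAddTorus.mFourier m x) * f x ∂(C5mu k) := by
  have h : UnitAddTorus.mFourierCoeff f m =
      ∫ x, UnitAddTorus.mFourier (-m) x • f x ∂(C5mu k) := rfl
  rw [h]
  refine integral_congr_ae (Eventually.of_forall fun x => ?_)
  change _ • _ = _
  rw [UnitAddTorus.mFourier_neg, smul_eq_mul]

private lemma C5_int_fourier (n : ℤ) :
    ∫ x : UnitAddCircle, fourier n x ∂AddCircle.haarAddCircle = if n = 0 then 1 else 0 := by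
  have h := congrFun (fourierCoeff_fourier (T := 1) n) 0
  unfold fourierCoeff at h
  simp only [neg_zero, fourier_zero, one_smul] at h
  rw [h]
  by_cases hn : n = 0
  · subst hn
    simp
  · rw [if_neg hn, Pi.single_eq_of_ne (Ne.symm hn)]

private lemma C5_orth (k : ℕ) (n m : Fin k → ℤ) :
    ∫ x, conj (UnitAddTorus.mFourier m x) * UnitAddTorus.mFourier n x ∂(C5mu k) =
      if n = m then 1 else 0 := by
  have h1 : ∀ x : UnitAddTorus (Fin k),
      conj (UnitAddTorus.mFourier m x) * UnitAddTorus.mFourier n x =
        ∏ i, fourier (n i - m i) (x i) := by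
    intro x
    rw [← UnitAddTorus.mFourier_neg, ← UnitAddTorus.mFourier_add]
    unfold UnitAddTorus.mFourier
    simp only [ContinuousMap.coe_mk]
    refine Finset.prod_congr rfl fun i _ => ?_
    congr 1
    rw [Pi.add_apply, Pi.neg_apply]
    congr 1
    ring
  simp_rw [h1]
  have h2 := integral_fintype_prod_eq_prod (𝕜 := ℂ)
    (μ := fun _ : Fin k => (AddCircle.haarAddCircle : Measure UnitAddCircle))
    (fun i (y : UnitAddCircle) => fourier (n i - m i) y)
  rw [h2]
  simp_rw [C5_int_fourier]
  by_cases h : n = m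
  · subst h
    simp
  · rw [if_neg h]
    obtain ⟨i, hi⟩ := Function.ne_iff.1 h
    exact Finset.prod_eq_zero (Finset.mem_univ i) (if_neg (sub_ne_zero.2 hi))

private lemma C5_norm_mF (k : ℕ) (m : Fin k → ℤ) (x : UnitAddTorus (Fin k)) :
    ‖UnitAddTorus.mFourier m x‖ = 1 := by
  unfold UnitAddTorus.mFourier
  simp only [ContinuousMap.coe_mk, norm_prod]
  refine Finset.prod_eq_one fun i _ => ?_
  rw [fourier_apply]
  exact Circle.norm_coe _

/-- Bessel equality by adding one frequency at a time -/
private lemma C5_bessel (k : ℕ) (F : UnitAddTorus (Fin k) → ℂ) (hF : Measurable F)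
    (hF1 : ∀ x, ‖F x‖ = 1) (T : Finset (Fin k → ℤ)) :
    (∃ C : ℝ, ∀ x, ‖F x - ∑ m ∈ T, UnitAddTorus.mFourierCoeff F m *
      UnitAddTorus.mFourier m x‖ ≤ C) ∧
    ∫ x, ‖F x - ∑ m ∈ T, UnitAddTorus.mFourierCoeff F m * UnitAddTorus.mFourier m x‖ ^ 2
      ∂(C5mu k) = 1 - ∑ m ∈ T, ‖UnitAddTorus.mFourierCoeff F m‖ ^ 2 := by
  classical
  induction T using Finset.induction_on with
  | empty =>
    refine ⟨⟨1, fun x => ?_⟩, ?_⟩
    · rw [Finset.sum_empty, sub_zero, hF1]
    · simp [hF1]
  | insert m T hm ih =>
    obtain ⟨⟨C, hC⟩, ih2⟩ := ih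
    set G : UnitAddTorus (Fin k) → ℂ := fun x =>
      F x - ∑ m ∈ T, UnitAddTorus.mFourierCoeff F m * UnitAddTorus.mFourier m x with hG
    set a := UnitAddTorus.mFourierCoeff F m with ha
    have hGm : Measurable G := by
      refine hF.sub (Finset.measurable_sum _ fun n _ => ?_)
      exact measurable_const.mul (ContinuousMap.continuous _).measurable
    have hE : ∀ x, F x - ∑ n ∈ insert m T,
        UnitAddTorus.mFourierCoeff F n * UnitAddTorus.mFourier n x =
          G x - a * UnitAddTorus.mFourier m x := by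
      intro x
      rw [Finset.sum_insert hm, hG, ha]
      ring
    refine ⟨⟨C + ‖a‖, fun x => ?_⟩, ?_⟩
    · rw [hE]
      refine (norm_sub_le _ _).trans ?_
      rw [norm_mul, C5_norm_mF, mul_one]
      exact add_le_add (hC x) le_rfl
    · have hb : ∀ g : UnitAddTorus (Fin k) → ℂ, Measurable g → (∃ C : ℝ, ∀ x, ‖g x‖ ≤ C) →
          Integrable g (C5mu k) := by
        rintro g hg ⟨C, hC⟩
        exact Integrable.of_bound hg.aestronglyMeasurable C (Eventually.of_forall hC)
      have hmm : ∀ n : Fin k → ℤ, Measurable fun x => UnitAddTorus.mFourier n x :=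
        fun n => (ContinuousMap.continuous _).measurable
      have hcm : ∀ n : Fin k → ℤ, Measurable fun x => conj (UnitAddTorus.mFourier n x) :=
        fun n => (Complex.continuous_conj.comp (ContinuousMap.continuous _)).measurable
      have hGi : Integrable (fun x => conj (UnitAddTorus.mFourier m x) * G x) (C5mu k) := by
        refine hb _ ((hcm m).mul hGm) ⟨C, fun x => ?_⟩
        rw [norm_mul, RCLike.norm_conj, C5_norm_mF, one_mul]
        exact hC x
      have hI : ∫ x, conj (UnitAddTorus.mFourier m x) * G x ∂(C5mu k) = a := by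
        have h1 : ∀ x, conj (UnitAddTorus.mFourier m x) * G x =
            conj (UnitAddTorus.mFourier m x) * F x - ∑ n ∈ T, UnitAddTorus.mFourierCoeff F n *
              (conj (UnitAddTorus.mFourier m x) * UnitAddTorus.mFourier n x) := by
          intro x
          rw [hG]
          simp only [mul_sub, Finset.mul_sum]
          congr 1
          refine Finset.sum_congr rfl fun n _ => ?_
          ring
        simp_rw [h1]
        have h2 : ∀ n : Fin k → ℤ, Integrable (fun x => UnitAddTorus.mFourierCoeff F n *
            (conj (UnitAddTorus.mFourier m x) * UnitAddTorus.mFourier n x)) (C5mu k) := by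
          intro n
          refine Integrable.const_mul (hb (fun x => conj (UnitAddTorus.mFourier m x) *
            UnitAddTorus.mFourier n x) ((hcm m).mul (hmm n)) ⟨1, fun x => ?_⟩) _
          rw [norm_mul, RCLike.norm_conj, C5_norm_mF, C5_norm_mF, one_mul]
        have h2F : Integrable (fun x => conj (UnitAddTorus.mFourier m x) * F x) (C5mu k) := by
          refine hb (fun x => conj (UnitAddTorus.mFourier m x) * F x) ((hcm m).mul hF)
            ⟨1, fun x => ?_⟩
          rw [norm_mul, RCLike.norm_conj, C5_norm_mF, hF1, one_mul]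
        rw [integral_sub h2F (integrable_finsetSum _ fun n _ => h2 n),
          integral_finsetSum _ fun n _ => h2 n]
        simp_rw [integral_const_mul, C5_orth]
        rw [Finset.sum_eq_zero, sub_zero, ← C5_coeff]
        intro n hn
        have hne : n ≠ m := fun h => hm (by rw [← h]; exact hn)
        rw [if_neg hne, mul_zero]
      have h3 : ∀ x, ‖G x - a * UnitAddTorus.mFourier m x‖ ^ 2 =
          ‖G x‖ ^ 2 - 2 * (conj a * (conj (UnitAddTorus.mFourier m x) * G x)).re +
            ‖a‖ ^ 2 := by
        intro x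
        have h4 := C5_norm_mF k m x
        have h5 : ‖a * UnitAddTorus.mFourier m x‖ ^ 2 = ‖a‖ ^ 2 := by
          rw [norm_mul, h4, mul_one]
        rw [← h5]
        generalize UnitAddTorus.mFourier m x = e
        rw [← Complex.normSq_eq_norm_sq, ← Complex.normSq_eq_norm_sq,
          ← Complex.normSq_eq_norm_sq, Complex.normSq_sub]
        have h6 : (G x * conj (a * e)).re = (conj a * (conj e * G x)).re := by
          congr 1
          rw [map_mul]
          ring
        rw [h6]
        ring
      simp_rw [hE, h3]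
      have hGsq : Integrable (fun x => ‖G x‖ ^ 2) (C5mu k) := by
        refine Integrable.of_bound (hGm.norm.pow_const 2).aestronglyMeasurable (C ^ 2)
          (Eventually.of_forall fun x => ?_)
        rw [Real.norm_eq_abs, abs_of_nonneg (by positivity)]
        exact pow_le_pow_left₀ (norm_nonneg _) (hC x) 2
      have hRe : Integrable (fun x => 2 * (conj a * (conj (UnitAddTorus.mFourier m x) *
          G x)).re) (C5mu k) := ((hGi.const_mul (conj a)).re).const_mul 2
      have hsub : Integrable (fun x => ‖G x‖ ^ 2 - 2 * (conj a *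
          (conj (UnitAddTorus.mFourier m x) * G x)).re) (C5mu k) := hGsq.sub hRe
      rw [integral_add hsub (integrable_const _), integral_sub hGsq hRe,
        integral_const_mul, integral_const, ih2, Finset.sum_insert hm]
      have h7 : ∫ x, (conj a * (conj (UnitAddTorus.mFourier m x) * G x)).re ∂(C5mu k) =
          ‖a‖ ^ 2 := by
        have h8 := integral_re (hGi.const_mul (conj a))
        refine Eq.trans h8 ?_
        rw [integral_const_mul, hI, mul_comm, Complex.mul_conj, ← Complex.normSq_eq_norm_sq]
        simp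
      rw [h7]
      simp only [probReal_univ, one_smul, ← ha]
      ring

theorem integral_sub_partial (k : ℕ) (F : UnitAddTorus (Fin k) → ℝ) (hF : Measurable F)
    (hF1 : ∀ x, F x = 1 ∨ F x = -1) (Sp : Finset (Fin k → ℤ)) (hS : ∀ m ∈ Sp, LNO m) :
    ∫ x, ‖(F x : ℂ) - ∑ m ∈ Sp,
      (UnitAddTorus.mFourierCoeff (fun x => (F x : ℂ)) m * UnitAddTorus.mFourier m x +
        conj (UnitAddTorus.mFourierCoeff (fun x => (F x : ℂ)) m) *
          UnitAddTorus.mFourier (-m) x)‖ ^ 2 =
      1 - 2 * ∑ m ∈ Sp, ‖UnitAddTorus.mFourierCoeff (fun x => (F x : ℂ)) m‖ ^ 2 := by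
  classical
  have hneg : ∀ m : Fin k → ℤ, UnitAddTorus.mFourierCoeff (fun x => (F x : ℂ)) (-m) =
      conj (UnitAddTorus.mFourierCoeff (fun x => (F x : ℂ)) m) := by
    intro m
    rw [C5_coeff, C5_coeff, ← integral_conj]
    refine integral_congr_ae (Eventually.of_forall fun x => ?_)
    change conj _ * _ = conj (conj _ * _)
    rw [UnitAddTorus.mFourier_neg, map_mul, Complex.conj_ofReal]
  have hdisj : Disjoint Sp (Sp.image fun m => -m) := by
    rw [Finset.disjoint_left]
    intro m hm hm2
    obtain ⟨m', hm', he⟩ := Finset.mem_image.1 hm2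
    obtain ⟨i, hi, hi2⟩ := hS m hm
    obtain ⟨j, hj, hj2⟩ := hS m' hm'
    have he2 : ∀ l, m l = - m' l := fun l => by rw [← he]; rfl
    rcases lt_trichotomy i j with h | h | h
    · have h1 := hi2 j h
      have h2 := he2 j
      omega
    · subst h
      have h2 := he2 i
      omega
    · have h1 := hj2 i h
      have h2 := he2 i
      omega
  have hinj : Set.InjOn (fun m : Fin k → ℤ => -m) (Sp : Set (Fin k → ℤ)) :=
    fun a _ b _ h => neg_injective h
  have hsum : ∀ x, ∑ m ∈ Sp,
      (UnitAddTorus.mFourierCoeff (fun x => (F x : ℂ)) m * UnitAddTorus.mFourier m x +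
        conj (UnitAddTorus.mFourierCoeff (fun x => (F x : ℂ)) m) *
          UnitAddTorus.mFourier (-m) x) =
      ∑ m ∈ Sp ∪ Sp.image (fun m => -m),
        UnitAddTorus.mFourierCoeff (fun x => (F x : ℂ)) m * UnitAddTorus.mFourier m x := by
    intro x
    rw [Finset.sum_union hdisj, Finset.sum_image hinj, Finset.sum_add_distrib]
    simp_rw [hneg]
  simp_rw [hsum, C5_vol]
  rw [(C5_bessel k (fun x => (F x : ℂ)) (Complex.measurable_ofReal.comp hF) (fun x => by
    rcases hF1 x with h | h <;> simp [h]) _).2, Finset.sum_union hdisj, Finset.sum_image hinj]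
  simp_rw [hneg, RCLike.norm_conj]
  ring

end Vale.Agent.P110F
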