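import Mathlib
import Vale.Agent.Lib.P110F.Defs
import Vale.Agent.Lib.P110F.C4
import Vale.Agent.Lib.P110F.C5
import Vale.Agent.Lib.P110F.CellsMain
import Vale.Agent.Lib.P110F.MA
import Vale.Agent.Lib.P110F.FinalA

/-!
P110F: flat polynomials for all large cell lengths.
-/

namespace Vale.Agent.P110F

open MeasureTheory Filter Topology
open scoped ComplexConjugate ENNReal

theorem exists_small {C τ : ℝ} (hC : 0 ≤ C) (hτ : 0 < τ) :
    ∃ δ : ℝ, 0 < δ ∧ C * Real.sqrt δ ≤ τ ∧ C * δ ≤ τ := by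
  refine ⟨min 1 ((τ / (C + 1)) ^ 2), ?_, ?_, ?_⟩
  · apply lt_min one_pos
    positivity
  · have h1 : Real.sqrt (min 1 ((τ / (C + 1)) ^ 2)) ≤ τ / (C + 1) :=
      (Real.sqrt_le_sqrt (min_le_right _ _)).trans (le_of_eq (Real.sqrt_sq (by positivity)))
    calc C * Real.sqrt (min 1 ((τ / (C + 1)) ^ 2)) ≤ C * (τ / (C + 1)) :=
          mul_le_mul_of_nonneg_left h1 hC
      _ = τ * (C / (C + 1)) := by ring
      _ ≤ τ * 1 := by
          apply mul_le_mul_of_nonneg_left _ hτ.le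
          rw [div_le_one (by linarith)]
          linarith
      _ = τ := mul_one τ
  · set D := τ / (C + 1) with hD
    have hD0 : 0 < D := by positivity
    have h2 : C * D ≤ τ := by
      calc C * D = τ * (C / (C + 1)) := by rw [hD]; ring
        _ ≤ τ * 1 := by
            apply mul_le_mul_of_nonneg_left _ hτ.le
            rw [div_le_one (by linarith)]
            linarith
        _ = τ := mul_one τ
    rcases le_or_gt D 1 with h | h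
    · calc C * min 1 (D ^ 2) ≤ C * D ^ 2 := mul_le_mul_of_nonneg_left (min_le_right _ _) hC
        _ ≤ C * D := by
            apply mul_le_mul_of_nonneg_left _ hC
            nlinarith
        _ ≤ τ := h2
    · calc C * min 1 (D ^ 2) ≤ C * 1 := mul_le_mul_of_nonneg_left (min_le_left _ _) hC
        _ ≤ C * D := mul_le_mul_of_nonneg_left h.le hC
        _ ≤ τ := h2

/-- Flat polynomials for all large cell lengths. -/
theorem flat_family {τ : ℝ} (hτ0 : 0 < τ) (hτ1 : τ ≤ 1 / 1000)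
    (hs5 : Real.sqrt (5 * τ) ≤ 1 / 2) (hs2 : Real.sqrt (2 * τ) ≤ 1) (C₀ : ℕ) :
    ∃ n R : ℕ, 0 < n ∧ 0 < R ∧ C₀ ≤ R ∧ ∀ᶠ L : ℕ in atTop, ∃ a : ℕ → ℝ,
      (∀ j, a j = 1 ∨ a j = -1) ∧
      ∫ x in (0 : ℝ)..1, |‖∑ j ∈ Finset.range (R * (4 * L) ^ n), (a j : ℂ) * e1 (j * x)‖ ^ 2 /
        ((R * (4 * L) ^ n : ℕ) : ℝ) - 1| ≤
          3 * (τ + Real.sqrt (5 * τ)) + 5 * Real.sqrt (2 * τ) := by
  classical
  obtain ⟨k, F, hF, hF1, Sp, hS, hSp⟩ := exists_F hτ0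
  let q : (Fin k → ℤ) → ℂ := fun m => UnitAddTorus.mFourierCoeff (fun x => (F x : ℂ)) m
  let Sp1 : Finset (Fin k → ℤ) := Sp.filter fun m => q m ≠ 0
  have hS1 : ∀ m ∈ Sp1, LNO m := fun m hm => hS m (Finset.mem_filter.1 hm).1
  have hsumeq : ∑ m ∈ Sp1, ‖q m‖ ^ 2 = ∑ m ∈ Sp, ‖q m‖ ^ 2 := by
    apply Finset.sum_filter_of_ne
    intro m _ h h0
    apply h
    rw [h0]
    simp
  have hint := integral_sub_partial k F hF hF1 Sp1 hS1
  obtain ⟨V, hV⟩ : ∃ V : ℝ, V = ∑ m ∈ Sp1, ‖q m‖ ^ 2 := ⟨_, rfl⟩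
  have hint' : ∫ x, ‖(F x : ℂ) - ∑ m ∈ Sp1, (q m * UnitAddTorus.mFourier m x +
        conj (q m) * UnitAddTorus.mFourier (-m) x)‖ ^ 2 = 1 - 2 * V := by
    rw [hV]
    exact hint
  have hV2 : 2 * V ≤ 1 := by
    have h1 : 0 ≤ ∫ x, ‖(F x : ℂ) - ∑ m ∈ Sp1, (q m * UnitAddTorus.mFourier m x +
        conj (q m) * UnitAddTorus.mFourier (-m) x)‖ ^ 2 :=
      integral_nonneg fun x => by positivity
    rw [hint'] at h1
    linarith
  have hVτ : 1 - τ ≤ 2 * V := by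
    rw [hV, hsumeq]
    exact hSp
  have hne : Sp1.Nonempty := by
    rw [Finset.nonempty_iff_ne_empty]
    intro h0
    rw [h0, Finset.sum_empty] at hV
    rw [hV] at hVτ
    linarith
  obtain ⟨n, c, ι, i1, i2, H, β, hc, hcard, hsymm, hdet, hrow, hvb, hsep⟩ :=
    exists_cells k Sp1 hS1 hne (fun m => ‖q m‖ ^ 2)
      (fun m hm => by
        have := (Finset.mem_filter.1 hm).2
        positivity) (by rw [← hV]; exact hV2) hτ0
      (fun n => ⌈(4 : ℝ) ^ n / τ⌉₊ + (C₀ + 1) * 4 ^ n)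
  obtain ⟨J, hJ⟩ : ∃ J : ℕ, J = Fintype.card ι := ⟨_, rfl⟩
  rw [← hJ] at hcard
  have h4n : 0 < 4 ^ n := by positivity
  have hJ1 : 1 ≤ J := by nlinarith
  have hJ4 : (4 : ℝ) ^ n ≤ τ * J := by
    have h1 : (4 : ℝ) ^ n / τ ≤ ⌈(4 : ℝ) ^ n / τ⌉₊ := Nat.le_ceil _
    have h2 : ((⌈(4 : ℝ) ^ n / τ⌉₊ : ℕ) : ℝ) ≤ J := by
      have : ⌈(4 : ℝ) ^ n / τ⌉₊ ≤ J := le_trans (Nat.le_add_right _ _) hcard
      exact_mod_cast this
    have h3 := (div_le_iff₀ hτ0).1 (h1.trans h2)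
    linarith
  obtain ⟨R, hR1, hR2⟩ := exists_R J n
  have hRC : C₀ + 1 ≤ R := by
    have h1 : (C₀ + 1) * 4 ^ n ≤ J := le_trans (Nat.le_add_left _ _) hcard
    exact Nat.le_of_mul_le_mul_right (h1.trans hR1) h4n
  have hn : 0 < n := by
    rcases Nat.eq_zero_or_pos n with h0 | h0
    · exfalso
      obtain ⟨m, hm⟩ := hne
      have hι : Nonempty ι := Fintype.card_pos_iff.1 (by rw [← hJ]; omega)
      obtain ⟨j⟩ := hι
      obtain ⟨η, _, h1⟩ := hsep j j m m (-1) hm hm (Or.inr rfl) (by norm_num)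
      obtain ⟨i, _⟩ := h1 (fun _ => 0) (by intro i _; simp) (fun _ => 0) (by intro i _; simp)
      rw [h0] at i
      exact i.elim0
    · exact h0
  obtain ⟨δ, hδ0, hKδ, hKδ2⟩ := exists_small
    (C := (Fintype.card (ι × Sp1 × Bool) : ℝ) ^ 2) (by positivity) hτ0
  refine ⟨n, R, hn, by omega, by omega, ?_⟩
  have hrow' : ∀ p : ι × Sp1 × Bool, ∀ i,
      ∑ j, |scl c (∑ i, (sgz p.2.2 * p.2.1.1 i) • H p.1 i) i j| ≤ 1 / 4 := by
    intro p i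
    refine le_trans (le_of_eq ?_) (hrow p.1 p.2.1.1 p.2.1.2 i)
    exact Finset.sum_congr rfl fun j _ => sgn_scl (sgz_cases _) c _ _ _ _
  have hdet' : ∀ p : ι × Sp1 × Bool, (∑ i, (sgz p.2.2 * p.2.1.1 i) • H p.1 i).det ≠ 0 := by
    intro p h0
    have h1 := sgn_det (sgz_cases p.2.2) p.2.1.1 (H p.1)
    rw [h0, Int.cast_zero, abs_zero] at h1
    have h2 := abs_eq_zero.1 h1.symm
    exact hdet p.1 p.2.1.1 p.2.1.2 (by exact_mod_cast h2)
  have hsy' : ∀ p : ι × Sp1 × Bool, (∑ i, (sgz p.2.2 * p.2.1.1 i) • H p.1 i).IsSymm :=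
    fun p => sgn_symm _ (hsymm p.1)
  have hL1 : ∀ᶠ L : ℕ in atTop, ∀ p p' : ι × Sp1 × Bool, p ≠ p' →
      (∫ x in (0 : ℝ)..1, ‖SS (scl c (∑ i, (sgz p.2.2 * p.2.1.1 i) • H p.1 i))
          (fun a => ∑ i, ((sgz p.2.2 * p.2.1.1 i : ℤ) : ℝ) * β p.1 i a) L x‖ ^ 2 *
        ‖SS (scl c (∑ i, (sgz p'.2.2 * p'.2.1.1 i) • H p'.1 i))
          (fun a => ∑ i, ((sgz p'.2.2 * p'.2.1.1 i : ℤ) : ℝ) * β p'.1 i a) L x‖ ^ 2) /
          ((L : ℝ) ^ n) ^ 2 ≤ δ := by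
    rw [eventually_all]
    intro p
    rw [eventually_all]
    intro p'
    by_cases hpp : p = p'
    · exact Eventually.of_forall fun L h => absurd hpp h
    · have h1 := moment_sep hc hc _ _ (hdet' p) (hdet' p') (hsy' p) (hsy' p') (hrow' p)
        (hrow' p') _ _ (cells_sep hsep p p' hpp)
      filter_upwards [h1.eventually (gt_mem_nhds hδ0)] with L hL _
      exact hL.le
  have hL2 : ∀ᶠ L : ℕ in atTop, ∀ p : ι × Sp1 × Bool,
      (∫ x in (0 : ℝ)..1, ‖SS (scl c (∑ i, (sgz p.2.2 * p.2.1.1 i) • H p.1 i))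
          (fun a => ∑ i, ((sgz p.2.2 * p.2.1.1 i : ℤ) : ℝ) * β p.1 i a) L x‖ ^ 2 *
        ‖SS (scl c (∑ i, (sgz p.2.2 * p.2.1.1 i) • H p.1 i))
          (fun a => ∑ i, ((sgz p.2.2 * p.2.1.1 i : ℤ) : ℝ) * β p.1 i a) L x‖ ^ 2) /
          ((L : ℝ) ^ n) ^ 2 ≤
        1 / (c ^ n * |((∑ i, (sgz p.2.2 * p.2.1.1 i) • H p.1 i).det : ℝ)|) + τ := by
    rw [eventually_all]
    intro p
    exact moment_self hc _ (hdet' p) (hsy' p) (hrow' p) _ hτ0
  filter_upwards [hL1, hL2, eventually_gt_atTop 0] with L h1 h2 h3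
  exact poly_part (by exact_mod_cast hJ1) hJ hc F hF hF1 Sp1 q hV hV2 hint' hτ0 hτ1 hVτ H β hdet
    (fun j m hm => by
      rw [hJ]
      exact hvb j m hm) hδ0 hKδ hKδ2 h3 h1 h2 hs5 hs2 hR1 hR2 hJ4

end Vale.Agent.P110F
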