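import Vale.Agent.Lib.P110F.FinalA
import Vale.Agent.Lib.P110F.C4
import Vale.Agent.Lib.P110F.C5
import Vale.Agent.Lib.P110F.CellsMain

/-! P110F Final: real Littlewood polynomials that are flat in mean. -/

namespace Vale.Agent.P110F

open MeasureTheory Filter Topology
open scoped ComplexConjugate ENNReal

/-- The main theorem: real Littlewood polynomials flat in mean. -/
theorem flat_in_mean {ε : ℝ} (hε : 0 < ε) (N₀ : ℕ) :
    ∃ N : ℕ, N₀ ≤ N ∧ ∃ a : ℕ → ℝ, (∀ j, a j = 1 ∨ a j = -1) ∧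
      ∫ x in (0 : ℝ)..1, |‖∑ j ∈ Finset.range N, (a j : ℂ) * e1 (j * x)‖ ^ 2 / N - 1| ≤ ε := by
  classical
  obtain ⟨ε', hε'0, hε'1, hε'⟩ : ∃ ε' : ℝ, 0 < ε' ∧ ε' ≤ 1 ∧ ε' ≤ ε :=
    ⟨min ε 1, lt_min hε one_pos, min_le_right _ _, min_le_left _ _⟩
  obtain ⟨τ, hτd⟩ : ∃ τ : ℝ, τ = ε' ^ 2 / 1000 := ⟨_, rfl⟩
  have hτ0 : 0 < τ := by
    rw [hτd]
    positivity
  have hτε : τ ≤ ε' / 1000 := by
    rw [hτd]
    nlinarith
  have hτ1 : τ ≤ 1 / 1000 := by linarith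
  have h5τ : Real.sqrt (5 * τ) ≤ ε' / 14 := by
    rw [Real.sqrt_le_left (by positivity), hτd]
    nlinarith [sq_nonneg ε']
  have h2τ : Real.sqrt (2 * τ) ≤ ε' / 22 := by
    rw [Real.sqrt_le_left (by positivity), hτd]
    nlinarith [sq_nonneg ε']
  obtain ⟨k, F, hF, hF1, Sp, hS, hSp⟩ := exists_F hτ0
  obtain ⟨q, hq⟩ : ∃ q : (Fin k → ℤ) → ℂ,
    q = fun m => UnitAddTorus.mFourierCoeff (fun x => (F x : ℂ)) m := ⟨_, rfl⟩
  obtain ⟨Sp1, hSp1⟩ : ∃ Sp1 : Finset (Fin k → ℤ), Sp1 = Sp.filter fun m => q m ≠ 0 := ⟨_, rfl⟩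
  have hS1 : ∀ m ∈ Sp1, LNO m := by
    intro m hm
    rw [hSp1, Finset.mem_filter] at hm
    exact hS m hm.1
  have hv : ∀ m ∈ Sp1, 0 < ‖q m‖ ^ 2 := by
    intro m hm
    rw [hSp1, Finset.mem_filter] at hm
    have := norm_pos_iff.2 hm.2
    positivity
  have hsum1 : ∑ m ∈ Sp1, ‖q m‖ ^ 2 = ∑ m ∈ Sp, ‖q m‖ ^ 2 := by
    rw [hSp1]
    refine Finset.sum_filter_of_ne fun m _ h => ?_
    intro h0
    apply h
    rw [h0, norm_zero]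
    norm_num
  obtain ⟨V, hV⟩ : ∃ V : ℝ, V = ∑ m ∈ Sp1, ‖q m‖ ^ 2 := ⟨_, rfl⟩
  have hint := integral_sub_partial k F hF hF1 Sp1 hS1
  have hqm : ∀ m, UnitAddTorus.mFourierCoeff (fun x => (F x : ℂ)) m = q m := fun m => by rw [hq]
  simp only [hqm] at hint hSp
  rw [← hV] at hint
  rw [← hsum1, ← hV] at hSp
  have hV2 : 2 * V ≤ 1 := by
    have h1 : 0 ≤ ∫ x, ‖(F x : ℂ) - ∑ m ∈ Sp1, (q m * UnitAddTorus.mFourier m x +
        conj (q m) * UnitAddTorus.mFourier (-m) x)‖ ^ 2 := integral_nonneg fun x => by positivity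
    rw [hint] at h1
    linarith
  have hne : Sp1.Nonempty := by
    by_contra h
    rw [Finset.not_nonempty_iff_eq_empty] at h
    rw [h, Finset.sum_empty] at hV
    rw [hV] at hSp
    linarith
  obtain ⟨n, c, ι, _, _, H, β, hc, hcard, hsym, hdet, hrow, hvb, hsep⟩ :=
    exists_cells k Sp1 hS1 hne (fun m => ‖q m‖ ^ 2) hv (by rw [← hV]; exact hV2) hτ0
      (fun n => ⌈(4 : ℝ) ^ n / τ⌉₊ + N₀ + 1)
  obtain ⟨J, hJ⟩ : ∃ J : ℕ, J = Fintype.card ι := ⟨_, rfl⟩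
  rw [← hJ] at hcard
  have hJ4 : (4 : ℝ) ^ n ≤ τ * J := by
    have h1 : (4 : ℝ) ^ n / τ ≤ ⌈(4 : ℝ) ^ n / τ⌉₊ := Nat.le_ceil _
    have h2 : ((⌈(4 : ℝ) ^ n / τ⌉₊ : ℕ) : ℝ) ≤ J := by
      have : ⌈(4 : ℝ) ^ n / τ⌉₊ ≤ J := by
        have h3 := hcard
        beta_reduce at h3
        omega
      exact_mod_cast this
    have h3 := h1.trans h2
    rw [div_le_iff₀ hτ0] at h3
    linarith
  have hJN : N₀ + 1 ≤ J := by
    have h3 := hcard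
    beta_reduce at h3
    omega
  have hJ1 : (1 : ℝ) ≤ J := by
    have : 1 ≤ J := by omega
    exact_mod_cast this
  obtain ⟨R, hR1, hR2⟩ := exists_R J n
  -- constants
  obtain ⟨K, hK⟩ : ∃ K : ℝ, K = (Fintype.card (ι × Sp1 × Bool) : ℝ) ^ 2 := ⟨_, rfl⟩
  have hK0 : 0 ≤ K := by
    rw [hK]
    positivity
  obtain ⟨δ, hδd⟩ : ∃ δ : ℝ, δ = (τ / (K + 1)) ^ 2 := ⟨_, rfl⟩
  have hδ0 : 0 < δ := by
    rw [hδd]
    positivity
  have hsδ : Real.sqrt δ = τ / (K + 1) := by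
    rw [hδd]
    exact Real.sqrt_sq (by positivity)
  have hKδ : K * Real.sqrt δ ≤ τ := by
    rw [hsδ, mul_div_assoc', div_le_iff₀ (by positivity)]
    nlinarith
  have hKδ2 : K * δ ≤ τ := by
    have h1 : K * δ = (K * Real.sqrt δ) * Real.sqrt δ := by
      rw [mul_assoc, Real.mul_self_sqrt hδ0.le]
    have h2 : Real.sqrt δ ≤ 1 := by
      rw [hsδ, div_le_one (by positivity)]
      linarith
    rw [h1]
    calc K * Real.sqrt δ * Real.sqrt δ ≤ τ * 1 :=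
          mul_le_mul hKδ h2 (Real.sqrt_nonneg _) hτ0.le
      _ = τ := mul_one _
  have hAdet : ∀ p : ι × Sp1 × Bool, |((∑ i, (sgz p.2.2 * p.2.1.1 i) • H p.1 i).det : ℝ)| =
      |((∑ i, p.2.1.1 i • H p.1 i).det : ℝ)| := fun p => sgn_det (sgz_cases _) _ _
  have hAdet0 : ∀ p : ι × Sp1 × Bool, (∑ i, (sgz p.2.2 * p.2.1.1 i) • H p.1 i).det ≠ 0 := by
    intro p h
    have h1 := hAdet p
    rw [h, Int.cast_zero, abs_zero] at h1
    have h2 := abs_eq_zero.1 h1.symm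
    exact hdet p.1 p.2.1.1 p.2.1.2 (by exact_mod_cast h2)
  have hAsym : ∀ p : ι × Sp1 × Bool, (∑ i, (sgz p.2.2 * p.2.1.1 i) • H p.1 i).IsSymm :=
    fun p => sgn_symm _ (hsym p.1)
  have hArow : ∀ (p : ι × Sp1 × Bool) a,
      ∑ a', |scl c (∑ i, (sgz p.2.2 * p.2.1.1 i) • H p.1 i) a a'| ≤ 1 / 4 := by
    intro p a
    simp only [sgn_scl (sgz_cases _)]
    exact hrow p.1 p.2.1.1 p.2.1.2 a
  have hev1 : ∀ᶠ L : ℕ in atTop, ∀ p p' : ι × Sp1 × Bool, p ≠ p' →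
      (∫ x in (0 : ℝ)..1, ‖SS (scl c (∑ i, (sgz p.2.2 * p.2.1.1 i) • H p.1 i))
          (fun a => ∑ i, ((sgz p.2.2 * p.2.1.1 i : ℤ) : ℝ) * β p.1 i a) L x‖ ^ 2 *
        ‖SS (scl c (∑ i, (sgz p'.2.2 * p'.2.1.1 i) • H p'.1 i))
          (fun a => ∑ i, ((sgz p'.2.2 * p'.2.1.1 i : ℤ) : ℝ) * β p'.1 i a) L x‖ ^ 2) /
          ((L : ℝ) ^ n) ^ 2 ≤ δ := by
    refine eventually_all.2 fun p => eventually_all.2 fun p' => ?_
    by_cases hpp : p = p'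
    · exact Eventually.of_forall fun L h => absurd hpp h
    · have h1 := moment_sep hc hc _ _ (hAdet0 p) (hAdet0 p') (hAsym p) (hAsym p')
        (hArow p) (hArow p') _ _ (cells_sep hsep p p' hpp)
      filter_upwards [h1.eventually (eventually_le_nhds hδ0)] with L hL _
      exact hL
  have hev2 : ∀ᶠ L : ℕ in atTop, ∀ p : ι × Sp1 × Bool,
      (∫ x in (0 : ℝ)..1, ‖SS (scl c (∑ i, (sgz p.2.2 * p.2.1.1 i) • H p.1 i))
          (fun a => ∑ i, ((sgz p.2.2 * p.2.1.1 i : ℤ) : ℝ) * β p.1 i a) L x‖ ^ 2 *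
        ‖SS (scl c (∑ i, (sgz p.2.2 * p.2.1.1 i) • H p.1 i))
          (fun a => ∑ i, ((sgz p.2.2 * p.2.1.1 i : ℤ) : ℝ) * β p.1 i a) L x‖ ^ 2) /
          ((L : ℝ) ^ n) ^ 2 ≤
        1 / (c ^ n * |((∑ i, (sgz p.2.2 * p.2.1.1 i) • H p.1 i).det : ℝ)|) + τ :=
    eventually_all.2 fun p => moment_self hc _ (hAdet0 p) (hAsym p) (hArow p) _ hτ0
  obtain ⟨L, hL1, hL2, hL0⟩ := (hev1.and (hev2.and (eventually_ge_atTop 1))).exists
  obtain ⟨a, ha, hfin⟩ := poly_part (R := R) hJ1 hJ hc F hF hF1 Sp1 q hV hV2 hint hτ0 hτ1 hSp H β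
    hdet (by rw [hJ]; exact hvb) hδ0 (by rw [← hK]; exact hKδ) (by rw [← hK]; exact hKδ2) hL0
    hL1 hL2 (by linarith) (by linarith) hR1 hR2 hJ4
  refine ⟨R * (4 * L) ^ n, ?_, a, ha, hfin.trans ?_⟩
  · have h1 : R * 4 ^ n ≤ R * (4 * L) ^ n :=
      Nat.mul_le_mul_left _ (Nat.pow_le_pow_left (by omega) n)
    omega
  · linarith

end Vale.Agent.P110F
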