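import Mathlib
import Vale.Agent.Lib.P110F.Defs
import Vale.Agent.Lib.P110F.D1
import Vale.Agent.Lib.P110F.D4
import Vale.Agent.Lib.P110F.Fam

/-!
P110F: flat in mean for every large length.
-/

namespace Vale.Agent.P110F

open MeasureTheory Filter Topology
open scoped ComplexConjugate ENNReal

theorem exists_len {n R : ℕ} (hn : 0 < n) (hR : 0 < R) {τ : ℝ} (hτ : 0 < τ) (L₀ : ℕ) :
    ∃ N₁ : ℕ, ∀ N ≥ N₁, ∃ L ≥ L₀, 0 < R * (4 * L) ^ n ∧ R * (4 * L) ^ n ≤ N ∧
      (N : ℝ) ≤ (1 + τ) * ((R * (4 * L) ^ n : ℕ) : ℝ) := by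
  have h1 : Tendsto (fun L : ℕ => (((L + 1 : ℕ) : ℝ) / L) ^ n) atTop (𝓝 1) := by
    have h2 : Tendsto (fun L : ℕ => ((L + 1 : ℕ) : ℝ) / L) atTop (𝓝 1) := by
      have h3 : Tendsto (fun L : ℕ => 1 + 1 / (L : ℝ)) atTop (𝓝 (1 + 0)) :=
        tendsto_const_nhds.add tendsto_one_div_atTop_nhds_zero_nat
      rw [add_zero] at h3
      refine h3.congr' ?_
      filter_upwards [eventually_gt_atTop 0] with L hL
      have : (L : ℝ) ≠ 0 := by exact_mod_cast hL.ne'
      push_cast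
      field_simp
    have h4 := h2.pow n
    rwa [one_pow] at h4
  obtain ⟨L₁, hL₁⟩ := eventually_atTop.1 (h1.eventually (gt_mem_nhds (show (1 : ℝ) < 1 + τ by linarith)))
  let M : ℕ := max (max L₀ L₁) 1
  have hM0 : L₀ ≤ M := le_trans (le_max_left _ _) (le_max_left _ _)
  have hM1 : L₁ ≤ M := le_trans (le_max_right _ _) (le_max_left _ _)
  have hM2 : 1 ≤ M := le_max_right _ _
  refine ⟨R * (4 * M) ^ n, fun N hN => ?_⟩
  -- the largest L with R (4L)^n ≤ N
  have hb : ∀ L, R * (4 * L) ^ n ≤ N → L ≤ N := by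
    intro L hL
    have h2 : L ≤ (4 * L) ^ n := by
      calc L ≤ 4 * L := by omega
        _ = (4 * L) ^ 1 := (pow_one _).symm
        _ ≤ (4 * L) ^ n := by
          rcases Nat.eq_zero_or_pos L with h | h
          · subst h
            simp
          · exact Nat.pow_le_pow_right (by omega) hn
    calc L ≤ (4 * L) ^ n := h2
      _ ≤ R * (4 * L) ^ n := Nat.le_mul_of_pos_left _ hR
      _ ≤ N := hL
  let L : ℕ := Nat.findGreatest (fun L => R * (4 * L) ^ n ≤ N) N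
  have hML : M ≤ N := hb M hN
  have hLM : M ≤ L := Nat.le_findGreatest hML hN
  have hLN : R * (4 * L) ^ n ≤ N := Nat.findGreatest_spec (P := fun L => R * (4 * L) ^ n ≤ N) hML hN
  have hL1 : ¬ R * (4 * (L + 1)) ^ n ≤ N := by
    intro h2
    have h3 := Nat.le_findGreatest (P := fun L => R * (4 * L) ^ n ≤ N) (hb _ h2) h2
    have : L + 1 ≤ L := h3
    omega
  refine ⟨L, hM0.trans hLM, ?_, hLN, ?_⟩
  · have : 0 < L := by omega
    positivity
  · have hLpos : (0 : ℝ) < L := by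
      have : 0 < L := by omega
      exact_mod_cast this
    have h5 := hL₁ L (hM1.trans hLM)
    have h6 : (N : ℝ) < ((R * (4 * (L + 1)) ^ n : ℕ) : ℝ) := by
      exact_mod_cast not_le.1 hL1
    have h7 : ((R * (4 * (L + 1)) ^ n : ℕ) : ℝ) =
        (((L + 1 : ℕ) : ℝ) / L) ^ n * ((R * (4 * L) ^ n : ℕ) : ℝ) := by
      push_cast
      rw [div_pow, mul_pow, mul_pow]
      field_simp
    rw [h7] at h6
    have h8 : (0 : ℝ) < ((R * (4 * L) ^ n : ℕ) : ℝ) := by
      push_cast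
      have : (0 : ℝ) < R := by exact_mod_cast hR
      positivity
    nlinarith

theorem flat_all {ε : ℝ} (hε : 0 < ε) :
    ∃ N₁ : ℕ, ∀ N ≥ N₁, ∃ a : ℕ → ℝ, (∀ j, a j = 1 ∨ a j = -1) ∧
      ∫ x in (0 : ℝ)..1, |‖∑ j ∈ Finset.range N, (a j : ℂ) * e1 (j * x)‖ ^ 2 / N - 1| ≤ ε := by
  obtain ⟨τ, hτ0, hτ1, hs5, hs2, hfin⟩ : ∃ τ : ℝ, 0 < τ ∧ τ ≤ 1 / 1000 ∧
      Real.sqrt (5 * τ) ≤ 1 / 2 ∧ Real.sqrt (2 * τ) ≤ 1 ∧
      3 * (τ + (3 * (τ + Real.sqrt (5 * τ)) + 5 * Real.sqrt (2 * τ))) +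
        5 * Real.sqrt (2 * τ) ≤ min ε 1 := by
    have hc : Continuous fun τ : ℝ =>
        3 * (τ + (3 * (τ + Real.sqrt (5 * τ)) + 5 * Real.sqrt (2 * τ))) +
          5 * Real.sqrt (2 * τ) := by
      fun_prop
    have h1 := hc.tendsto 0
    simp only [mul_zero, Real.sqrt_zero, add_zero] at h1
    have h2 : Tendsto (fun τ : ℝ => Real.sqrt (5 * τ)) (𝓝 0) (𝓝 0) := by
      have : Continuous fun τ : ℝ => Real.sqrt (5 * τ) := by fun_prop
      have h := this.tendsto 0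
      simpa using h
    have h3 : Tendsto (fun τ : ℝ => Real.sqrt (2 * τ)) (𝓝 0) (𝓝 0) := by
      have : Continuous fun τ : ℝ => Real.sqrt (2 * τ) := by fun_prop
      have h := this.tendsto 0
      simpa using h
    have e1' := (h1.eventually (ge_mem_nhds (show (0 : ℝ) < min ε 1 by
      exact lt_min hε one_pos))).filter_mono (nhdsWithin_le_nhds (s := Set.Ioi 0))
    have e2' := (h2.eventually (ge_mem_nhds (show (0 : ℝ) < 1 / 2 by norm_num))).filter_mono
      (nhdsWithin_le_nhds (s := Set.Ioi 0))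
    have e3' := (h3.eventually (ge_mem_nhds (show (0 : ℝ) < 1 by norm_num))).filter_mono
      (nhdsWithin_le_nhds (s := Set.Ioi 0))
    have e4' : ∀ᶠ τ : ℝ in 𝓝[>] 0, τ ∈ Set.Ioo (0 : ℝ) (1 / 1000) :=
      Ioo_mem_nhdsGT (by norm_num)
    obtain ⟨τ, ⟨⟨h4, h5⟩, h6⟩, h7⟩ := (((e1'.and e2').and e3').and e4').exists
    exact ⟨τ, h7.1, h7.2.le, h5, h6, h4⟩
  obtain ⟨n, R, hn, hR, _, hev⟩ := flat_family hτ0 hτ1 hs5 hs2 1
  obtain ⟨L₀, hL₀⟩ := eventually_atTop.1 hev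
  obtain ⟨N₁, hN₁⟩ := exists_len hn hR hτ0 L₀
  refine ⟨N₁, fun N hN => ?_⟩
  obtain ⟨L, hL, hpos, hle, hup⟩ := hN₁ N hN
  obtain ⟨a, ha, hint⟩ := hL₀ L hL
  obtain ⟨M, hM⟩ : ∃ M : ℕ, M = R * (4 * L) ^ n := ⟨_, rfl⟩
  rw [← hM] at hint hpos hle hup
  refine ⟨fun j => if j < M then a j else 1, ?_, ?_⟩
  · intro j
    dsimp only
    split_ifs
    · exact ha j
    · exact Or.inl rfl
  let g : ℝ → ℂ := fun x => ∑ j ∈ Finset.range N, (if j < M then (0 : ℂ) else 1) * e1 (j * x)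
  let f : ℝ → ℂ := fun x => ∑ j ∈ Finset.range M, (a j : ℂ) * e1 (j * x)
  have hfc : Continuous f :=
    continuous_finsetSum _ fun j _ =>
      continuous_const.mul (continuous_e1.comp (continuous_const.mul continuous_id))
  have hgc : Continuous g :=
    continuous_finsetSum _ fun j _ =>
      continuous_const.mul (continuous_e1.comp (continuous_const.mul continuous_id))
  have hsplit : ∀ x : ℝ, ∑ j ∈ Finset.range N,
      (((fun j => if j < M then a j else 1) j : ℝ) : ℂ) * e1 (j * x) = f x + g x := by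
    intro x
    have h1 : f x = ∑ j ∈ Finset.range N, (if j < M then (a j : ℂ) else 0) * e1 (j * x) := by
      show ∑ j ∈ Finset.range M, (a j : ℂ) * e1 (j * x) = _
      rw [← Finset.sum_subset (Finset.range_mono hle)]
      · refine Finset.sum_congr rfl fun j hj => ?_
        rw [if_pos (Finset.mem_range.1 hj)]
      · intro j _ hj
        rw [if_neg (fun h => hj (Finset.mem_range.2 h)), zero_mul]
    rw [h1]
    show _ = _ + ∑ j ∈ Finset.range N, _
    rw [← Finset.sum_add_distrib]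
    refine Finset.sum_congr rfl fun j _ => ?_
    dsimp only
    split_ifs <;> push_cast <;> ring
  have hg : ∫ x in (0 : ℝ)..1, ‖g x‖ ^ 2 = (N : ℝ) - M := by
    show ∫ x in (0 : ℝ)..1, ‖∑ j ∈ Finset.range N,
      (fun j : ℕ => if j < M then (0 : ℂ) else 1) j * e1 (j * x)‖ ^ 2 = _
    rw [integral_normSq_poly N (fun j => if j < M then (0 : ℂ) else 1)]
    have h1 : ∀ j ∈ Finset.range N, ‖(if j < M then (0 : ℂ) else 1)‖ ^ 2 =
        (1 : ℝ) - if j < M then 1 else 0 := by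
      intro j _
      split_ifs <;> simp
    rw [Finset.sum_congr rfl h1, Finset.sum_sub_distrib, Finset.sum_const, Finset.card_range,
      ← Finset.sum_filter]
    have h2 : (Finset.range N).filter (fun j => j < M) = Finset.range M := by
      ext j
      simp only [Finset.mem_filter, Finset.mem_range]
      omega
    rw [h2]
    simp
  have hMr : (0 : ℝ) < M := by exact_mod_cast hpos
  have hMN : (M : ℝ) ≤ N := by exact_mod_cast hle
  obtain ⟨σ, hσ⟩ : ∃ σ : ℝ, σ = 3 * (τ + Real.sqrt (5 * τ)) + 5 * Real.sqrt (2 * τ) := ⟨_, rfl⟩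
  rw [← hσ] at hint hfin
  have hs0 : 0 ≤ Real.sqrt (5 * τ) := Real.sqrt_nonneg _
  have hs1 : 0 ≤ Real.sqrt (2 * τ) := Real.sqrt_nonneg _
  have hσ0 : 0 ≤ σ := by
    rw [hσ]
    positivity
  have hmin1 : min ε 1 ≤ 1 := min_le_right _ _
  have hmin2 : min ε 1 ≤ ε := min_le_left _ _
  have hp := perturb (Λ := M) (N := N) (τ := τ + σ) (ρ := Real.sqrt (2 * τ)) hfc hgc hMr hMN
    (hup.trans (mul_le_mul_of_nonneg_right (by linarith) hMr.le)) (by linarith) (by linarith) hs1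
    hs2 (hint.trans (by linarith)) (by
      rw [hg, Real.sq_sqrt (by linarith)]
      nlinarith)
  have heq : (fun x : ℝ => |‖∑ j ∈ Finset.range N,
      (((fun j => if j < M then a j else 1) j : ℝ) : ℂ) * e1 (j * x)‖ ^ 2 / N - 1|) =
      fun x => |‖f x + g x‖ ^ 2 / N - 1| := by
    funext x
    rw [hsplit]
  rw [heq]
  exact hp.trans (by linarith)

end Vale.Agent.P110F
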